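import Vale.Agent.P067.Sub.Chain

/-!
Reduced acyclicity of families of finite vertex sets, in low degrees, over the field with two
elements: with and without a bound on the size of fillings, removal of vertices, cones and joins.
A family is `Acy m` if every cycle on sets with `c < m` vertices is a boundary; for `m = 1` this
says nonempty, for `m = 2` connected, and joins add the indices.
-/

namespace Vale.Agent.P067.KO

open Finset Vale.Agent.P067.Sub

variable {α : Type*} [DecidableEq α]

/-- the members with `c` vertices -/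
def Sz (P : Finset α → Prop) (c : ℕ) : Finset α → Prop := fun s => P s ∧ s.card = c

/-- closed under subsets -/
def Down (P : Finset α → Prop) : Prop := ∀ s t, P s → t ⊆ s → P t

/-- every cycle on sets with fewer than `m` vertices is a boundary -/
def Acy (P : Finset α → Prop) (m : ℕ) : Prop :=
  ∀ c < m, ∀ z ∈ On (Sz P c), bd z = 0 → ∃ w ∈ On (Sz P (c + 1)), bd w = z

/-- acyclic with fillings whose size is bounded by `L` of the size of the cycle -/
def AcyB (L : ℕ → ℕ) (P : Finset α → Prop) (m : ℕ) : Prop :=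
  ∀ c < m, ∀ z ∈ On (Sz P c), bd z = 0 → ∀ s, z.support.card ≤ s →
    ∃ w ∈ On (Sz P (c + 1)), bd w = z ∧ w.support.card ≤ L s

omit [DecidableEq α] in
theorem Sz_mono {P Q : Finset α → Prop} (h : ∀ s, P s → Q s) {c : ℕ} {z : Ch α}
    (hz : z ∈ On (Sz P c)) : z ∈ On (Sz Q c) := On_mono (fun s hs => ⟨h s hs.1, hs.2⟩) hz

theorem AcyB.acy {L : ℕ → ℕ} {P : Finset α → Prop} {m : ℕ} (h : AcyB L P m) : Acy P m :=
  fun c hc z hz hb => by
    obtain ⟨w, hw, hwb, _⟩ := h c hc z hz hb _ le_rfl
    exact ⟨w, hw, hwb⟩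

theorem Acy.mono {P : Finset α → Prop} {m m' : ℕ} (h : Acy P m) (hm : m' ≤ m) : Acy P m' :=
  fun c hc => h c (lt_of_lt_of_le hc hm)

theorem AcyB.mono {L L' : ℕ → ℕ} {P : Finset α → Prop} {m m' : ℕ} (h : AcyB L P m)
    (hm : m' ≤ m) (hL : ∀ s, L s ≤ L' s) : AcyB L' P m' :=
  fun c hc z hz hb s hs => by
    obtain ⟨w, hw, hwb, hws⟩ := h c (lt_of_lt_of_le hc hm) z hz hb s hs
    exact ⟨w, hw, hwb, hws.trans (hL s)⟩

/-- the part of a chain through `v`, with `v` deleted -/
noncomputable def uncone (v : α) : Ch α →ₗ[ZMod 2] Ch α :=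
  lift fun s => if v ∈ s then sg (s.erase v) else 0

/-- the part of a chain away from `v` -/
noncomputable def keep (v : α) : Ch α →ₗ[ZMod 2] Ch α :=
  lift fun s => if v ∈ s then 0 else sg s

theorem cone_uncone_add_keep (v : α) (z : Ch α) : cone v (uncone v z) + keep v z = z := by
  have h : (cone v).comp (uncone v) + keep v = (LinearMap.id : Ch α →ₗ[ZMod 2] Ch α) := by
    refine ext_sg fun s => ?_
    simp only [LinearMap.add_apply, LinearMap.comp_apply, LinearMap.id_apply, uncone, keep,
      lift_sg]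
    by_cases hv : v ∈ s
    · rw [if_pos hv, if_pos hv, add_zero, cone, lift_sg, if_neg (Finset.notMem_erase v s),
        Finset.insert_erase hv]
    · rw [if_neg hv, if_neg hv, map_zero, zero_add]
  exact LinearMap.congr_fun h z

theorem uncone_bd (v : α) (z : Ch α) : uncone v (bd z) = bd (uncone v z) := by
  have h : (uncone v).comp bd = bd.comp (uncone v) := by
    refine ext_sg fun s => ?_
    simp only [LinearMap.comp_apply, bd_sg, map_sum, uncone, lift_sg]
    by_cases hv : v ∈ s
    · rw [if_pos hv, bd_sg, ← Finset.add_sum_erase s _ hv, if_neg (Finset.notMem_erase v s),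
        zero_add]
      refine Finset.sum_congr rfl fun x hx => ?_
      rw [if_pos (Finset.mem_erase.mpr ⟨(Finset.mem_erase.mp hx).1.symm, hv⟩),
        Finset.erase_right_comm]
    · rw [if_neg hv, map_zero]
      refine Finset.sum_eq_zero fun x _ => ?_
      rw [if_neg fun h => hv (Finset.mem_of_mem_erase h)]
  exact LinearMap.congr_fun h z

theorem uncone_eq_zero {v : α} {z : Ch α} (h : ∀ s ∈ z.support, v ∉ s) : uncone v z = 0 := by
  have : uncone v z ∈ (⊥ : Submodule (ZMod 2) (Ch α)) := by
    refine map_On (P := fun s => v ∉ s) (uncone v) (fun s hs => ?_) (mem_On.mpr h)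
    simp [uncone, hs]
  simpa using this

theorem mem_On_uncone {P : Finset α → Prop} {c : ℕ} {v : α} {z : Ch α}
    (hz : z ∈ On (Sz P (c + 1))) :
    uncone v z ∈ On (Sz (fun t => v ∉ t ∧ P (insert v t)) c) := by
  refine map_On (uncone v) (fun s hs => ?_) hz
  rw [uncone, lift_sg]
  split_ifs with hv
  · refine sg_mem ⟨⟨Finset.notMem_erase v s, ?_⟩, ?_⟩
    · rw [Finset.insert_erase hv]
      exact hs.1
    · rw [Finset.card_erase_of_mem hv, hs.2]
      rfl
  · exact Submodule.zero_mem _

theorem mem_On_keep {P : Finset α → Prop} {v : α} {z : Ch α} (hz : z ∈ On P) :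
    keep v z ∈ On (fun t => v ∉ t ∧ P t) := by
  refine map_On (keep v) (fun s hs => ?_) hz
  rw [keep, lift_sg]
  split_ifs with hv
  · exact Submodule.zero_mem _
  · exact sg_mem ⟨hv, hs⟩

theorem card_support_uncone (v : α) (z : Ch α) :
    (uncone v z).support.card ≤ z.support.card := by
  refine (card_support_map_le (uncone v) (L := 1) fun s _ => ?_).trans_eq (mul_one _)
  rw [uncone, lift_sg]
  split_ifs
  · exact (Finset.card_le_card Finsupp.support_single_subset).trans_eq (Finset.card_singleton _)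
  · simp

theorem card_support_keep (v : α) (z : Ch α) : (keep v z).support.card ≤ z.support.card := by
  refine (card_support_map_le (keep v) (L := 1) fun s _ => ?_).trans_eq (mul_one _)
  rw [keep, lift_sg]
  split_ifs
  · simp
  · exact (Finset.card_le_card Finsupp.support_single_subset).trans_eq (Finset.card_singleton _)

/-- the link of `v` below its key: old vertices and new ones of smaller key -/
def LowLink {κ : Type*} [LT κ] (P : Finset α → Prop) (X : α → Prop) (key : α → κ) (v : α) :
    Finset α → Prop :=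
  fun t => v ∉ t ∧ P (insert v t) ∧ ∀ u ∈ t, X u → key u < key v

/-- distinct adjacent new vertices have distinct keys -/
def KeySep {κ : Type*} (P : Finset α → Prop) (X : α → Prop) (key : α → κ) : Prop :=
  ∀ s, P s → ∀ u ∈ s, ∀ v ∈ s, X u → X v → key u = key v → u = v

theorem LowLink.of_le {κ : Type*} [LinearOrder κ] {P : Finset α → Prop} {X : α → Prop}
    {key : α → κ} (hsep : KeySep P X key) {v : α} (hv : X v) {t : Finset α}
    (ht : v ∉ t) (hP : P (insert v t)) (hle : ∀ u ∈ t, X u → key u ≤ key v) :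
    LowLink P X key v t :=
  ⟨ht, hP, fun u hu hX => lt_of_le_of_ne (hle u hu hX) fun he => ht (by
    rw [← hsep _ hP u (Finset.mem_insert_of_mem hu) v (Finset.mem_insert_self v t) hX hv he]
    exact hu)⟩

/-- one new vertex of largest key is removed from a chain without changing its boundary -/
theorem clean_step {κ : Type*} [LinearOrder κ] {P : Finset α → Prop} {X : α → Prop}
    {key : α → κ} (hdown : Down P) (hsep : KeySep P X key) {v : α} (hv : X v) {c : ℕ}
    (hlink : ∀ a ∈ On (Sz (LowLink P X key v) c), bd a = 0 →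
      ∃ e ∈ On (Sz (LowLink P X key v) (c + 1)), bd e = a)
    {w : Ch α} (hw : w ∈ On (Sz P (c + 1)))
    (hle : ∀ s ∈ w.support, ∀ u ∈ s, X u → key u ≤ key v)
    (hbd : ∀ s ∈ (bd w).support, v ∉ s) :
    ∃ e ∈ On (Sz (LowLink P X key v) (c + 1)),
      bd e = uncone v w ∧ keep v w + e = w + bd (cone v e) ∧
      cone v e ∈ On (Sz P (c + 1 + 1)) ∧ keep v w + e ∈ On (Sz P (c + 1)) := by
  have ha : uncone v w ∈ On (Sz (LowLink P X key v) c) := by
    have h1 : uncone v w ∈
        On (Sz (fun t => v ∉ t ∧ P (insert v t) ∧ ∀ u ∈ t, X u → key u ≤ key v) c) := by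
      have := mem_On_uncone (v := v) (P := fun s => P s ∧ ∀ u ∈ s, X u → key u ≤ key v)
        (c := c) (z := w) (mem_On.mpr fun s hs => ⟨⟨(hw hs).1, hle s hs⟩, (hw hs).2⟩)
      exact Sz_mono (fun t ht => ⟨ht.1, ht.2.1, fun u hu =>
        ht.2.2 u (Finset.mem_insert_of_mem hu)⟩) this
    exact Sz_mono (fun t ht => LowLink.of_le hsep hv ht.1 ht.2.1 ht.2.2) h1
  have hz : bd (uncone v w) = 0 := by rw [← uncone_bd, uncone_eq_zero hbd]
  obtain ⟨e, he, heq⟩ := hlink _ ha hz
  refine ⟨e, he, heq, ?_, ?_, ?_⟩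
  · have h1 := bd_cone v e
    rw [heq] at h1
    have h3 : bd (cone v e) = e + cone v (uncone v w) := by
      calc bd (cone v e)
          = bd (cone v e) + (cone v (uncone v w) + cone v (uncone v w)) := by
            rw [add_self', add_zero]
        _ = e + cone v (uncone v w) := by rw [← add_assoc, h1]
    conv_rhs => rw [h3]; arg 1; rw [← cone_uncone_add_keep v w]
    calc keep v w + e
        = (keep v w + e) + (cone v (uncone v w) + cone v (uncone v w)) := by
          rw [add_self', add_zero]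
      _ = cone v (uncone v w) + keep v w + (e + cone v (uncone v w)) := by abel
  · exact cone_On v (fun t ht hvt =>
      ⟨ht.1.2.1, by rw [Finset.card_insert_of_notMem hvt, ht.2]⟩) he
  · refine Submodule.add_mem _ (On_mono (fun s hs => hs.2) (mem_On_keep hw)) (Sz_mono ?_ he)
    exact fun t ht => hdown _ _ ht.2.1 (Finset.subset_insert v t)

/-- new vertices can be removed from a chain whose boundary avoids them -/
theorem clean {κ : Type*} [LinearOrder κ] [WellFoundedLT κ] {P : Finset α → Prop}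
    {X : α → Prop} {key : α → κ} (hdown : Down P) (hsep : KeySep P X key) {c : ℕ}
    (hlink : ∀ v, X v → P {v} → ∀ a ∈ On (Sz (LowLink P X key v) c), bd a = 0 →
      ∃ e ∈ On (Sz (LowLink P X key v) (c + 1)), bd e = a)
    {w : Ch α} (hw : w ∈ On (Sz P (c + 1)))
    (hbd : ∀ s ∈ (bd w).support, ∀ u ∈ s, ¬ X u) :
    ∃ w' ∈ On (Sz (fun s => P s ∧ ∀ u ∈ s, ¬ X u) (c + 1)),
      ∃ y ∈ On (Sz P (c + 1 + 1)), w' = w + bd y := by
  classical
  let nv : Ch α → Finset α := fun w => w.support.biUnion fun s => s.filter fun u => X u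
  suffices h : ∀ (M : κ) (N : ℕ) (w : Ch α), w ∈ On (Sz P (c + 1)) →
      (∀ s ∈ (bd w).support, ∀ u ∈ s, ¬ X u) → (∀ u ∈ nv w, key u ≤ M) →
      ((nv w).filter fun u => key u = M).card ≤ N →
      ∃ w' ∈ On (Sz (fun s => P s ∧ ∀ u ∈ s, ¬ X u) (c + 1)),
        ∃ y ∈ On (Sz P (c + 1 + 1)), w' = w + bd y by
    rcases (nv w).eq_empty_or_nonempty with h0 | h0
    · refine ⟨w, mem_On.mpr fun s hs => ⟨⟨(hw hs).1, fun u hu hX => ?_⟩, (hw hs).2⟩,
        0, Submodule.zero_mem _, by simp⟩
      have : u ∈ nv w := Finset.mem_biUnion.mpr ⟨s, hs, Finset.mem_filter.mpr ⟨hu, hX⟩⟩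
      simp [h0] at this
    · exact h ((nv w).sup' h0 key) _ w hw hbd (fun u hu => Finset.le_sup' key hu) le_rfl
  intro M
  induction M using WellFoundedLT.induction with
  | ind M ihM =>
    intro N
    induction N with
    | zero =>
      intro w hw hbd hle hcard
      rcases (nv w).eq_empty_or_nonempty with h0 | h0
      · refine ⟨w, mem_On.mpr fun s hs => ⟨⟨(hw hs).1, fun u hu hX => ?_⟩, (hw hs).2⟩,
        0, Submodule.zero_mem _, by simp⟩
        have : u ∈ nv w := Finset.mem_biUnion.mpr ⟨s, hs, Finset.mem_filter.mpr ⟨hu, hX⟩⟩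
        simp [h0] at this
      · refine ihM ((nv w).sup' h0 key) ?_ _ w hw hbd (fun u hu => Finset.le_sup' key hu) le_rfl
        obtain ⟨u, hu, hue⟩ := Finset.exists_mem_eq_sup' h0 key
        rw [hue]
        refine lt_of_le_of_ne (hle u hu) fun he => ?_
        have hmem : u ∈ (nv w).filter fun u => key u = M := Finset.mem_filter.mpr ⟨hu, he⟩
        simp [Finset.card_eq_zero.mp (Nat.le_zero.mp hcard)] at hmem
    | succ N ihN =>
      intro w hw hbd hle hcard
      by_cases hex : ∃ v ∈ nv w, key v = M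
      swap
      · exact ihN w hw hbd hle (le_of_eq_of_le (Finset.card_eq_zero.mpr
          (Finset.filter_eq_empty_iff.mpr fun u hu he => hex ⟨u, hu, he⟩)) (Nat.zero_le _))
      obtain ⟨v, hv, hvM⟩ := hex
      obtain ⟨s, hs, hvs⟩ := Finset.mem_biUnion.mp hv
      obtain ⟨hvs, hXv⟩ := Finset.mem_filter.mp hvs
      have hPv : P {v} := hdown s _ (hw hs).1 (Finset.singleton_subset_iff.mpr hvs)
      obtain ⟨e, he, _, heq, hcone, hmem⟩ := clean_step hdown hsep hXv (hlink v hXv hPv) hw
        (fun s hs u hu hX => hvM ▸ hle u (Finset.mem_biUnion.mpr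
          ⟨s, hs, Finset.mem_filter.mpr ⟨hu, hX⟩⟩))
        (fun s hs hv => hbd s hs v hv hXv)
      have hsub : ∀ u ∈ nv (keep v w + e), u ≠ v ∧ u ∈ nv w ∨ key u < M := by
        intro u hu
        obtain ⟨t, ht, hut⟩ := Finset.mem_biUnion.mp hu
        obtain ⟨hut, hXu⟩ := Finset.mem_filter.mp hut
        rcases Finset.mem_union.mp (Finsupp.support_add ht) with h | h
        · refine Or.inl ⟨fun huv => ?_, Finset.mem_biUnion.mpr
            ⟨t, ?_, Finset.mem_filter.mpr ⟨hut, hXu⟩⟩⟩
          · exact (mem_On_keep hw h).1 (huv ▸ hut)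
          · exact (mem_On_keep (P := fun t => t ∈ w.support)
              (mem_On.mpr fun t ht => ht) h).2
        · exact Or.inr (hvM ▸ (he h).1.2.2 u hut hXu)
      refine (ihN (keep v w + e) hmem ?_ ?_ ?_).elim fun w' hw => ?_
      · rwa [heq, map_add, bd_bd, add_zero]
      · intro u hu
        rcases hsub u hu with h | h
        · exact hle u h.2
        · exact h.le
      · have hss : ((nv (keep v w + e)).filter fun u => key u = M) ⊆
            ((nv w).filter fun u => key u = M).erase v := by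
          intro u hu
          obtain ⟨hu, huM⟩ := Finset.mem_filter.mp hu
          rcases hsub u hu with h | h
          · exact Finset.mem_erase.mpr ⟨h.1, Finset.mem_filter.mpr ⟨h.2, huM⟩⟩
          · exact absurd huM h.ne
        refine (Finset.card_le_card hss).trans ?_
        rw [Finset.card_erase_of_mem (Finset.mem_filter.mpr ⟨hv, hvM⟩)]
        omega
      · obtain ⟨hw', y, hy, hww⟩ := hw
        exact ⟨w', hw', y + cone v e, Submodule.add_mem _ hy hcone, by
          rw [hww, heq, map_add]; abel⟩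

omit [DecidableEq α] in
theorem avoid_of_bd {X : α → Prop} {P : Finset α → Prop} {c : ℕ} {z : Ch α}
    (hz : z ∈ On (Sz (fun s => P s ∧ ∀ u ∈ s, ¬ X u) c)) :
    ∀ s ∈ z.support, ∀ u ∈ s, ¬ X u := fun _ hs => (hz hs).1.2

theorem zero_card_cycle {P : Finset α → Prop} {v : α} (hv : P {v}) {z : Ch α}
    (hz : z ∈ On (Sz P 0)) : bd (cone v z) = z ∧ cone v z ∈ On (Sz P 1) := by
  refine ⟨?_, cone_On v (fun s hs _ => ?_) hz⟩
  · have hb : bd z = 0 := by
      have : bd z ∈ (⊥ : Submodule (ZMod 2) (Ch α)) :=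
        map_On bd (fun s hs => by simp [bd_sg, Finset.card_eq_zero.mp hs.2]) hz
      simpa using this
    simpa [hb] using bd_cone v z
  · rw [Finset.card_eq_zero.mp hs.2]
    exact ⟨by simpa using hv, rfl⟩

/-- removing vertices with acyclic links keeps acyclicity -/
theorem Acy.remove {κ : Type*} [LinearOrder κ] [WellFoundedLT κ] {P : Finset α → Prop}
    {X : α → Prop} {key : α → κ} {m : ℕ} (hdown : Down P) (hsep : KeySep P X key)
    (hlink : ∀ v, X v → P {v} → Acy (LowLink P X key v) m) (hP : Acy P m) :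
    Acy (fun s => P s ∧ ∀ u ∈ s, ¬ X u) m := by
  intro c hc z hz hb
  obtain ⟨w, hw, hwz⟩ := hP c hc z (Sz_mono (fun s hs => hs.1) hz) hb
  obtain ⟨w', hw', y, _, h'⟩ := clean hdown hsep (fun v hv hPv => hlink v hv hPv c hc) hw
    (hwz ▸ avoid_of_bd hz)
  exact ⟨w', hw', by rw [h', map_add, bd_bd, add_zero, hwz]⟩

/-- adding vertices with acyclic links keeps acyclicity -/
theorem Acy.add {κ : Type*} [LinearOrder κ] [WellFoundedLT κ] {P : Finset α → Prop}
    {X : α → Prop} {key : α → κ} {m : ℕ} (hdown : Down P) (hsep : KeySep P X key)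
    (hlink : ∀ v, X v → P {v} → Acy (LowLink P X key v) m)
    (hQ : Acy (fun s => P s ∧ ∀ u ∈ s, ¬ X u) (m + 1)) : Acy P (m + 1) := by
  intro c hc z hz hb
  rcases c with _ | c
  · obtain ⟨w, hw, hwz⟩ := hQ 0 (Nat.succ_pos m) z (mem_On.mpr fun s hs => ⟨⟨(hz hs).1, by
      simp [Finset.card_eq_zero.mp (hz hs).2]⟩, (hz hs).2⟩) hb
    exact ⟨w, Sz_mono (fun s hs => hs.1) hw, hwz⟩
  · obtain ⟨z', hz', y, hy, h'⟩ := clean hdown hsep
      (fun v hv hPv => hlink v hv hPv c (by omega)) hz (by simp [hb])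
    obtain ⟨w', hw', hw'z⟩ := hQ (c + 1) hc z' hz' (by rw [h', map_add, bd_bd, add_zero, hb])
    refine ⟨w' + y, Submodule.add_mem _ (Sz_mono (fun s hs => hs.1) hw') hy, ?_⟩
    rw [map_add, hw'z, h', add_assoc, add_self', add_zero]

end Vale.Agent.P067.KO
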