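import Vale.Agent.P067.KO.Acy

/-!
Fillings of bounded size: contraction along a carrier, addition of vertices with explicit bounds,
transfer along maps that are injective on vertices, and the hierarchy of bounds `B M i` used for
the subspace complexes.
-/

namespace Vale.Agent.P067.KO

open Finset Vale.Agent.P067.Sub

variable {α : Type*} [DecidableEq α]

/-! ### Bounds -/

/-- one removed vertex -/
def stepB (L : ℕ → ℕ) (t : ℕ) : ℕ := t + 2 * L t

/-- one level of keys -/
def levelB (M : ℕ) (L : ℕ → ℕ) (t : ℕ) : ℕ := (stepB L)^[(M + 1) * t] t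

/-- all levels of keys -/
def cleanB (M : ℕ) (L : ℕ → ℕ) (t : ℕ) : ℕ := (levelB M L)^[M + 1] t

/-- the bound after adding vertices whose links have bound `L` to a family with bound `L` -/
def addBound (M : ℕ) (L : ℕ → ℕ) (s : ℕ) : ℕ := L (cleanB M L s) + cleanB M L s + L s

/-- the bound of a contraction along a carrier -/
def coneB (M s : ℕ) : ℕ := s * 2 ^ (2 * M + 3)

/-- the bounds after `i` rounds of additions -/
def B (M i : ℕ) : ℕ → ℕ := (addBound M)^[i] (coneB M)

theorem le_stepB (L : ℕ → ℕ) : id ≤ stepB L := fun t => by simp [stepB]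

theorem stepB_mono {L : ℕ → ℕ} (hL : Monotone L) : Monotone (stepB L) := fun a b h => by
  have := hL h
  simp only [stepB]
  omega

theorem le_levelB (M : ℕ) (L : ℕ → ℕ) : id ≤ levelB M L := fun t =>
  Function.id_le_iterate_of_id_le (le_stepB L) _ t

theorem levelB_mono {L : ℕ → ℕ} (hL : Monotone L) (M : ℕ) : Monotone (levelB M L) := fun _ b h =>
  ((stepB_mono hL).iterate _ h).trans
    (Function.monotone_iterate_of_id_le (le_stepB L) (Nat.mul_le_mul_left _ h) b)

theorem cleanB_mono {L : ℕ → ℕ} (hL : Monotone L) (M : ℕ) : Monotone (cleanB M L) :=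
  (levelB_mono hL M).iterate _

theorem le_addBound (M : ℕ) (L : ℕ → ℕ) (s : ℕ) : L s ≤ addBound M L s := Nat.le_add_left _ _

theorem addBound_mono {L : ℕ → ℕ} (hL : Monotone L) (M : ℕ) : Monotone (addBound M L) := fun a b h => by
  have h1 := cleanB_mono hL M h
  exact Nat.add_le_add (Nat.add_le_add (hL h1) h1) (hL h)

theorem B_mono (M i : ℕ) : Monotone (B M i) := by
  induction i with
  | zero => exact fun a b h => Nat.mul_le_mul_right _ h
  | succ i ih =>
    rw [B, Function.iterate_succ_apply']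
    exact addBound_mono ih M

theorem B_succ (M i : ℕ) : B M (i + 1) = addBound M (B M i) := Function.iterate_succ_apply' _ _ _

theorem B_le (M : ℕ) {i j : ℕ} (h : i ≤ j) (s : ℕ) : B M i s ≤ B M j s := by
  induction h with
  | refl => exact le_rfl
  | step _ ih => exact ih.trans (by rw [B_succ]; exact le_addBound M _ s)

/-! ### Generalities -/

theorem AcyB.congr {L : ℕ → ℕ} {P Q : Finset α → Prop} {m : ℕ} (h : AcyB L P m)
    (e : ∀ s, P s ↔ Q s) : AcyB L Q m := by
  rwa [show Q = P from funext fun s => propext (e s).symm]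

theorem card_support_cone' (v : α) (z : Ch α) : (cone v z).support.card ≤ z.support.card := by
  refine (card_support_map_le (cone v) (L := 1) fun s _ => ?_).trans_eq (mul_one _)
  rw [cone, lift_sg]
  split_ifs
  · simp
  · exact (Finset.card_le_card Finsupp.support_single_subset).trans_eq (Finset.card_singleton _)

theorem acyB_zero (L : ℕ → ℕ) (P : Finset α → Prop) : AcyB L P 0 :=
  fun _ hc => absurd hc (Nat.not_lt_zero _)

/-! ### Contraction along a carrier -/

/-- A family is acyclic, with small fillings, if each member `s` has a small set `K s` of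
vertices, growing with `s`, in which the vertex `t s` may be added to every face. -/
theorem AcyB.carrier {P : Finset α → Prop} (hdown : Down P) (x : α) (hx : P {x})
    (t : Finset α → α) (K : Finset α → Finset α) (hxK : x ∈ K ∅)
    (hsK : ∀ s, P s → s ⊆ K s) (hK : ∀ s, P s → ∀ y ∈ s, K (s.erase y) ⊆ K s)
    (htK : ∀ s, P s → s.Nonempty → t s ∈ K s)
    (hcard : ∀ s, P s → (K s).card ≤ 2 * s.card + 1)
    (hins : ∀ s, P s → s.Nonempty → ∀ u, P u → u ⊆ K s → P (insert (t s) u))
    {M m : ℕ} (hm : m ≤ M + 1) : AcyB (coneB M) P m := by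
  classical
  intro c hc z hz hb sz hsz
  set h := recMap (fun s => cone (t s)) (LinearMap.id : Ch α →ₗ[ZMod 2] Ch α) (sg {x}) with hh
  have hfill : ∀ z, bd (h z) + h (bd z) = z := fun z => by
    have := recMap_homotopy (S := fun s => cone (t s)) (Φ := LinearMap.id) (e := sg {x})
      (fun s => cone_filler _) (fun _ => rfl) (by simp [bd_sg]) z
    simpa using this
  have hcar : ∀ s, h (sg s) ∈
      On (fun u => P s → u ⊆ K s ∧ P u ∧ u.card = s.card + 1) := by
    intro s
    refine recMap_On (fun s u => P s → u ⊆ K s ∧ P u ∧ u.card = s.card + 1)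
      (sg_mem fun _ => ⟨Finset.singleton_subset_iff.2 hxK, hx, by simp⟩) (fun s hs ih => ?_) s
    by_cases hP : P s
    · have hne : s.Nonempty := Finset.nonempty_iff_ne_empty.2 hs
      refine cone_On (t s) (P := fun u => u ⊆ K s ∧ P u ∧ u.card = s.card)
        (fun u hu hc _ => ⟨Finset.insert_subset (htK s hP hne) hu.1,
          hins s hP hne u hu.2.1 hu.1, by rw [Finset.card_insert_of_notMem hc, hu.2.2]⟩) ?_
      refine Submodule.add_mem _ (by simpa using sg_mem ⟨hsK s hP, hP, rfl⟩) ?_
      rw [recMap_bd_sg]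
      refine Submodule.sum_mem _ fun y hy => On_mono (fun u hu => ?_) (ih y hy)
      obtain ⟨h1, h2, h3⟩ := hu (hdown s _ hP (Finset.erase_subset y s))
      exact ⟨h1.trans (hK s hP y hy), h2, by rw [h3, Finset.card_erase_add_one hy]⟩
    · exact fun u _ => fun h => absurd h hP
  refine ⟨h z, map_On h (fun s hs => On_mono (fun u hu => ?_) (hcar s)) hz, ?_, ?_⟩
  · obtain ⟨-, h2, h3⟩ := hu hs.1
    exact ⟨h2, by rw [h3, hs.2]⟩
  · simpa [hb] using hfill z
  · refine (card_support_map_le h (L := 2 ^ (2 * M + 3)) fun s hs => ?_).trans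
      (Nat.mul_le_mul_right _ hsz)
    refine (card_support_le_pow (U := K s) (P := fun u => u ⊆ K s)
      (On_mono (fun u hu => (hu (hz hs).1).1) (hcar s)) fun u hu => hu).trans
      (Nat.pow_le_pow_right (by norm_num) ?_)
    have := hcard s (hz hs).1
    have := (hz hs).2
    omega

/-! ### Addition of vertices -/

/-- new vertices can be removed from a chain whose boundary avoids them, at bounded cost -/
theorem cleanB_spec {P : Finset α → Prop} {X : α → Prop} {key : α → ℕ} {L : ℕ → ℕ} {M c : ℕ}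
    (hL : Monotone L) (hdown : Down P) (hsep : KeySep P X key) (hkey : ∀ v, X v → key v ≤ M)
    (hc : c ≤ M)
    (hlink : ∀ v, X v → P {v} → ∀ a ∈ On (Sz (LowLink P X key v) c), bd a = 0 →
      ∀ s, a.support.card ≤ s →
        ∃ e ∈ On (Sz (LowLink P X key v) (c + 1)), bd e = a ∧ e.support.card ≤ L s)
    {w : Ch α} (hw : w ∈ On (Sz P (c + 1))) (hbd : ∀ s ∈ (bd w).support, ∀ u ∈ s, ¬ X u)
    {t : ℕ} (ht : w.support.card ≤ t) :
    ∃ w' ∈ On (Sz (fun s => P s ∧ ∀ u ∈ s, ¬ X u) (c + 1)),
      ∃ y ∈ On (Sz P (c + 1 + 1)), w' = w + bd y ∧ w'.support.card ≤ cleanB M L t ∧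
        y.support.card ≤ cleanB M L t := by
  classical
  let nv : Ch α → Finset α := fun w => w.support.biUnion fun s => s.filter fun u => X u
  -- `j` bounds the keys that are left, `b` is the size of `w` and of what was spent so far
  suffices H : ∀ j, ∀ (w : Ch α) (b t : ℕ), w ∈ On (Sz P (c + 1)) →
      (∀ s ∈ (bd w).support, ∀ u ∈ s, ¬ X u) → (∀ u ∈ nv w, key u < j) →
      w.support.card + b ≤ t →
      ∃ w' ∈ On (Sz (fun s => P s ∧ ∀ u ∈ s, ¬ X u) (c + 1)), ∃ y ∈ On (Sz P (c + 1 + 1)),
        w' = w + bd y ∧ w'.support.card + (b + y.support.card) ≤ (levelB M L)^[j] t by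
    obtain ⟨w', hw', y, hy, he, hsz⟩ := H (M + 1) w 0 t hw hbd (fun u hu => by
      obtain ⟨s, -, hu⟩ := Finset.mem_biUnion.1 hu
      exact Nat.lt_succ_of_le (hkey u (Finset.mem_filter.1 hu).2)) (by simpa using ht)
    exact ⟨w', hw', y, hy, he, le_trans (by omega) hsz, le_trans (by omega) hsz⟩
  intro j
  induction j with
  | zero =>
    intro w b t hw hbd hle hsz
    refine ⟨w, mem_On.mpr fun s hs => ⟨⟨(hw hs).1, fun u hu hX => ?_⟩, (hw hs).2⟩,
      0, Submodule.zero_mem _, by simp, by simpa using hsz⟩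
    exact absurd (hle u (Finset.mem_biUnion.mpr ⟨s, hs, Finset.mem_filter.mpr ⟨hu, hX⟩⟩))
      (Nat.not_lt_zero _)
  | succ j ihj =>
    suffices K : ∀ N, ∀ (w : Ch α) (b t : ℕ), w ∈ On (Sz P (c + 1)) →
        (∀ s ∈ (bd w).support, ∀ u ∈ s, ¬ X u) → (∀ u ∈ nv w, key u ≤ j) →
        ((nv w).filter fun u => key u = j).card ≤ N → w.support.card + b ≤ t →
        ∃ w' ∈ On (Sz (fun s => P s ∧ ∀ u ∈ s, ¬ X u) (c + 1)), ∃ y ∈ On (Sz P (c + 1 + 1)),
          w' = w + bd y ∧
            w'.support.card + (b + y.support.card) ≤ (levelB M L)^[j] ((stepB L)^[N] t) by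
      intro w b t hw hbd hle hsz
      obtain ⟨w', hw', y, hy, he, h⟩ := K _ w b t hw hbd
        (fun u hu => Nat.le_of_lt_succ (hle u hu)) le_rfl hsz
      refine ⟨w', hw', y, hy, he, h.trans ?_⟩
      rw [Function.iterate_succ_apply]
      refine (levelB_mono hL M).iterate j
        (Function.monotone_iterate_of_id_le (le_stepB L) ?_ t)
      refine (Finset.card_filter_le _ _).trans ?_
      refine (Finset.card_biUnion_le_card_mul _ _ (M + 1) fun s hs => ?_).trans ?_
      · refine (Finset.card_filter_le _ _).trans ?_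
        rw [(hw hs).2]
        omega
      · rw [mul_comm]
        exact Nat.mul_le_mul_left _ (le_trans (Nat.le_add_right _ b) hsz)
    intro N
    induction N with
    | zero =>
      intro w b t hw hbd hle hcard hsz
      refine ihj w b t hw hbd (fun u hu => lt_of_le_of_ne (hle u hu) fun he => ?_) hsz
      exact absurd he (Finset.filter_eq_empty_iff.mp
        (Finset.card_eq_zero.mp (Nat.le_zero.mp hcard)) hu)
    | succ N ihN =>
      intro w b t hw hbd hle hcard hsz
      by_cases hex : ∃ v ∈ nv w, key v = j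
      swap
      · obtain ⟨w', hw', y, hy, he, h⟩ := ihN w b t hw hbd hle (le_of_eq_of_le
          (Finset.card_eq_zero.mpr (Finset.filter_eq_empty_iff.mpr fun u hu he => hex ⟨u, hu, he⟩))
          (Nat.zero_le _)) hsz
        exact ⟨w', hw', y, hy, he, h.trans ((levelB_mono hL M).iterate j
          (Function.monotone_iterate_of_id_le (le_stepB L) (Nat.le_succ N) t))⟩
      obtain ⟨v, hv, hvM⟩ := hex
      obtain ⟨s, hs, hvs⟩ := Finset.mem_biUnion.mp hv
      obtain ⟨hvs, hXv⟩ := Finset.mem_filter.mp hvs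
      have hPv : P {v} := hdown s _ (hw hs).1 (Finset.singleton_subset_iff.mpr hvs)
      have hle' : ∀ s ∈ w.support, ∀ u ∈ s, X u → key u ≤ key v := fun s hs u hu hX =>
        hvM ▸ hle u (Finset.mem_biUnion.mpr ⟨s, hs, Finset.mem_filter.mpr ⟨hu, hX⟩⟩)
      have ha : uncone v w ∈ On (Sz (LowLink P X key v) c) := by
        have := mem_On_uncone (v := v) (P := fun s => P s ∧ ∀ u ∈ s, X u → key u ≤ key v)
          (c := c) (z := w) (mem_On.mpr fun s hs => ⟨⟨(hw hs).1, hle' s hs⟩, (hw hs).2⟩)
        exact Sz_mono (fun t ht => LowLink.of_le hsep hXv ht.1 ht.2.1 fun u hu =>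
          ht.2.2 u (Finset.mem_insert_of_mem hu)) this
      have haz : bd (uncone v w) = 0 := by
        rw [← uncone_bd, uncone_eq_zero fun s hs hv => hbd s hs v hv hXv]
      obtain ⟨e, he, heq, hes⟩ := hlink v hXv hPv _ ha haz t
        ((card_support_uncone v w).trans (le_trans (Nat.le_add_right _ b) hsz))
      have hnew : keep v w + e = w + bd (cone v e) := by
        have h1 := bd_cone v e
        rw [heq] at h1
        have h3 : bd (cone v e) = e + cone v (uncone v w) := by
          calc bd (cone v e)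
              = bd (cone v e) + (cone v (uncone v w) + cone v (uncone v w)) := by
                rw [add_self', add_zero]
            _ = e + cone v (uncone v w) := by rw [← add_assoc, h1]
        conv_rhs => rw [h3]; arg 1; rw [← cone_uncone_add_keep v w]
        calc keep v w + e
            = (keep v w + e) + (cone v (uncone v w) + cone v (uncone v w)) := by
              rw [add_self', add_zero]
          _ = cone v (uncone v w) + keep v w + (e + cone v (uncone v w)) := by abel
      have hmem : keep v w + e ∈ On (Sz P (c + 1)) :=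
        Submodule.add_mem _ (On_mono (fun s hs => hs.2) (mem_On_keep hw))
          (Sz_mono (fun t ht => hdown _ _ ht.2.1 (Finset.subset_insert v t)) he)
      have hcone : cone v e ∈ On (Sz P (c + 1 + 1)) := cone_On v (fun t ht hvt =>
        ⟨ht.1.2.1, by rw [Finset.card_insert_of_notMem hvt, ht.2]⟩) he
      have hsub : ∀ u ∈ nv (keep v w + e), u ≠ v ∧ u ∈ nv w ∨ key u < j := by
        intro u hu
        obtain ⟨t, ht, hut⟩ := Finset.mem_biUnion.mp hu
        obtain ⟨hut, hXu⟩ := Finset.mem_filter.mp hut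
        rcases Finset.mem_union.mp (Finsupp.support_add ht) with h | h
        · refine Or.inl ⟨fun huv => ?_, Finset.mem_biUnion.mpr
            ⟨t, ?_, Finset.mem_filter.mpr ⟨hut, hXu⟩⟩⟩
          · exact (mem_On_keep hw h).1 (huv ▸ hut)
          · exact (mem_On_keep (P := fun t => t ∈ w.support)
              (mem_On.mpr fun t ht => ht) h).2
        · exact Or.inr (hvM ▸ (he h).1.2.2 u hut hXu)
      have h1 := Finsupp.support_add (g₁ := keep v w) (g₂ := e)
      have h2 := (Finset.card_le_card h1).trans (Finset.card_union_le _ _)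
      have h3 := card_support_keep v w
      have h4 := card_support_cone' v e
      obtain ⟨w', hw', y, hy, he', h⟩ := ihN (keep v w + e) (b + (cone v e).support.card)
        (stepB L t) hmem (by rwa [hnew, map_add, bd_bd, add_zero]) (fun u hu => by
          rcases hsub u hu with h | h
          · exact hle u h.2
          · exact h.le) (by
          have hss : ((nv (keep v w + e)).filter fun u => key u = j) ⊆
              ((nv w).filter fun u => key u = j).erase v := by
            intro u hu
            obtain ⟨hu, huM⟩ := Finset.mem_filter.mp hu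
            rcases hsub u hu with h | h
            · exact Finset.mem_erase.mpr ⟨h.1, Finset.mem_filter.mpr ⟨h.2, huM⟩⟩
            · exact absurd huM h.ne
          refine (Finset.card_le_card hss).trans ?_
          rw [Finset.card_erase_of_mem (Finset.mem_filter.mpr ⟨hv, hvM⟩)]
          omega)
        (by simp only [stepB]; omega)
      refine ⟨w', hw', cone v e + y, Submodule.add_mem _ hcone hy, ?_, ?_⟩
      · rw [he', hnew, map_add]; abel
      · rw [Function.iterate_succ_apply]
        have h5 := (Finset.card_le_card (Finsupp.support_add (g₁ := cone v e) (g₂ := y))).trans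
          (Finset.card_union_le _ _)
        omega

/-- adding vertices with boundedly acyclic links keeps bounded acyclicity -/
theorem AcyB.add {P : Finset α → Prop} {X : α → Prop} {key : α → ℕ} {L : ℕ → ℕ} {M m : ℕ}
    (hL : Monotone L) (hdown : Down P) (hsep : KeySep P X key) (hkey : ∀ v, X v → key v ≤ M)
    (hm : m ≤ M + 1) (hlink : ∀ v, X v → P {v} → AcyB L (LowLink P X key v) (m - 1))
    (hQ : AcyB L (fun s => P s ∧ ∀ u ∈ s, ¬ X u) m) : AcyB (addBound M L) P m := by
  intro c hc z hz hb s hs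
  rcases c with _ | c
  · obtain ⟨w, hw, hwz, hws⟩ := hQ 0 hc z (mem_On.mpr fun t ht => ⟨⟨(hz ht).1, by
      simp [Finset.card_eq_zero.mp (hz ht).2]⟩, (hz ht).2⟩) hb s hs
    exact ⟨w, Sz_mono (fun s hs => hs.1) hw, hwz, hws.trans (le_addBound M L s)⟩
  · obtain ⟨z', hz', y, hy, h', hz's, hys⟩ := cleanB_spec hL hdown hsep hkey (by omega)
      (fun v hv hPv => hlink v hv hPv c (by omega)) hz (by simp [hb]) hs
    obtain ⟨w', hw', hw'z, hw's⟩ := hQ (c + 1) hc z' hz'
      (by rw [h', map_add, bd_bd, add_zero, hb]) _ hz's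
    refine ⟨w' + y, Submodule.add_mem _ (Sz_mono (fun s hs => hs.1) hw') hy, ?_, ?_⟩
    · rw [map_add, hw'z, h', add_assoc, add_self', add_zero]
    · refine (Finset.card_le_card Finsupp.support_add).trans ((Finset.card_union_le _ _).trans ?_)
      simp only [addBound]
      omega

/-! ### Transfer along maps -/

variable {β : Type*} [DecidableEq β]

/-- the image of a chain under a map of vertices -/
noncomputable def mapCh (f : α → β) : Ch α →ₗ[ZMod 2] Ch β :=
  Finsupp.lmapDomain (ZMod 2) (ZMod 2) fun s => s.image f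

omit [DecidableEq α] in
theorem mapCh_sg (f : α → β) (s : Finset α) : mapCh f (sg s) = sg (s.image f) := by
  simp [mapCh, sg, Finsupp.mapDomain_single]

omit [DecidableEq α] in
theorem mapCh_On {f : α → β} {P : Finset α → Prop} {Q : Finset β → Prop}
    (h : ∀ s, P s → Q (s.image f)) {z : Ch α} (hz : z ∈ On P) : mapCh f z ∈ On Q := by
  classical
  intro t ht
  obtain ⟨s, hs, rfl⟩ := Finset.mem_image.1 (Finsupp.mapDomain_support ht)
  exact h s (hz hs)

omit [DecidableEq α] in
theorem card_support_mapCh (f : α → β) (z : Ch α) :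
    (mapCh f z).support.card ≤ z.support.card :=
  (Finset.card_le_card Finsupp.mapDomain_support).trans Finset.card_image_le

theorem bd_mapCh {f : α → β} {z : Ch α} (hf : ∀ s ∈ z.support, Set.InjOn f s) :
    bd (mapCh f z) = mapCh f (bd z) := by
  conv_lhs => rw [← Finsupp.sum_single z]
  conv_rhs => rw [← Finsupp.sum_single z]
  simp only [Finsupp.sum, map_sum]
  refine Finset.sum_congr rfl fun s hs => ?_
  have e : Finsupp.single s (z s) = z s • sg s := by simp [sg]
  rw [e, map_smul, map_smul, map_smul, map_smul, mapCh_sg, bd_sg, bd_sg, map_sum]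
  congr 1
  rw [Finset.sum_image (hf s hs)]
  refine Finset.sum_congr rfl fun x hx => ?_
  rw [mapCh_sg]
  congr 1
  ext y
  simp only [Finset.mem_erase, Finset.mem_image]
  constructor
  · rintro ⟨hne, a, ha, rfl⟩
    exact ⟨a, ⟨fun h => hne (h ▸ rfl), ha⟩, rfl⟩
  · rintro ⟨a, ⟨hne, ha⟩, rfl⟩
    exact ⟨fun h => hne (hf s hs ha hx h), a, ha, rfl⟩

omit [DecidableEq α] in
theorem injOn_image {f : α → β} {S : Set α} (hf : Set.InjOn f S) :
    Set.InjOn (fun s : Finset α => s.image f) {s | ∀ a ∈ s, a ∈ S} := by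
  intro s hs s' hs' he
  ext a
  have he' : ∀ b, b ∈ s.image f ↔ b ∈ s'.image f := fun b => Finset.ext_iff.1 he b
  constructor
  · intro ha
    obtain ⟨a', ha', e⟩ := Finset.mem_image.1 ((he' _).1 (Finset.mem_image_of_mem f ha))
    exact hf (hs' a' ha') (hs a ha) e ▸ ha'
  · intro ha
    obtain ⟨a', ha', e⟩ := Finset.mem_image.1 ((he' _).2 (Finset.mem_image_of_mem f ha))
    exact hf (hs a' ha') (hs' a ha) e ▸ ha'

/-- cycles lift along a map injective on the vertices -/
theorem exists_lift_cycle {P : Finset α → Prop} {Q : Finset β → Prop} {f : α → β}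
    (hf : Set.InjOn f {a | ∃ s, P s ∧ a ∈ s}) (hQ : ∀ t, Q t ↔ ∃ s, P s ∧ t = s.image f) {c : ℕ}
    {z : Ch β} (hz : z ∈ On (Sz Q c)) (hb : bd z = 0) :
    ∃ w₀ ∈ On (Sz P c), bd w₀ = 0 ∧ mapCh f w₀ = z ∧ w₀.support.card ≤ z.support.card := by
  classical
  have hfs : ∀ s, P s → Set.InjOn f s := fun s hs => hf.mono fun a ha => show ∃ u, P u ∧ a ∈ u from ⟨s, hs, ha⟩
  choose g hg using fun t (ht : Q t) => (hQ t).1 ht
  let g' : Finset β → Finset α := fun t => if ht : Q t then g t ht else ∅
  have hg' : ∀ t, Q t → P (g' t) ∧ t = (g' t).image f := fun t ht => by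
    simp only [g', dif_pos ht]
    exact hg t ht
  set w₀ : Ch α := Finsupp.mapDomain g' z with hw₀
  have hwz : w₀ ∈ On (Sz P c) := by
    intro s hs
    obtain ⟨t, ht, rfl⟩ := Finset.mem_image.1 (Finsupp.mapDomain_support hs)
    obtain ⟨h1, h2⟩ := hg' t (hz ht).1
    exact ⟨h1, by rw [← Finset.card_image_of_injOn (hfs _ h1), ← h2, (hz ht).2]⟩
  have hback : mapCh f w₀ = z := by
    rw [hw₀, mapCh, Finsupp.lmapDomain_apply, ← Finsupp.mapDomain_comp]
    refine (Finsupp.mapDomain_congr fun t ht => ?_).trans Finsupp.mapDomain_id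
    exact (hg' t (hz ht).1).2.symm
  refine ⟨w₀, hwz, ?_, hback,
    (Finset.card_le_card Finsupp.mapDomain_support).trans Finset.card_image_le⟩
  have h1 : mapCh f (bd w₀) = 0 := by
    rw [← bd_mapCh fun s hs => hfs s (hwz hs).1, hback, hb]
  have h2 : bd w₀ ∈ On (fun s => ∀ a ∈ s, ∃ u, P u ∧ a ∈ u) :=
    map_On bd (fun s hs => by
      rw [bd_sg]
      exact Submodule.sum_mem _ fun x _ => sg_mem fun a ha =>
        ⟨s, hs.1, Finset.mem_of_mem_erase ha⟩) hwz
  ext s
  by_contra hne
  have hs := Finsupp.mem_support_iff.2 hne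
  have h3 := Finsupp.mapDomain_apply' {s | ∀ a ∈ s, ∃ u, P u ∧ a ∈ u} (bd w₀)
    (fun t ht => h2 ht) (injOn_image hf) (h2 hs)
  rw [show Finsupp.mapDomain (fun s : Finset α => s.image f) (bd w₀) = mapCh f (bd w₀) from rfl,
    h1] at h3
  exact hne h3.symm

/-- fillings are pushed along a map injective on the vertices -/
theorem image_filling {P : Finset α → Prop} {Q : Finset β → Prop} {f : α → β}
    (hf : Set.InjOn f {a | ∃ s, P s ∧ a ∈ s}) (hQ : ∀ t, Q t ↔ ∃ s, P s ∧ t = s.image f) {c : ℕ}
    {w : Ch α} (hw : w ∈ On (Sz P c)) :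
    mapCh f w ∈ On (Sz Q c) ∧ bd (mapCh f w) = mapCh f (bd w) := by
  have hfs : ∀ s, P s → Set.InjOn f s := fun s hs => hf.mono fun a ha => show ∃ u, P u ∧ a ∈ u from ⟨s, hs, ha⟩
  exact ⟨mapCh_On (fun s hs => ⟨(hQ _).2 ⟨s, hs.1, rfl⟩,
    by rw [Finset.card_image_of_injOn (hfs s hs.1), hs.2]⟩) hw,
    bd_mapCh fun s hs => hfs s (hw hs).1⟩

/-- acyclicity passes to the image under a map injective on the vertices -/
theorem AcyB.image {L : ℕ → ℕ} {P : Finset α → Prop} {Q : Finset β → Prop} {f : α → β} {m : ℕ}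
    (h : AcyB L P m) (hf : Set.InjOn f {a | ∃ s, P s ∧ a ∈ s})
    (hQ : ∀ t, Q t ↔ ∃ s, P s ∧ t = s.image f) : AcyB L Q m := by
  intro c hc z hz hb sz hsz
  obtain ⟨w₀, hw₀, hb₀, hback, hs₀⟩ := exists_lift_cycle hf hQ hz hb
  obtain ⟨w, hw, hwb, hws⟩ := h c hc w₀ hw₀ hb₀ sz (hs₀.trans hsz)
  exact ⟨mapCh f w, (image_filling hf hQ hw).1,
    by rw [(image_filling hf hQ hw).2, hwb, hback], (card_support_mapCh f w).trans hws⟩

/-- qualitative transfer along a map injective on the vertices -/
theorem Acy.image {P : Finset α → Prop} {Q : Finset β → Prop} {f : α → β} {m : ℕ}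
    (h : Acy P m) (hf : Set.InjOn f {a | ∃ s, P s ∧ a ∈ s})
    (hQ : ∀ t, Q t ↔ ∃ s, P s ∧ t = s.image f) : Acy Q m := by
  intro c hc z hz hb
  obtain ⟨w₀, hw₀, hb₀, hback, -⟩ := exists_lift_cycle hf hQ hz hb
  obtain ⟨w, hw, hwb⟩ := h c hc w₀ hw₀ hb₀
  exact ⟨mapCh f w, (image_filling hf hQ hw).1,
    by rw [(image_filling hf hQ hw).2, hwb, hback]⟩

end Vale.Agent.P067.KO
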