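import Vale.Agent.P067.KO.QuotientBase

/-!
The quotient of the lattice complex by the first congruence subgroup is a cone: every face has
exactly one translate in the interval between the trivial lattice and its shift.
-/

namespace Vale.Agent.P067.KO.Quot

open Finset Vale.Agent.P067.Sub Matrix

variable {k : Type*} [Field k] {n : ℕ}

/-- the trivial lattice -/
noncomputable def L0 : Lat k n := stdLat fun _ => 0

/-- the lattice with all degrees one -/
noncomputable def L1 : Lat k n := stdLat fun _ => 1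

/-- in the interval between the trivial lattice and its shift -/
def Mid (L : Lat k n) : Prop := L0 ≤ L ∧ L ≤ L1

theorem L1_le_shift : (L1 : Lat k n) ≤ shift L0 := by
  intro v hv
  rw [mem_shift_q]
  intro i
  show Dg _ 0
  have h1 : Dg (v i) 1 := hv i
  have h2 := dg_mul dg_inv_X h1
  rw [show (-1 + 1 : ℤ) = 0 from rfl] at h2
  exact h2

theorem L0_le_L1 : (L0 : Lat k n) ≤ L1 := stdLat_mono fun _ => by omega

/-- a member of the first congruence subgroup cannot move a lattice inside the interval -/
theorem mid_le {h : Gam n k} (hh : h ∈ cong k n 1) {L : Lat k n} (hL : Mid L)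
    (hhL : Mid (gamAct h L)) : L ≤ gamAct h L := by
  intro w hw
  have hex : ∀ i, ∃ c : k, Dg (w i - RatFunc.C c * RatFunc.X ^ 1) (((1 : ℕ) : ℤ) - 1) :=
    fun i => dg_coeff (show Dg (w i) ((1 : ℕ) : ℤ) from hL.2 hw i)
  choose c hc using hex
  set u : Fin n → RatFunc k := (RatFunc.X : RatFunc k) • emb (fun i => Polynomial.C (c i)) with hu
  have hr : w - u ∈ (L0 : Lat k n) := by
    intro i
    show Dg _ 0
    simpa [hu, emb, mul_comm] using hc i
  have huL : u ∈ L := by
    have := L.sub_mem hw (hL.1 hr)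
    simpa using this
  have hcu : rAct h u ∈ gamAct h L := mem_gamAct.mpr ⟨u, huL, rfl⟩
  have hfix : rAct h u = u := by
    rw [hu, rAct_smul, rAct_emb]
    congr 1
    refine congrArg emb (funext fun i => ?_)
    set p := ((h : Matrix (Fin n) (Fin n) (Polynomial k)) *ᵥ fun i => Polynomial.C (c i)) i
      with hp
    have hdeg := hhL.2 hcu i
    rw [hu, rAct_smul, rAct_emb] at hdeg
    have h0 : Dg (algebraMap (Polynomial k) (RatFunc k) p) 0 := by
      simpa [emb, hp, ← mul_assoc, RatFunc.X_ne_zero] using dg_mul dg_inv_X hdeg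
    have hpc : p = Polynomial.C (p.coeff 0) := by
      refine Polynomial.eq_C_of_natDegree_le_zero ?_
      rcases h0 with h0 | h0
      · simp [show p = 0 by simpa using h0]
      · rw [RatFunc.intDegree_polynomial] at h0
        omega
    rw [hpc]
    congr 1
    have hd : (Polynomial.X : Polynomial k) ∣ p - Polynomial.C (c i) := by
      have : p - Polynomial.C (c i) = ∑ j, ((h : Matrix (Fin n) (Fin n) (Polynomial k)) i j
          - (1 : Matrix (Fin n) (Fin n) (Polynomial k)) i j) * Polynomial.C (c j) := by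
        simp [hp, mulVec, dotProduct, sub_mul, Matrix.one_apply]
      rw [this]
      exact Finset.dvd_sum fun j _ => Dvd.dvd.mul_right (by simpa using mem_cong.mp hh i j) _
    simpa [sub_eq_zero] using Polynomial.X_dvd_iff.mp hd
  rw [hfix] at hcu
  have := (gamAct h L).add_mem (hhL.1 hr) hcu
  simpa using this

theorem mid_fixed {h : Gam n k} (hh : h ∈ cong k n 1) {L : Lat k n} (hL : Mid L)
    (hhL : Mid (gamAct h L)) : gamAct h L = L := by
  refine le_antisymm ?_ (mid_le hh hL hhL)
  have := mid_le (inv_mem hh) hhL (by rwa [gamAct_inv])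
  rwa [gamAct_inv] at this

/-- lattices with degrees at most one have no sections vanishing twice at infinity -/
theorem no_section {T : Lat k n} (hT : InWindow T) {v : Fin n → Polynomial k}
    (hv : (RatFunc.X : RatFunc k) ^ 2 • emb v ∈ T) : v = 0 := by
  obtain ⟨b, hb, -, g, rfl⟩ := hT
  rw [mem_gamAct_iff, rAct_smul, rAct_emb] at hv
  have h0 : ((g⁻¹ : Gam n k) : Matrix (Fin n) (Fin n) (Polynomial k)) *ᵥ v = 0 := by
    funext i
    have h1 : Dg ((RatFunc.X : RatFunc k) ^ 2 * algebraMap (Polynomial k) (RatFunc k)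
        ((((g⁻¹ : Gam n k) : Matrix (Fin n) (Fin n) (Polynomial k)) *ᵥ v) i)) 1 := by
      refine dg_mono (z := b i) ?_ (by rcases hb i with h | h <;> omega)
      exact hv i
    refine dg_poly_neg (z := -1 + -1 + 1) (by omega) ?_
    have := dg_mul (dg_mul dg_inv_X dg_inv_X) h1
    simpa [pow_two, ← mul_assoc, RatFunc.X_ne_zero] using this
  have h1 := congrArg (fun u => (g : Matrix (Fin n) (Fin n) (Polynomial k)) *ᵥ u) h0
  simpa [mulVec_mulVec, Matrix.mul_adjugate] using h1

/-- every short chain above a standard lattice is moved into the interval -/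
theorem exists_mid_std {a : Fin n → ℤ} (ha : ∀ i, a i = 0 ∨ a i = 1) {T : Lat k n}
    (hT : InWindow T) (haT : stdLat a ≤ T) (hTs : T ≤ shift (stdLat a)) :
    ∃ h : Gam n k, ∀ M : Lat k n, stdLat a ≤ M → M ≤ T → Mid (gamAct h⁻¹ M) := by
  classical
  let e : Fin n → ℕ := fun i => (a i + 1).toNat
  have he : ∀ i, ((e i : ℕ) : ℤ) = a i + 1 := fun i => by
    simp only [e]
    rcases ha i with h | h <;> omega
  let wv : (Fin n → k) → Fin n → RatFunc k := fun c i => RatFunc.C (c i) * RatFunc.X ^ e i
  let U : Submodule k (Fin n → k) :=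
    { carrier := {c | wv c ∈ T}
      add_mem' := fun {x y} hx hy => by
        have e1 : wv (x + y) = wv x + wv y := by
          funext i
          simp [wv, add_mul]
        show wv (x + y) ∈ T
        rw [e1]
        exact T.add_mem hx hy
      zero_mem' := by
        have e1 : wv 0 = 0 := by
          funext i
          simp [wv]
        show wv 0 ∈ T
        rw [e1]
        exact T.zero_mem
      smul_mem' := fun r x hx => by
        have e1 : wv (r • x) = RatFunc.C r • wv x := by
          funext i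
          simp [wv, mul_assoc]
        show wv (r • x) ∈ T
        rw [e1]
        exact C_smul_mem r hx }
  let P0 : (Fin n → k) →ₗ[k] (Fin n → k) :=
    LinearMap.pi fun i => if a i = 0 then LinearMap.proj i else 0
  let P1 : (Fin n → k) →ₗ[k] (Fin n → k) :=
    LinearMap.pi fun i => if a i = 0 then 0 else LinearMap.proj i
  have hker : LinearMap.ker (P0.comp U.subtype) = ⊥ := by
    refine LinearMap.ker_eq_bot'.mpr fun c hc => ?_
    have hz : ∀ i, a i = 0 → (c : Fin n → k) i = 0 := fun i hi => by
      simpa [P0, hi] using congrFun hc i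
    have hv : (RatFunc.X : RatFunc k) ^ 2 • emb (fun i => Polynomial.C ((c : Fin n → k) i))
        ∈ T := by
      have e1 : (RatFunc.X : RatFunc k) ^ 2 • emb (fun i => Polynomial.C ((c : Fin n → k) i))
          = wv c := by
        funext i
        rcases ha i with h | h
        · simp [wv, emb, hz i h]
        · simp [wv, emb, e, h, mul_comm]
      rw [e1]
      exact c.2
    have h0 := no_section hT hv
    ext i
    simpa using congrFun h0 i
  obtain ⟨q, hq⟩ := (P0.comp U.subtype).exists_leftInverse_of_injective hker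
  let ψ : (Fin n → k) →ₗ[k] (Fin n → k) := ((P1.comp U.subtype).comp q).comp P0
  let C₀ : Matrix (Fin n) (Fin n) k := LinearMap.toMatrix' ψ
  have hrow : ∀ i j, a i = 0 → C₀ i j = 0 := fun i j hi => by
    simp [C₀, LinearMap.toMatrix'_apply, ψ, P1, hi]
  have hcol : ∀ i j, a j ≠ 0 → C₀ i j = 0 := fun i j hj => by
    have : P0 (Pi.single j 1) = 0 := by
      funext l
      by_cases hl : a l = 0
      · have : l ≠ j := fun h => hj (h ▸ hl)
        simp [P0, hl, this]
      · simp [P0, hl]
    simp [C₀, LinearMap.toMatrix'_apply, ψ, this]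
  have hψ : ∀ c ∈ U, ∀ i, a i ≠ 0 → ∑ j, C₀ i j * c j = c i := by
    intro c hc i hi
    have h1 : C₀ *ᵥ c = ψ c := by
      simp [C₀, LinearMap.toMatrix'_mulVec]
    have h2 : q (P0 c) = ⟨c, hc⟩ := LinearMap.congr_fun hq ⟨c, hc⟩
    have h3 := congrFun h1 i
    simp only [mulVec, dotProduct] at h3
    simp [h3, ψ, h2, P1, hi]
  let B : Matrix (Fin n) (Fin n) (Polynomial k) :=
    Matrix.of fun i j => Polynomial.X * Polynomial.C (C₀ i j)
  let D : Matrix (Fin n) (Fin n) (Polynomial k) :=
    Matrix.diagonal fun i => if a i = 0 then 1 else 0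
  have hBD : B * D = B := by
    refine Matrix.ext fun i j => ?_
    by_cases hj : a j = 0
    · simp [D, hj]
    · simp [D, B, hj, hcol i j hj]
  have hDB : D * B = 0 := by
    refine Matrix.ext fun i j => ?_
    by_cases hi : a i = 0
    · simp [D, B, hi, hrow i j hi]
    · simp [D, hi]
  have hdet : (1 + B).det = 1 := by
    conv_lhs => rw [← hBD, Matrix.det_one_add_mul_comm, hDB, add_zero, Matrix.det_one]
  let h : Gam n k := ⟨1 + B, hdet⟩
  refine ⟨h, fun M haM hMT => ?_⟩
  have hmap : ∀ w i, rAct h w i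
      = w i + RatFunc.X * ∑ j, RatFunc.C (C₀ i j) * w j := by
    intro w i
    simp [rAct, h, B, mulVec, dotProduct,
      Finset.mul_sum, mul_assoc, Matrix.one_apply, Finset.sum_add_distrib, add_mul]
    refine Finset.sum_congr rfl fun x _ => ?_
    ring
  have hinv : ∀ w i, rAct h⁻¹ w i
      = w i - RatFunc.X * ∑ j, RatFunc.C (C₀ i j) * w j := by
    intro w i
    set u : Fin n → RatFunc k := fun i => w i - RatFunc.X * ∑ j, RatFunc.C (C₀ i j) * w j
    have : rAct h u = w := by
      funext i
      have hz : ∑ j, RatFunc.C (C₀ i j) * (RatFunc.X * ∑ l, RatFunc.C (C₀ j l) * w l) = 0 :=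
        Finset.sum_eq_zero fun j _ => by
          by_cases hj : a j = 0
          · have : ∀ l, C₀ j l = 0 := fun l => hrow j l hj
            simp [this]
          · simp [hcol i j hj]
      simp only [hmap, u, mul_sub, Finset.sum_sub_distrib, hz, sub_zero]
      ring
    have h2 := rAct_cancel h u
    rw [this] at h2
    exact congrFun h2 i
  have hstd : ∀ w ∈ (stdLat a : Lat k n), rAct h w ∈ (stdLat a : Lat k n) := by
    intro w hw i
    rw [hmap]
    refine dg_add (hw i) ?_
    rcases ha i with hi | hi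
    · simp [hrow i _ hi, Dg]
    · rw [hi, Finset.mul_sum]
      refine dg_sum fun j _ => ?_
      by_cases hj : a j = 0
      · have := dg_mul (dg_X (k := k)) (dg_mul (dg_C (C₀ i j)) (hw j))
        simpa [hj] using this
      · simp [hcol i j hj, Dg]
  refine ⟨fun w hw => ?_, fun w hw => ?_⟩
  · rw [mem_gamAct_iff, inv_inv]
    exact haM (hstd w (fun i => dg_mono (z := 0) (hw i) (by rcases ha i with h | h <;> omega)))
  · rw [mem_gamAct_iff, inv_inv] at hw
    have hwT := hMT hw
    have hex : ∀ i, ∃ c : k,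
        Dg (rAct h w i - RatFunc.C c * RatFunc.X ^ e i) ((e i : ℤ) - 1) := by
      intro i
      refine dg_coeff ?_
      have h1 := (mem_shift_q.mp (hTs hwT)) i
      rw [he]
      have h2 := dg_mul (dg_X (k := k)) h1
      simpa [← mul_assoc, RatFunc.X_ne_zero, add_comm] using h2
    choose c hc using hex
    have hr : rAct h w - wv c ∈ (stdLat a : Lat k n) := fun i => by
      show Dg _ (a i)
      simpa [he, wv] using hc i
    have hcU : c ∈ U := by
      have := T.sub_mem hwT (haT hr)
      simpa [U] using this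
    intro i
    have hw' : w i = rAct h w i - RatFunc.X * ∑ j, RatFunc.C (C₀ i j) * rAct h w j := by
      conv_lhs => rw [← rAct_cancel h w, hinv]
    have hsplit : ∀ l, rAct h w l = (rAct h w - wv c) l + RatFunc.C (c l) * RatFunc.X ^ e l :=
      fun l => by simp [wv]
    rcases ha i with hi | hi
    · rw [hw']
      simp only [hrow i _ hi, map_zero, zero_mul, Finset.sum_const_zero, mul_zero, sub_zero]
      rw [hsplit i]
      show Dg _ 1
      refine dg_add (dg_mono (z := a i) (hr i) (by omega)) ?_
      simpa [e, hi] using dg_mul (dg_C (c i)) (dg_X (k := k))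
    · have hterm : ∀ j, RatFunc.C (C₀ i j) * (RatFunc.C (c j) * RatFunc.X ^ e j)
          = RatFunc.C (C₀ i j * c j) * RatFunc.X := fun j => by
        by_cases hj : a j = 0
        · simp [e, hj, mul_assoc]
        · simp [hcol i j hj]
      have hei : e i = 2 := by simp [e, hi]
      have heq : w i = (rAct h w - wv c) i
          - RatFunc.X * ∑ j, RatFunc.C (C₀ i j) * (rAct h w - wv c) j := by
        rw [hw']
        conv_lhs => rw [hsplit i]; arg 2; arg 2; arg 2; ext j; rw [hsplit j, mul_add, hterm]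
        rw [Finset.sum_add_distrib, ← Finset.sum_mul, ← map_sum,
          hψ c hcU i (by omega), hei]
        ring
      rw [heq, sub_eq_add_neg]
      show Dg _ 1
      refine dg_add (dg_mono (z := a i) (hr i) (by omega)) (dg_neg ?_)
      rw [Finset.mul_sum]
      refine dg_sum fun j _ => ?_
      by_cases hj : a j = 0
      · have := dg_mul (dg_X (k := k)) (dg_mul (dg_C (C₀ i j)) (hr j))
        simpa [hj] using this
      · simp [hcol i j hj, Dg]

/-- every face has a translate in the interval -/
theorem exists_mid {s : Finset (Lat k n)} (hs : XInf s) :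
    ∃ h ∈ cong k n 1, ∀ L ∈ s, Mid (gamAct h L) := by
  rcases s.eq_empty_or_nonempty with rfl | hne
  · exact ⟨1, one_mem _, by simp⟩
  obtain ⟨L, hL, hLmin⟩ := s.exists_minimal hne
  obtain ⟨T, hT, hTmax⟩ := s.exists_maximal hne
  have hlow : ∀ M ∈ s, L ≤ M := fun M hM => ((hs.2 L hL M hM).1).elim id fun h => hLmin hM h
  have hup : ∀ M ∈ s, M ≤ T := fun M hM => ((hs.2 M hM T hT).1).elim id fun h => hTmax hM h
  obtain ⟨a, ha, -, g, rfl⟩ := hs.1 L hL
  have hTs := (hs.2 _ hL T hT).2
  have hT' : InWindow (gamAct g⁻¹ T) := by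
    obtain ⟨b, hb, hb0, g', rfl⟩ := hs.1 T hT
    exact ⟨b, hb, hb0, g⁻¹ * g', (gamAct_mul_q _ _ _).symm⟩
  obtain ⟨h, hh⟩ := exists_mid_std ha hT'
    (by simpa [gamAct_inv] using gamAct_mono_q g⁻¹ (hlow T hT))
    (by simpa [shift_gamAct, gamAct_inv] using gamAct_mono_q g⁻¹ hTs)
  let x : Gam n k := g * h
  let y : Gam n k := Matrix.SpecialLinearGroup.map
    ((Polynomial.C : k →+* Polynomial k).comp (Polynomial.evalRingHom 0)) x
  have hy : ∀ i j, ((y : Matrix (Fin n) (Fin n) (Polynomial k)) i j).natDegree = 0 := by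
    intro i j
    simp [y]
  refine ⟨y * x⁻¹, ?_, fun M hM => ?_⟩
  · have hyx : y * x⁻¹ ∈ cong k n 1 := by
      rw [cong, MonoidHom.mem_ker, map_mul, map_inv, mul_inv_eq_one]
      refine Subtype.ext (Matrix.ext fun i j => ?_)
      simp only [y, Matrix.SpecialLinearGroup.map_apply_coe, RingHom.mapMatrix_apply,
        Matrix.map_apply, RingHom.coe_comp, Function.comp_apply,
        Polynomial.coe_evalRingHom]
      rw [Ideal.Quotient.mk_eq_mk_iff_sub_mem, Ideal.mem_span_singleton, pow_one,
        Polynomial.X_dvd_iff]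
      simp [Polynomial.coeff_zero_eq_eval_zero]
    exact hyx
  · have hm : Mid (gamAct x⁻¹ M) := by
      have := hh (gamAct g⁻¹ M)
        (by simpa [gamAct_inv] using gamAct_mono_q g⁻¹ (hlow M hM)) (gamAct_mono_q g⁻¹ (hup M hM))
      simpa [x, _root_.mul_inv_rev, gamAct_mul_q] using this
    have hy' : ∀ i j, (((y⁻¹ : Gam n k) : Matrix (Fin n) (Fin n) (Polynomial k)) i j).natDegree
        = 0 := by
      intro i j
      have h1 : y⁻¹ = Matrix.SpecialLinearGroup.map
          ((Polynomial.C : k →+* Polynomial k).comp (Polynomial.evalRingHom 0)) x⁻¹ :=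
        (map_inv _ _).symm
      rw [h1]
      generalize x⁻¹ = z
      simp
    rw [gamAct_mul_q]
    constructor
    · intro v hv
      rw [mem_gamAct_iff]
      exact hm.1 (gamAct_stdLat_const hy' 0 (mem_gamAct.mpr ⟨v, hv, rfl⟩))
    · exact (gamAct_mono_q y hm.2).trans (gamAct_stdLat_const hy 1)

variable [DecidableEq (Lat k n)]

/-- the representative in the interval -/
noncomputable def rep (s : Finset (Lat k n)) : Finset (Lat k n) := by
  classical
  exact if hs : XInf s then s.image (gamAct (exists_mid hs).choose) else ∅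

theorem rep_eq {s : Finset (Lat k n)} (hs : XInf s) {h : Gam n k} (hh : h ∈ cong k n 1)
    (hm : ∀ L ∈ s, Mid (gamAct h L)) : rep s = s.image (gamAct h) := by
  rw [rep, dif_pos hs]
  refine Finset.image_congr fun L hL => ?_
  obtain ⟨h1, h2⟩ := (exists_mid hs).choose_spec
  set h' := (exists_mid hs).choose
  have := mid_fixed (mul_mem h1 (inv_mem hh)) (hm L hL)
    (by rw [gamAct_mul_q, gamAct_inv]; exact h2 L hL)
  rwa [gamAct_mul_q, gamAct_inv] at this

/-- the projection to representatives -/
noncomputable def toRep : Ch (Lat k n) →ₗ[ZMod 2] Ch (Lat k n) := lift fun s => sg (rep s)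

theorem toRep_bd {c : ℕ} {z : Ch (Lat k n)} (hz : z ∈ On (Sz XInf c)) :
    toRep (bd z) = bd (toRep z) := by
  have h : (toRep.comp bd + bd.comp toRep : Ch (Lat k n) →ₗ[ZMod 2] Ch (Lat k n)) z ∈ (⊥ : Submodule (ZMod 2) (Ch (Lat k n))) := by
    refine map_On _ (fun s hs => ?_) hz
    obtain ⟨h1, h2⟩ := (exists_mid hs.1).choose_spec
    set g := (exists_mid hs.1).choose
    rw [Submodule.mem_bot, LinearMap.add_apply, LinearMap.comp_apply, LinearMap.comp_apply,
      toRep, lift_sg, rep_eq hs.1 h1 h2, bd_sg, bd_sg, map_sum,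
      Finset.sum_image (gamAct_inj_q g).injOn, ← Finset.sum_add_distrib]
    refine Finset.sum_eq_zero fun x hx => ?_
    have hd : XInf (s.erase x) := ⟨fun L hL => hs.1.1 L (Finset.mem_of_mem_erase hL),
      fun L hL L' hL' => hs.1.2 L (Finset.mem_of_mem_erase hL) L' (Finset.mem_of_mem_erase hL')⟩
    rw [lift_sg, rep_eq hd h1 fun L hL => h2 L (Finset.mem_of_mem_erase hL),
      Finset.image_erase (gamAct_inj_q g), add_self']
  rw [Submodule.mem_bot, LinearMap.add_apply] at h
  calc toRep (bd z) = toRep (bd z) + (bd (toRep z) + bd (toRep z)) := by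
        rw [add_self', add_zero]
    _ = bd (toRep z) := by
        rw [← add_assoc]
        simp only [LinearMap.comp_apply] at h
        rw [h, zero_add]

theorem toRep_rel (hinv : ∀ g : Gam n k, ∀ s : Finset (Lat k n), XInf s → XInf (s.image (gamAct g)))
    {c : ℕ} {z : Ch (Lat k n)}
    (hz : z ∈ Rel gamAct (cong k n 1 : Set (Gam n k)) XInf c) : toRep z = 0 := by
  refine LinearMap.mem_ker.mp ((Submodule.span_le.mpr ?_) hz)
  rintro _ ⟨g, hg, s, hs, rfl⟩
  obtain ⟨h1, h2⟩ := (exists_mid hs.1).choose_spec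
  set h := (exists_mid hs.1).choose
  have h3 : rep (s.image (gamAct g)) = s.image (gamAct h) := by
    rw [rep_eq (hinv g s hs.1) (mul_mem h1 (inv_mem (SetLike.mem_coe.mp hg)))
      (fun L hL => by
        obtain ⟨L', hL', rfl⟩ := Finset.mem_image.mp hL
        rw [gamAct_mul_q, gamAct_inv]
        exact h2 L' hL'), Finset.image_image]
    refine Finset.image_congr fun L _ => ?_
    simp [gamAct_mul_q, gamAct_inv]
  rw [SetLike.mem_coe, LinearMap.mem_ker, map_add, toRep, lift_sg, lift_sg, h3,
    rep_eq hs.1 h1 h2, add_self']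

omit [DecidableEq (Lat k n)] in
theorem inWindow_L0 (hn : 1 ≤ n) : InWindow (L0 : Lat k n) :=
  ⟨fun _ => 0, fun _ => Or.inl rfl, ⟨⟨0, by omega⟩, rfl⟩, 1, (gamAct_one_q _).symm⟩

theorem insert_L0 (hn : 1 ≤ n) {s : Finset (Lat k n)} (hs : XInf s) (hm : ∀ L ∈ s, Mid L) :
    XInf (insert L0 s) := by
  refine ⟨fun L hL => ?_, ?_⟩
  · rcases Finset.mem_insert.mp hL with rfl | hL
    · exact inWindow_L0 hn
    · exact hs.1 L hL
  · intro L hL L' hL'
    rcases Finset.mem_insert.mp hL with rfl | hL <;>
      rcases Finset.mem_insert.mp hL' with rfl | hL'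
    · exact ⟨Or.inl le_rfl, L0_le_L1.trans L1_le_shift⟩
    · exact ⟨Or.inl (hm L' hL').1, (hm L' hL').2.trans L1_le_shift⟩
    · exact ⟨Or.inr (hm L hL).1, (L0_le_L1.trans L1_le_shift).trans (shift_mono (hm L hL).1)⟩
    · exact hs.2 L hL L' hL'

end Vale.Agent.P067.KO.Quot

namespace Vale.Agent.P067.KO

open Finset Vale.Agent.P067.Sub Vale.Agent.P067.KO.Quot

/-- E: the quotient by the first congruence subgroup is a cone over the building -/
theorem firstQuotient (hact : GamActStmt) : FirstQuotientStmt := by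
  intro k _ _ n M _ hn c hc _ z hz hb
  obtain ⟨-, -, hinv⟩ := hact k n
  have hQ : toRep z ∈ On (Sz (fun s => XInf s ∧ ∀ L ∈ s, Mid L) c) := by
    refine map_On toRep (fun s hs => ?_) hz
    obtain ⟨h1, h2⟩ := (exists_mid hs.1).choose_spec
    rw [toRep, lift_sg, rep_eq hs.1 h1 h2]
    refine sg_mem ⟨⟨hinv _ s hs.1, fun L hL => ?_⟩, ?_⟩
    · obtain ⟨L', hL', rfl⟩ := Finset.mem_image.mp hL
      exact h2 L' hL'
    · rw [Finset.card_image_of_injective _ (gamAct_inj_q _), hs.2]
  have hcyc : bd (toRep z) = 0 := by rw [← toRep_bd hz, toRep_rel hinv hb]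
  refine ⟨cone L0 (toRep z), cone_On L0 (fun s hs hns => ⟨insert_L0 (by omega) hs.1.1 hs.1.2,
    by rw [Finset.card_insert_of_notMem hns, hs.2]⟩) hQ, ?_⟩
  have hw : bd (cone L0 (toRep z)) = toRep z := by simpa [hcyc] using bd_cone L0 (toRep z)
  rw [hw]
  have h : (LinearMap.id + toRep : Ch (Lat k n) →ₗ[ZMod 2] Ch (Lat k n)) z
      ∈ Rel gamAct (cong k n 1 : Set (Gam n k)) XInf c := by
    refine map_On _ (fun s hs => ?_) hz
    obtain ⟨h1, h2⟩ := (exists_mid hs.1).choose_spec
    rw [LinearMap.add_apply, LinearMap.id_apply, toRep, lift_sg, rep_eq hs.1 h1 h2]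
    exact gen_mem_Rel h1 hs
  simpa using h

end Vale.Agent.P067.KO
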