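import Vale.Agent.P067.KO.LatDeg

/-!
The facts about lattices: neighbours, their degrees, monotonicity, bundles.
-/

namespace Vale.Agent.P067.KO

open Polynomial

variable {k : Type*} [Field k] {n : ℕ}

theorem smul_coe (c : inftyRing k) (v : Fin n → RatFunc k) : c • v = (c : RatFunc k) • v := rfl

/-- constants, as elements of the ring at infinity -/
noncomputable def cst (c : k) : inftyRing k :=
  ⟨RatFunc.C c, (RatFunc.intDegree_C c).le⟩

/-- powers of the inverse of the variable, as elements of the ring at infinity -/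
noncomputable def invX (j : ℕ) : inftyRing k :=
  ⟨(RatFunc.X : RatFunc k) ^ (-(j : ℤ)), (intDegree_zpow (k := k) (-(j : ℤ))).le.trans (by omega)⟩

theorem lead_add (a : Fin n → ℤ) (u v : Fin n → k) : lead a (u + v) = lead a u + lead a v := by
  funext i
  simp [lead, add_mul]

theorem lead_smul (a : Fin n → ℤ) (c : k) (v : Fin n → k) :
    lead a (c • v) = cst c • lead a v := by
  funext i
  show RatFunc.C (c * v i) * RatFunc.X ^ (a i + 1) =
    RatFunc.C c * (RatFunc.C (v i) * RatFunc.X ^ (a i + 1))
  rw [map_mul, mul_assoc]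

theorem lead_zero (a : Fin n → ℤ) : lead a (0 : Fin n → k) = 0 := by
  funext i
  simp [lead]

theorem lead_sub (a : Fin n → ℤ) (u v : Fin n → k) : lead a (u - v) = lead a u - lead a v := by
  funext i
  simp [lead, sub_mul]

theorem exists_lead {a : Fin n → ℤ} {v : Fin n → RatFunc k}
    (hv : v ∈ stdLat (fun i => a i + 1)) : ∃ w, v - lead a w ∈ stdLat a := by
  choose w hw using fun i => exists_top_coeff (mem_stdLat.mp hv i)
  exact ⟨w, mem_stdLat.mpr fun i => (hw i).mono (by omega)⟩

theorem eq_zero_of_lead {a : Fin n → ℤ} {w : Fin n → k} (h : lead a w ∈ stdLat a) : w = 0 :=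
  funext fun i => eq_zero_of_dle_monomial (mem_stdLat.mp h i) (lt_add_one _)

theorem lead_mem_std (a : Fin n → ℤ) (w : Fin n → k) :
    lead a w ∈ stdLat (fun i => a i + 1) := fun _ => Dle.monomial _ _

theorem std_mono {a b : Fin n → ℤ} (h : ∀ i, a i ≤ b i) : stdLat (k := k) a ≤ stdLat b :=
  fun _ hv => mem_stdLat.mpr fun i => (mem_stdLat.mp hv i).mono (h i)

theorem smul_lead_mem (a : Fin n → ℤ) (c : inftyRing k) :
    ∃ c₀ : k, ∀ w : Fin n → k, c • lead a w - lead a (c₀ • w) ∈ stdLat a := by
  obtain ⟨c₀, hc⟩ := exists_top_coeff (inftyRing_dle c)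
  refine ⟨c₀, fun w => mem_stdLat.mpr fun i => ?_⟩
  have h := (hc.mul (Dle.monomial (w i) (a i + 1))).mono (show (0 : ℤ) - 1 + (a i + 1) ≤ a i by omega)
  simp only [zpow_zero, mul_one] at h
  simpa [smul_coe, lead, sub_mul, mul_assoc] using h

theorem mem_fibLat {a : Fin n → ℤ} {W : Submodule k (Fin n → k)} {v : Fin n → RatFunc k} :
    v ∈ fibLat a W ↔ ∃ w ∈ W, v - lead a w ∈ stdLat a := by
  let N : Lat k n :=
    { carrier := {v | ∃ w ∈ W, v - lead a w ∈ stdLat a}
      add_mem' := by
        rintro u v ⟨x, hx, hu⟩ ⟨y, hy, hv⟩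
        refine ⟨x + y, W.add_mem hx hy, ?_⟩
        rw [lead_add, show u + v - (lead a x + lead a y) = (u - lead a x) + (v - lead a y) by abel]
        exact Submodule.add_mem _ hu hv
      zero_mem' := ⟨0, W.zero_mem, by simp [lead_zero]⟩
      smul_mem' := by
        rintro c v ⟨x, hx, hv⟩
        obtain ⟨c₀, hc⟩ := smul_lead_mem a c
        refine ⟨c₀ • x, W.smul_mem _ hx, ?_⟩
        rw [show c • v - lead a (c₀ • x) =
          c • (v - lead a x) + (c • lead a x - lead a (c₀ • x)) by rw [smul_sub]; abel]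
        exact Submodule.add_mem _ (Submodule.smul_mem _ c hv) (hc x) }
  constructor
  · intro h
    have hle : fibLat a W ≤ N := sup_le
      (fun u hu => ⟨0, W.zero_mem, by simpa [lead_zero] using hu⟩)
      (Submodule.span_le.mpr (by
        rintro _ ⟨w, hw, rfl⟩
        exact ⟨w, hw, by simp⟩))
    exact hle h
  · rintro ⟨w, hw, h⟩
    rw [← sub_add_cancel v (lead a w)]
    exact Submodule.add_mem _ (Submodule.mem_sup_left h)
      (Submodule.mem_sup_right (Submodule.subset_span ⟨w, hw, rfl⟩))

theorem std_le_fibLat (a : Fin n → ℤ) (W : Submodule k (Fin n → k)) : stdLat a ≤ fibLat a W :=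
  le_sup_left

theorem fibLat_le_shift (a : Fin n → ℤ) (W : Submodule k (Fin n → k)) :
    fibLat a W ≤ shift (stdLat a) := by
  rw [shift_stdLat]
  refine sup_le (std_mono fun i => by omega) (Submodule.span_le.mpr ?_)
  rintro _ ⟨w, _, rfl⟩
  exact lead_mem_std a w

theorem fibLat_le_iff {a : Fin n → ℤ} {W W' : Submodule k (Fin n → k)} :
    fibLat a W ≤ fibLat a W' ↔ W ≤ W' := by
  refine ⟨fun h w hw => ?_, fun h => sup_le_sup_left (Submodule.span_mono (Set.image_mono h)) _⟩
  obtain ⟨x, hx, hd⟩ := mem_fibLat.mp (h (mem_fibLat.mpr ⟨w, hw, by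
    rw [sub_self]
    exact Submodule.zero_mem _⟩) : lead a w ∈ fibLat a W')
  rw [← lead_sub] at hd
  have he : w = x := sub_eq_zero.mp (eq_zero_of_lead hd)
  rwa [he]

theorem fibLat_bot (a : Fin n → ℤ) : fibLat a (⊥ : Submodule k (Fin n → k)) = stdLat a := by
  refine le_antisymm (fun v hv => ?_) (std_le_fibLat a ⊥)
  obtain ⟨w, hw, h⟩ := mem_fibLat.mp hv
  rw [Submodule.mem_bot] at hw
  simpa [hw, lead_zero] using h

theorem fibLat_top (a : Fin n → ℤ) :
    fibLat a (⊤ : Submodule k (Fin n → k)) = shift (stdLat a) := by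
  refine le_antisymm (fibLat_le_shift a ⊤) (fun v hv => ?_)
  rw [shift_stdLat] at hv
  obtain ⟨w, hw⟩ := exists_lead hv
  exact mem_fibLat.mpr ⟨w, trivial, hw⟩

theorem exists_fibLat {a : Fin n → ℤ} {M : Lat k n} (h1 : stdLat a ≤ M)
    (h2 : M ≤ shift (stdLat a)) : ∃ W, M = fibLat a W := by
  let W : Submodule k (Fin n → k) :=
    { carrier := {w | lead a w ∈ M}
      add_mem' := fun {u v} hu hv => by
        show lead a (u + v) ∈ M
        rw [lead_add]
        exact M.add_mem hu hv
      zero_mem' := by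
        show lead a (0 : Fin n → k) ∈ M
        rw [lead_zero]
        exact M.zero_mem
      smul_mem' := fun c v hv => by
        show lead a (c • v) ∈ M
        rw [lead_smul]
        exact M.smul_mem _ hv }
  refine ⟨W, le_antisymm (fun v hv => ?_) (sup_le h1 (Submodule.span_le.mpr ?_))⟩
  · obtain ⟨w, hw⟩ := exists_lead (by simpa [shift_stdLat] using h2 hv)
    refine mem_fibLat.mpr ⟨w, ?_, hw⟩
    show lead a w ∈ M
    simpa using M.sub_mem hv (h1 hw)
  · rintro _ ⟨w, hw, rfl⟩
    exact hw

/-- the elementary transformation along an echelon basis -/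
noncomputable def stepN (a : Fin n → ℤ) (S : Finset (Fin n)) (w : Fin n → Fin n → k) :
    Matrix (Fin n) (Fin n) (Polynomial k) :=
  fun i s => if s ∈ S ∧ i ∉ S then Polynomial.C (w s i) * Polynomial.X ^ (a i - a s).toNat else 0

theorem det_one_add_stepN (a : Fin n → ℤ) (S : Finset (Fin n)) (w : Fin n → Fin n → k) :
    (1 + stepN a S w).det = 1 := by
  classical
  let b : Fin n → ℕ := fun i => if i ∈ S then 1 else 0
  have hbt : (1 + stepN a S w).BlockTriangular b := by
    intro i j hij
    simp only [b] at hij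
    by_cases hi : i ∈ S
    · by_cases hj : j ∈ S
      · simp [hi, hj] at hij
      · simp [stepN, hj, show i ≠ j from fun h => hj (h ▸ hi)]
    · simp [hi] at hij
  rw [hbt.det]
  refine Finset.prod_eq_one fun x _ => ?_
  have : (1 + stepN a S w).toSquareBlock b x = 1 := by
    ext ⟨i, hi⟩ ⟨j, hj⟩
    have hS : ¬ (j ∈ S ∧ i ∉ S) := fun h => by
      have := hi.trans hj.symm
      simp [b, h.1, h.2] at this
    simp [Matrix.toSquareBlock_def, stepN, hS, Matrix.one_apply, Subtype.ext_iff]
  rw [this, Matrix.det_one]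

/-- the echelon basis moves the standard lattice to the neighbour -/
theorem fibLat_eq_gamAct (a : Fin n → ℤ) (W : Submodule k (Fin n → k)) (S : Finset (Fin n))
    (w : Fin n → Fin n → k)
    (hw : ∀ s ∈ S, w s ∈ W ∧ w s s = 1 ∧ (∀ t ∈ S, t ≠ s → w s t = 0) ∧
      ∀ i, w s i ≠ 0 → a s ≤ a i)
    (hspan : ∀ v ∈ W, v = ∑ s ∈ S, v s • w s) :
    HasDeg (fibLat a W) (a + bump S) := by
  classical
  let h : Gam n k := ⟨1 + stepN a S w, det_one_add_stepN a S w⟩
  let h' : Gam n k := ⟨1 + stepN a S (fun s i => -w s i), det_one_add_stepN a S _⟩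
  have hNN : ∀ u u' : Fin n → Fin n → k, stepN a S u * stepN a S u' = 0 := fun u u' => by
    refine Matrix.ext fun i j => ?_
    rw [Matrix.mul_apply, Matrix.zero_apply]
    refine Finset.sum_eq_zero fun l _ => ?_
    simp only [stepN]
    split_ifs with h1 h2 <;> simp
    exact absurd h1.1 h2.2
  have hneg : stepN a S (fun s i => -w s i) = -stepN a S w := by
    ext i j
    simp only [stepN, Matrix.neg_apply]
    split_ifs <;> simp
  have hmul : h * h' = 1 := by
    apply Subtype.ext
    show (1 + stepN a S w) * (1 + stepN a S fun s i => -w s i) = 1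
    rw [add_mul, one_mul, mul_add, mul_one, hNN, add_zero, hneg]
    abel
  have hent : ∀ (u : Fin n → Fin n → k) (g : Gam n k),
      (g : Matrix (Fin n) (Fin n) (Polynomial k)) = 1 + stepN a S u →
      (∀ s ∈ S, ∀ i, u s i ≠ 0 → a s ≤ a i) →
      gamAct g (stdLat a) ≤ stdLat a := by
    intro u g hg hu
    rw [gamAct_std_le_iff]
    intro i j
    simp only [gMat, hg, Matrix.map_apply, Matrix.add_apply, map_add]
    refine Dle.add ?_ ?_
    · rcases eq_or_ne i j with rfl | hij
      · exact Or.inr (by simp)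
      · exact Or.inl (by simp [hij])
    · simp only [stepN]
      split_ifs with hc
      · by_cases h0 : u j i = 0
        · exact Or.inl (by simp [h0])
        · have := hu j hc.1 i h0
          rw [map_mul, map_pow, RatFunc.algebraMap_C, RatFunc.algebraMap_X, ← zpow_natCast,
            Int.toNat_of_nonneg (by omega)]
          exact Dle.monomial _ _
      · exact Or.inl (map_zero _)
  have hh' : gamAct h' (stdLat a) ≤ stdLat a :=
    hent _ h' rfl fun s hs i hi => (hw s hs).2.2.2 i (by simpa using hi)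
  have hsub : stdLat a ≤ gamAct h (stdLat (a + bump S)) := by
    refine le_trans ?_ (gamAct_mono h ((hh'.trans (std_mono fun i => ?_))))
    · rw [← gamAct_mul, hmul, gamAct_one]
    · simp only [Pi.add_apply, bump]
      split_ifs <;> omega
  -- the two coefficients agree up to the smaller lattice
  have key : ∀ v ∈ stdLat (k := k) (a + bump S), ∀ c : Fin n → k,
      (∀ s ∈ S, Dle (v s - RatFunc.C (c s) * RatFunc.X ^ (a s + 1)) (a s)) →
      (gMat h).mulVec v - lead a (∑ s ∈ S, c s • w s) ∈ stdLat a := by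
    intro v hv c hc
    refine mem_stdLat.mpr fun i => ?_
    have e1 : (gMat h).mulVec v i = v i + ∑ s ∈ S, if i ∈ S then 0 else
        RatFunc.C (w s i) * RatFunc.X ^ (((a i - a s).toNat : ℕ) : ℤ) * v s := by
      have : gMat h = 1 + (stepN a S w).map (algebraMap (Polynomial k) (RatFunc k)) := by
        simp [gMat, h, Matrix.map_add]
      rw [this, Matrix.add_mulVec, Matrix.one_mulVec, Pi.add_apply]
      congr 1
      show ∑ s, _ * v s = _
      rw [← Finset.sum_subset (Finset.subset_univ S) fun s _ hs => by simp [stepN, hs]]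
      refine Finset.sum_congr rfl fun s hs => ?_
      by_cases hi : i ∈ S
      · simp [stepN, hs, hi]
      · rw [if_neg hi, zpow_natCast]
        simp [stepN, hs, hi, RatFunc.algebraMap_C, RatFunc.algebraMap_X]
    have e2 : lead a (∑ s ∈ S, c s • w s) i =
        ∑ s ∈ S, RatFunc.C (c s) * RatFunc.C (w s i) * RatFunc.X ^ (a i + 1) := by
      simp [lead, Finset.sum_mul, map_sum]
    show Dle ((gMat h).mulVec v i - lead a (∑ s ∈ S, c s • w s) i) (a i)
    rw [e1, e2]
    by_cases hi : i ∈ S
    · rw [Finset.sum_eq_zero (fun s _ => if_pos hi), add_zero,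
        Finset.sum_eq_single i (fun s hs hsi => by
          simp [(hw s hs).2.2.1 i hi (Ne.symm hsi)]) (fun h => absurd hi h)]
      simpa [(hw i hi).2.1] using hc i hi
    · rw [add_sub_assoc, ← Finset.sum_sub_distrib]
      refine Dle.add ?_ (Dle.sum fun s hs => ?_)
      · have := mem_stdLat.mp hv i
        simpa [bump, hi] using this
      rw [if_neg hi]
      by_cases h0 : w s i = 0
      · exact Or.inl (by simp [h0])
      have hle := (hw s hs).2.2.2 i h0
      rw [Int.toNat_of_nonneg (by omega)]
      have he : RatFunc.C (w s i) * RatFunc.X ^ (a i - a s) * v s -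
          RatFunc.C (c s) * RatFunc.C (w s i) * RatFunc.X ^ (a i + 1) =
          RatFunc.C (w s i) * RatFunc.X ^ (a i - a s) *
            (v s - RatFunc.C (c s) * RatFunc.X ^ (a s + 1)) := by
        have : (RatFunc.X : RatFunc k) ^ (a i + 1) =
            RatFunc.X ^ (a i - a s) * RatFunc.X ^ (a s + 1) := by
          rw [← zpow_add₀ RatFunc.X_ne_zero]
          congr 1
          omega
        rw [this]
        ring
      rw [he]
      exact ((Dle.monomial _ _).mul (hc s hs)).mono (by omega)
  refine ⟨h, le_antisymm (fun v hv => ?_) ?_⟩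
  · obtain ⟨x, hx, hv⟩ := mem_fibLat.mp hv
    let u : Fin n → RatFunc k := fun i =>
      if i ∈ S then RatFunc.C (x i) * RatFunc.X ^ (a i + 1) else 0
    have hu : u ∈ stdLat (a + bump S) := fun i => by
      by_cases hi : i ∈ S
      · show Dle (u i) (a i + bump S i)
        simp only [u, if_pos hi, bump]
        exact Dle.monomial (x i) (a i + 1)
      · exact Or.inl (by simp [u, hi])
    have h1 := key u hu x fun s hs => by
      simp only [u, if_pos hs, sub_self]
      exact Dle.zero _
    rw [← hspan x hx] at h1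
    have h2 : v - (gMat h).mulVec u ∈ gamAct h (stdLat (a + bump S)) := by
      rw [show v - (gMat h).mulVec u = (v - lead a x) - ((gMat h).mulVec u - lead a x) by abel]
      exact Submodule.sub_mem _ (hsub hv) (hsub h1)
    have h3 : (gMat h).mulVec u ∈ gamAct h (stdLat (a + bump S)) := ⟨u, hu, rfl⟩
    simpa using Submodule.add_mem _ h2 h3
  · rintro _ ⟨v, hv, rfl⟩
    have : ∀ s, ∃ c, s ∈ S → Dle (v s - RatFunc.C c * RatFunc.X ^ (a s + 1)) (a s) := fun s => by
      by_cases hs : s ∈ S
      · have h0 := mem_stdLat.mp hv s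
        simp only [Pi.add_apply, bump, if_pos hs] at h0
        obtain ⟨c, hc⟩ := exists_top_coeff h0
        exact ⟨c, fun _ => hc.mono (by omega)⟩
      · exact ⟨0, fun h => absurd h hs⟩
    choose c hc using this
    exact mem_fibLat.mpr ⟨∑ s ∈ S, c s • w s,
      W.sum_mem fun s hs => W.smul_mem _ (hw s hs).1, key v hv c hc⟩

theorem step_degrees (a : Fin n → ℤ) (W : Submodule k (Fin n → k)) :
    ∃ S : Finset (Fin n), HasDeg (fibLat a W) (a + bump S) ∧ S.card = Module.finrank k W ∧
      (∀ x, (∀ s ∈ S, a s < x) ↔ W ⊓ Flt a x = ⊥) ∧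
      (∀ x, (∀ i, i ∉ S → x ≤ a i) ↔ W ⊔ Flt a x = ⊤) ∧
      (∀ x, (∀ i, a i ≤ x) → ((∀ i, a i = x → i ∈ S) ↔ Flt a x ≤ W)) := by
  classical
  obtain ⟨S, w, hw, hspan⟩ := exists_echelon a W
  refine ⟨S, fibLat_eq_gamAct a W S w hw hspan,
    finrank_echelon (fun s hs => ⟨(hw s hs).1, (hw s hs).2.1, (hw s hs).2.2.1⟩) hspan,
    fun x => ?_, fun x => ?_, fun x hx => ?_⟩
  · constructor
    · intro h
      rw [eq_bot_iff]
      rintro v ⟨hv, hF⟩
      rw [Submodule.mem_bot, hspan v hv]
      exact Finset.sum_eq_zero fun s hs => by rw [hF s (h s hs), zero_smul]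
    · intro h s hs
      by_contra hc
      have : w s ∈ W ⊓ Flt a x := ⟨(hw s hs).1, fun i hi => by
        by_contra h0
        have := (hw s hs).2.2.2 i h0
        omega⟩
      rw [h, Submodule.mem_bot] at this
      have h1 := (hw s hs).2.1
      rw [this] at h1
      exact zero_ne_one h1
  · constructor
    · intro h
      rw [eq_top_iff]
      intro v _
      rw [← sub_add_cancel v (∑ s ∈ S, v s • w s), add_comm]
      refine Submodule.add_mem_sup (W.sum_mem fun s hs => W.smul_mem _ (hw s hs).1)
        (fun i hi => ?_)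
      have hiS : i ∈ S := by
        by_contra hc
        have := h i hc
        omega
      simp only [Pi.sub_apply, Finset.sum_apply, Pi.smul_apply]
      rw [Finset.sum_eq_single i (fun s hs hsi => by simp [(hw s hs).2.2.1 i hiS (Ne.symm hsi)])
        (fun h => absurd hiS h)]
      simp [(hw i hiS).2.1]
    · intro h i hiS
      by_contra hc
      obtain ⟨u, hu, v, hv, huv⟩ := Submodule.mem_sup.mp
        (h.ge (Submodule.mem_top (x := Pi.single i (1 : k))))
      have hvi : v i = 0 := hv i (by omega)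
      have hsum : ∀ s ∈ S, u s * w s i = 0 := by
        intro s hs
        by_contra h0
        have ha := (hw s hs).2.2.2 i (right_ne_zero_of_mul h0)
        have hv' : v s = 0 := hv s (by omega)
        have h1 := congrFun huv s
        rw [Pi.add_apply, hv', add_zero,
          Pi.single_eq_of_ne (show s ≠ i from fun h => hiS (h ▸ hs))] at h1
        exact left_ne_zero_of_mul h0 h1
      have h2 : u i = 0 := by
        rw [hspan u hu]
        simp only [Finset.sum_apply, Pi.smul_apply, smul_eq_mul]
        exact Finset.sum_eq_zero hsum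
      have h1 := congrFun huv i
      rw [Pi.add_apply, hvi, h2, add_zero, Pi.single_eq_same] at h1
      exact zero_ne_one h1
  · constructor
    · intro h v hv
      have he : v = ∑ s ∈ S, v s • w s := by
        funext i
        simp only [Finset.sum_apply, Pi.smul_apply, smul_eq_mul]
        by_cases hi : i ∈ S
        · rw [Finset.sum_eq_single i (fun s hs hsi => by
            simp [(hw s hs).2.2.1 i hi (Ne.symm hsi)]) (fun h => absurd hi h)]
          simp [(hw i hi).2.1]
        · have hix : a i < x := lt_of_le_of_ne (hx i) fun e => hi (h i e)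
          rw [hv i hix]
          refine (Finset.sum_eq_zero fun s hs => ?_).symm
          by_contra h0
          have ha := (hw s hs).2.2.2 i (right_ne_zero_of_mul h0)
          exact left_ne_zero_of_mul h0 (hv s (by omega))
      rw [he]
      exact W.sum_mem fun s hs => W.smul_mem _ (hw s hs).1
    · intro h i hi
      by_contra hiS
      have h1 : (Pi.single i 1 : Fin n → k) ∈ Flt a x := fun j hj => by
        rw [Pi.single_eq_of_ne (show j ≠ i from fun e => by rw [e] at hj; omega)]
      have h2 := hspan _ (h h1)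
      have h3 := congrFun h2 i
      rw [Finset.sum_eq_zero (fun s hs => by
        rw [Pi.single_eq_of_ne (show s ≠ i from fun e => hiS (e ▸ hs)), zero_smul])] at h3
      simp at h3

/-- inclusions between bundles come from matrices with bounded entries -/
theorem deg_le_of_le {g h : Gam n k} {a b : Fin n → ℤ}
    (hle : gamAct g (stdLat a) ≤ gamAct h (stdLat b)) :
    (∀ i j, Dle (gMat (h⁻¹ * g) i j) (b i - a j)) := by
  rw [← gamAct_std_le_iff, gamAct_mul]
  have := gamAct_mono h⁻¹ hle
  rwa [← gamAct_mul h⁻¹ h, inv_mul_cancel, gamAct_one] at this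

theorem exists_perm (M : Gam n k) : ∃ σ : Equiv.Perm (Fin n), ∀ j,
    (M : Matrix (Fin n) (Fin n) (Polynomial k)) (σ j) j ≠ 0 := by
  classical
  by_contra hc
  push Not at hc
  have h1 := M.2
  rw [Matrix.det_apply] at h1
  rw [Finset.sum_eq_zero (fun σ _ => ?_)] at h1
  · exact zero_ne_one h1
  obtain ⟨j, hj⟩ := hc σ
  have hp := Finset.prod_eq_zero (f := fun i =>
    (M : Matrix (Fin n) (Fin n) (Polynomial k)) (σ i) i) (Finset.mem_univ j) hj
  exact (congrArg (fun t => Equiv.Perm.sign σ • t) hp).trans (smul_zero _)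

theorem natDegree_le_of_dle {p : Polynomial k} {x : ℤ} (hp : p ≠ 0)
    (h : Dle (algebraMap (Polynomial k) (RatFunc k) p) x) : (p.natDegree : ℤ) ≤ x := by
  have := h.resolve_left (RatFunc.algebraMap_ne_zero hp)
  rwa [RatFunc.intDegree_polynomial] at this

theorem degrees_mono {L L' : Lat k n} {a b : Fin n → ℤ} (hL : HasDeg L a) (hL' : HasDeg L' b)
    (hle : L ≤ L') :
    (∀ x, (Finset.univ.filter fun i => x ≤ a i).card ≤
      (Finset.univ.filter fun i => x ≤ b i).card) ∧
    ∑ i, a i ≤ ∑ i, b i ∧ (L ≠ L' → ∑ i, a i < ∑ i, b i) := by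
  classical
  obtain ⟨g, rfl⟩ := hL
  obtain ⟨h, rfl⟩ := hL'
  have hd := deg_le_of_le hle
  obtain ⟨σ, hσ⟩ := exists_perm (h⁻¹ * g)
  have hab : ∀ j, a j ≤ b (σ j) := fun j => by
    have := natDegree_le_of_dle (hσ j) (hd (σ j) j)
    omega
  have hsum : ∑ i, a i ≤ ∑ i, b i :=
    (Finset.sum_le_sum fun j _ => hab j).trans_eq (Equiv.sum_comp σ b)
  refine ⟨fun x => Finset.card_le_card_of_injOn σ (fun j hj => ?_) σ.injective.injOn, hsum, ?_⟩
  · simp only [Finset.coe_filter, Finset.mem_univ, true_and, Set.mem_setOf_eq] at hj ⊢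
    exact hj.trans (hab j)
  intro hne
  refine lt_of_le_of_ne hsum fun heq => hne ?_
  refine le_antisymm hle ?_
  have key : gamAct (h⁻¹ * g)⁻¹ (stdLat b) ≤ stdLat a := by
    rw [gamAct_std_le_iff]
    intro j i
    set M : Matrix (Fin n) (Fin n) (Polynomial k) := (h⁻¹ * g : Gam n k).1
    have hinv : gMat (h⁻¹ * g)⁻¹ j i = algebraMap _ _ (M.adjugate j i) := by
      show algebraMap _ _ (((h⁻¹ * g)⁻¹ : Gam n k).1 j i) = _
      rw [Matrix.SpecialLinearGroup.coe_inv]
    rw [hinv, Matrix.adjugate_apply, Matrix.det_apply, map_sum]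
    refine Dle.sum fun τ _ => ?_
    rw [Units.smul_def, map_zsmul]
    have hprod : Dle (algebraMap (Polynomial k) (RatFunc k)
        (∏ l, M.updateRow i (Pi.single j 1) (τ l) l)) (a j - b i) := by
      by_cases h0 : ∏ l, M.updateRow i (Pi.single j 1) (τ l) l = 0
      · rw [h0, map_zero]
        exact Dle.zero _
      have hne0 := Finset.prod_ne_zero_iff.mp h0
      have hτj : τ j = i := by
        have h1 := hne0 (τ⁻¹ i) (Finset.mem_univ _)
        simp only [Equiv.Perm.coe_inv, Equiv.apply_symm_apply, Matrix.updateRow_self] at h1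
        by_contra hc
        exact h1 (Pi.single_eq_of_ne (fun e => hc (by rw [← e]; simp)) _)
      rw [map_prod]
      have hp : ∀ (t : Finset (Fin n)) (f : Fin n → RatFunc k) (e : Fin n → ℤ),
          (∀ l ∈ t, Dle (f l) (e l)) → Dle (∏ l ∈ t, f l) (∑ l ∈ t, e l) := by
        intro t f e
        induction t using Finset.induction_on with
        | empty => exact fun _ => Or.inr (by simp)
        | @insert l t hl ih =>
          intro hf
          rw [Finset.prod_insert hl, Finset.sum_insert hl]
          exact (hf l (Finset.mem_insert_self l t)).mul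
            (ih fun m hm => hf m (Finset.mem_insert_of_mem hm))
      refine (hp Finset.univ _ (fun l => if l = j then 0 else b (τ l) - a l) ?_).mono ?_
      · intro l _
        split_ifs with hl
        · subst hl
          rw [hτj, Matrix.updateRow_self, Pi.single_eq_same, map_one]
          exact Or.inr (by simp)
        · rw [Matrix.updateRow_ne fun e => hl (τ.injective (e.trans hτj.symm))]
          exact hd (τ l) l
      · rw [← Finset.sum_erase_add _ _ (Finset.mem_univ j), if_pos rfl, add_zero,
          Finset.sum_congr rfl (fun l hl => if_neg (Finset.mem_erase.mp hl).1)]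
        have := Finset.sum_erase_add (Finset.univ : Finset (Fin n)) (fun l => b (τ l) - a l)
          (Finset.mem_univ j)
        simp only [hτj, Finset.sum_sub_distrib, Equiv.sum_comp τ b] at this
        simp only [Finset.sum_sub_distrib]
        omega
    rcases hprod with h | h
    · exact Or.inl (by rw [h, smul_zero])
    · rcases Int.units_eq_one_or (Equiv.Perm.sign τ) with e | e <;> rw [e] <;>
        simp only [Units.val_one, one_smul, Units.val_neg, neg_smul]
      · exact Or.inr h
      · exact Dle.neg (Or.inr h)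
  have h2 := gamAct_mono g key
  rwa [← gamAct_mul, show g * (h⁻¹ * g)⁻¹ = h by group] at h2

theorem shift_iterate_std (a : Fin n → ℤ) :
    ∀ j : ℕ, shift^[j] (stdLat a) = stdLat (k := k) (fun i => a i + j)
  | 0 => by simp
  | j + 1 => by
    rw [Function.iterate_succ_apply', shift_iterate_std a j, shift_stdLat]
    congr 1
    funext i
    push_cast
    ring

theorem shift_iterate_act (g : Gam n k) (L : Lat k n) :
    ∀ j : ℕ, shift^[j] (gamAct g L) = gamAct g (shift^[j] L)
  | 0 => rfl
  | j + 1 => by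
    rw [Function.iterate_succ_apply', Function.iterate_succ_apply', shift_iterate_act g L j,
      gamAct_shift]

theorem exists_shift_bound {L L' : Lat k n} {a b : Fin n → ℤ} (hL : HasDeg L a)
    (hL' : HasDeg L' b) : ∃ j : ℕ, L' ≤ shift^[j] L := by
  classical
  obtain ⟨g, rfl⟩ := hL
  obtain ⟨h, rfl⟩ := hL'
  obtain ⟨B, hB⟩ : ∃ B : ℕ, ∀ i l, ((g⁻¹ * h : Gam n k).1 i l).natDegree + b l - a i ≤ (B : ℤ) := by
    refine ⟨∑ i, ∑ l, (((g⁻¹ * h : Gam n k).1 i l).natDegree + b l - a i).toNat, fun i l => ?_⟩
    refine (Int.self_le_toNat _).trans (Int.ofNat_le.mpr ?_)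
    refine le_trans ?_ (Finset.single_le_sum (fun _ _ => Nat.zero_le _) (Finset.mem_univ i))
    exact Finset.single_le_sum (f := fun l => (((g⁻¹ * h : Gam n k).1 i l).natDegree + b l -
      a i).toNat) (fun _ _ => Nat.zero_le _) (Finset.mem_univ l)
  refine ⟨B, ?_⟩
  rw [shift_iterate_act, shift_iterate_std]
  have : gamAct (g⁻¹ * h) (stdLat b) ≤ stdLat (k := k) fun i => a i + B := by
    rw [gamAct_std_le_iff]
    intro i l
    exact (Dle.poly _).mono (by have := hB i l; omega)
  have h2 := gamAct_mono g this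
  rwa [← gamAct_mul, mul_inv_cancel_left] at h2

theorem exists_deg_between : ∀ (j : ℕ) (L M : Lat k n) (a : Fin n → ℤ), HasDeg L a → L ≤ M →
    M ≤ shift^[j] L → ∃ c, HasDeg M c
  | 0, L, M, a, hL, h1, h2 => ⟨a, by rwa [le_antisymm (by simpa using h2) h1]⟩
  | j + 1, L, M, a, hL, h1, h2 => by
    have hL1 : ∃ c, HasDeg (M ⊓ shift L) c := by
      obtain ⟨g, rfl⟩ := hL
      have hlo : stdLat a ≤ gamAct g⁻¹ (M ⊓ shift (gamAct g (stdLat a))) := by
        have := gamAct_mono g⁻¹ (le_inf h1 (show gamAct g (stdLat a) ≤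
          shift (gamAct g (stdLat a)) by
            rw [← gamAct_shift, shift_stdLat]
            exact gamAct_mono g (std_mono fun i => by omega)))
        rwa [← gamAct_mul, inv_mul_cancel, gamAct_one] at this
      have hhi : gamAct g⁻¹ (M ⊓ shift (gamAct g (stdLat a))) ≤ shift (stdLat a) := by
        have := gamAct_mono g⁻¹ (inf_le_right (a := M) (b := shift (gamAct g (stdLat a))))
        rwa [← gamAct_shift, ← gamAct_mul, inv_mul_cancel, gamAct_one, gamAct_shift] at this
      obtain ⟨W, hW⟩ := exists_fibLat hlo hhi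
      obtain ⟨S, ⟨h, hS⟩, _⟩ := step_degrees a W
      refine ⟨a + bump S, g * h, ?_⟩
      rw [gamAct_mul, ← hS, ← hW, ← gamAct_mul, mul_inv_cancel, gamAct_one]
    obtain ⟨c, hc⟩ := hL1
    refine exists_deg_between j _ M c hc inf_le_left fun m hm => ?_
    have hX : (RatFunc.X : RatFunc k) ≠ 0 := RatFunc.X_ne_zero
    have hmem : ∀ (i : ℕ) (N : Lat k n) (v : Fin n → RatFunc k),
        v ∈ shift^[i] N ↔ (RatFunc.X : RatFunc k) ^ (-(i : ℤ)) • v ∈ N := by
      intro i
      induction i with
      | zero => simp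
      | succ i ih =>
        intro N v
        rw [Function.iterate_succ_apply, ih, mem_shift, smul_smul, ← zpow_neg_one,
          ← zpow_add₀ hX,
          show (-1 : ℤ) + -(i : ℤ) = -(((i + 1 : ℕ)) : ℤ) by push_cast; ring]
    refine (hmem j _ m).mpr ⟨?_, ?_⟩
    · exact M.smul_mem (invX j) hm
    · have h3 := (hmem (j + 1) L m).mp (h2 hm)
      refine mem_shift.mpr ?_
      rw [smul_smul, ← zpow_neg_one, ← zpow_add₀ hX]
      rwa [show (-1 : ℤ) + -(j : ℤ) = -(((j + 1 : ℕ)) : ℤ) by push_cast; ring]

theorem exists_upper {L : Lat k n} {a : Fin n → ℤ} (hL : HasDeg L a) :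
    ∃ N : ℕ, L ≤ stdLat fun _ => (N : ℤ) := by
  obtain ⟨j, hj⟩ := exists_shift_bound (⟨1, (gamAct_one _).symm⟩ :
    HasDeg (stdLat (k := k) fun _ : Fin n => (0 : ℤ)) fun _ => 0) hL
  refine ⟨j, hj.trans ?_⟩
  rw [shift_iterate_std]
  exact std_mono fun i => by omega

theorem latFacts : LatFactsStmt := fun k _ n =>
  ⟨⟨gamAct_one, gamAct_mul, fun g _ _ => gamAct_le_iff g, gamAct_shift,
      fun _ _ => shift_le_iff⟩,
    fun a => ⟨shift_stdLat a, fun W => ⟨std_le_fibLat a W, fibLat_le_shift a W⟩,
      fun _ _ => fibLat_le_iff, fibLat_bot a, fibLat_top a, fun _ => exists_fibLat⟩,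
    step_degrees,
    fun _ _ _ _ hL hL' => degrees_mono hL hL',
    fun L L' a b hL hL' => ⟨exists_shift_bound hL hL', fun M h1 h2 => by
      obtain ⟨j, hj⟩ := exists_shift_bound hL hL'
      exact exists_deg_between j L M a hL h1 (h2.trans hj)⟩,
    fun _ _ => exists_upper⟩

end Vale.Agent.P067.KO
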