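import Vale.Agent.P067.KO.Pins
import Vale.Agent.P067.KO.LatFacts

/-!
The action on lattices preserves the lattice complex.
-/

namespace Vale.Agent.P067.KO

open Finset

theorem hasDeg_gamAct {k : Type*} [Field k] {n : ℕ} {L : Lat k n} {a : Fin n → ℤ}
    (h : HasDeg L a) (g : Gam n k) : HasDeg (gamAct g L) a := by
  obtain ⟨g', rfl⟩ := h
  exact ⟨g * g', (gamAct_mul g g' _).symm⟩

theorem inWindow_gamAct {k : Type*} [Field k] {n : ℕ} {L : Lat k n} (h : InWindow L)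
    (g : Gam n k) : InWindow (gamAct g L) := by
  obtain ⟨a, h1, h2, h3⟩ := h
  exact ⟨a, h1, h2, hasDeg_gamAct h3 g⟩

theorem gamAct_xInf : GamActStmt := fun k _ _ n _ =>
  ⟨gamAct_one, gamAct_mul, fun g s hs => by
    refine ⟨fun L hL => ?_, fun L hL L' hL' => ?_⟩
    · obtain ⟨L₀, h₀, rfl⟩ := Finset.mem_image.mp hL
      exact inWindow_gamAct (hs.1 L₀ h₀) g
    · obtain ⟨L₀, h₀, rfl⟩ := Finset.mem_image.mp hL
      obtain ⟨L₁, h₁, rfl⟩ := Finset.mem_image.mp hL'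
      obtain ⟨h2, h3⟩ := hs.2 L₀ h₀ L₁ h₁
      exact ⟨h2.imp (gamAct_mono g) (gamAct_mono g), by
        rw [← gamAct_shift]
        exact gamAct_mono g h3⟩⟩

end Vale.Agent.P067.KO
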