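import Vale.Agent.P067.KO.GamActProof

/-!
The link of a lattice in the window is the opposition complex of its filtration step at infinity.
-/

namespace Vale.Agent.P067.KO

open Finset

variable {k : Type*} [Field k] {n : ℕ}

theorem finrank_flt (a : Fin n → ℤ) (x : ℤ) :
    Module.finrank k (Flt (k := k) a x) = (Finset.univ.filter fun i => x ≤ a i).card := by
  classical
  have h := finrank_echelon (k := k) (W := Flt a x) (S := Finset.univ.filter fun i => x ≤ a i)
    (w := fun s => Pi.single s 1)
    (fun s hs => ⟨fun i hi => Pi.single_eq_of_ne (fun e => by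
        rw [Finset.mem_filter] at hs
        rw [e] at hi
        omega) _, Pi.single_eq_same _ _, fun t _ hts => Pi.single_eq_of_ne hts _⟩)
    (fun v hv => by
      funext i
      simp only [Finset.sum_apply, Pi.smul_apply, smul_eq_mul, Pi.single_apply, mul_ite, mul_one,
        mul_zero, Finset.sum_ite_eq, Finset.mem_filter, Finset.mem_univ, true_and]
      split_ifs with h
      · rfl
      · exact hv i (not_le.mp h))
  exact h.symm

theorem shift_fibLat (a : Fin n → ℤ) (W : Submodule k (Fin n → k)) :
    shift (fibLat (fun i => a i - 1) W) = fibLat a W := by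
  have hX : (RatFunc.X : RatFunc k) ≠ 0 := RatFunc.X_ne_zero
  ext v
  rw [mem_shift, mem_fibLat, mem_fibLat]
  refine exists_congr fun w => and_congr_right fun _ => ?_
  have he : shift (stdLat (k := k) fun i => a i - 1) = stdLat a := by
    rw [shift_stdLat]
    simp
  have hl : lead (fun i => a i - 1) w = (RatFunc.X : RatFunc k)⁻¹ • lead a w := by
    funext i
    simp only [lead, Pi.smul_apply, smul_eq_mul, sub_add_cancel]
    rw [zpow_add_one₀ hX]
    field_simp
  rw [hl, ← smul_sub, ← mem_shift, he]

theorem flt_sub_one (a : Fin n → ℤ) (x : ℤ) :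
    Flt (k := k) (fun i => a i - 1) x = Flt a (x + 1) := by
  ext w
  refine forall_congr' fun i => ⟨fun h hi => h (show a i - 1 < x by omega),
    fun h (hi : a i - 1 < x) => h (by omega)⟩

theorem window_degrees {L : Lat k n} {b : Fin n → ℤ} (hL : InWindow L) (hb : HasDeg L b) :
    (∀ i, 0 ≤ b i ∧ b i ≤ 1) ∧ ∃ i, b i = 0 := by
  classical
  obtain ⟨a, ha, ⟨i₀, hi₀⟩, hd⟩ := hL
  have e : ∀ x, (Finset.univ.filter fun i => x ≤ a i).card =
      (Finset.univ.filter fun i => x ≤ b i).card := fun x =>
    le_antisymm ((degrees_mono hd hb le_rfl).1 x) ((degrees_mono hb hd le_rfl).1 x)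
  have h0 : ∀ i, 0 ≤ b i := fun i => by
    have h := e 0
    rw [Finset.filter_true_of_mem (fun j _ => by rcases ha j with h | h <;> omega)] at h
    have h2 : (Finset.univ.filter fun j => (0 : ℤ) ≤ b j) = Finset.univ :=
      Finset.eq_univ_of_card _ h.symm
    exact (Finset.mem_filter.mp (h2.ge (Finset.mem_univ i))).2
  have h1 : ∀ i, b i ≤ 1 := fun i => by
    by_contra hc
    have h := e 2
    rw [Finset.filter_false_of_mem (fun j _ => by rcases ha j with h | h <;> omega),
      Finset.card_empty] at h
    have : i ∈ (Finset.univ.filter fun j => (2 : ℤ) ≤ b j) :=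
      Finset.mem_filter.mpr ⟨Finset.mem_univ i, by omega⟩
    rw [Finset.card_eq_zero.mp h.symm] at this
    simp at this
  refine ⟨fun i => ⟨h0 i, h1 i⟩, ?_⟩
  by_contra hc
  push Not at hc
  have h := e 1
  rw [Finset.filter_true_of_mem (s := Finset.univ) (p := fun j => (1 : ℤ) ≤ b j)
    (fun j _ => by have := h0 j; have := hc j; omega)] at h
  have h2 := Finset.eq_univ_of_card _ (by rw [h]; simp : _ = Fintype.card (Fin n))
  have := (Finset.mem_filter.mp (h2.ge (Finset.mem_univ i₀))).2
  omega

theorem hasDeg_of_act {g : Gam n k} {L : Lat k n} {a : Fin n → ℤ} (h : HasDeg L a) :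
    HasDeg (gamAct g L) a := hasDeg_gamAct h g

theorem linkModel : LinkModelStmt := by
  classical
  intro k _ _ n _ _ L hL
  obtain ⟨a, ha, ⟨i₀, hi₀⟩, g, rfl⟩ := hL
  let F : Submodule k (Fin n → k) := Flt a 1
  let a' : Fin n → ℤ := fun i => a i - 1
  let r := (Finset.univ.filter fun i => (1 : ℤ) ≤ a i).card
  let φ : Submodule k (Fin n → k) → Lat k n := fun W =>
    if Module.finrank k W + r < n then fibLat a W else fibLat a' W
  have hr : Module.finrank k F = r := finrank_flt a 1
  have hF' : Flt a' 0 = F := flt_sub_one a 0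
  have hst : shift (stdLat (k := k) a') = stdLat a := by
    rw [shift_stdLat]
    simp [a']
  have hn : Module.finrank k (Fin n → k) = n := by simp
  have hsf : ∀ U : Submodule k (Fin n → k), shift (fibLat a' U) = fibLat a U := shift_fibLat a
  have hsplit : ∀ W : Submodule k (Fin n → k), IsOppVert F W →
      (Module.finrank k W + r < n → W ⊓ F = ⊥) ∧
      (¬ Module.finrank k W + r < n → W ⊔ F = ⊤) := by
    intro W hW
    have key := Submodule.finrank_sup_add_finrank_inf_eq W F
    refine ⟨fun h => ?_, fun h => ?_⟩ <;> rcases hW.2.2 with h' | h'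
    · exact h'
    · exfalso
      rw [h', finrank_top, hn] at key
      omega
    · refine Submodule.eq_top_of_finrank_eq ?_
      rw [h', finrank_bot] at key
      have := (W ⊔ F).finrank_le
      omega
    · exact h'
  -- images of vertices are neighbours in the window
  have hwin : ∀ W, IsOppVert F W → InWindow (φ W) ∧
      ((Module.finrank k W + r < n ∧ stdLat a < φ W ∧ φ W ≤ shift (stdLat a)) ∨
       (¬ Module.finrank k W + r < n ∧ φ W < stdLat a ∧ stdLat a ≤ shift (φ W))) := by
    intro W hW
    obtain ⟨hin, hsup⟩ := hsplit W hW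
    simp only [φ]
    split_ifs with h
    · obtain ⟨S, hS, hcard, hx, _, _⟩ := step_degrees a W
      have hlt := (hx 1).mpr (hin h)
      refine ⟨⟨a + bump S, fun i => ?_, ?_, hS⟩, Or.inl ⟨h, ?_, fibLat_le_shift a W⟩⟩
      · simp only [Pi.add_apply, bump]
        rcases ha i with h0 | h1 <;> split_ifs with hi
        · omega
        · omega
        · have := hlt i hi
          omega
        · omega
      · by_contra hc
        push Not at hc
        have hall : ∀ i, a i = 0 → i ∈ S := fun i hi => by
          by_contra hiS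
          exact hc i (by simp [bump, hiS, hi])
        have hle : (Finset.univ.filter fun i => ¬ (1 : ℤ) ≤ a i).card ≤ S.card :=
          Finset.card_le_card fun i hi => hall i (by
            have := (Finset.mem_filter.mp hi).2
            rcases ha i with h0 | h1 <;> omega)
        have := Finset.card_filter_add_card_filter_not (s := (Finset.univ : Finset (Fin n)))
          (fun i => (1 : ℤ) ≤ a i)
        simp only [Finset.card_univ, Fintype.card_fin] at this
        omega
      · refine lt_of_le_of_ne (std_le_fibLat a W) fun he => hW.1 ?_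
        rw [← fibLat_bot a] at he
        exact le_antisymm (fibLat_le_iff.mp he.ge) bot_le
    · obtain ⟨S, hS, hcard, _, hx, _⟩ := step_degrees a' W
      have hge := (hx 0).mpr (hF'.symm ▸ hsup h)
      refine ⟨⟨a' + bump S, fun i => ?_, ?_, hS⟩, Or.inr ⟨h, ?_, ?_⟩⟩
      · simp only [Pi.add_apply, bump, a']
        rcases ha i with h0 | h1 <;> split_ifs with hi
        · omega
        · have := hge i hi
          simp only [a'] at this
          omega
        · omega
        · omega
      · obtain ⟨i, hi⟩ : ∃ i, i ∉ S := by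
          by_contra hc
          push Not at hc
          refine hW.2.1 (Submodule.eq_top_of_finrank_eq ?_)
          rw [← hcard, Finset.eq_univ_of_forall hc, hn]
          simp
        refine ⟨i, ?_⟩
        have := hge i hi
        simp only [Pi.add_apply, bump, if_neg hi, a'] at this ⊢
        rcases ha i with h0 | h1 <;> omega
      · refine lt_of_le_of_ne ((fibLat_le_shift a' W).trans hst.le) fun he => hW.2.1 ?_
        rw [← hst, ← fibLat_top a'] at he
        exact le_antisymm le_top (fibLat_le_iff.mp he.ge)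
      · rw [shift_fibLat]
        exact std_le_fibLat a W
  -- every neighbour in the window is an image
  have hsurj : ∀ M : Lat k n, M ≠ stdLat a → InWindow M → (stdLat a ≤ M ∨ M ≤ stdLat a) →
      M ≤ shift (stdLat a) → stdLat a ≤ shift M → ∃ W, IsOppVert F W ∧ φ W = M := by
    intro M hne hM hcomp h1 h2
    rcases hcomp with hle | hle
    · obtain ⟨W, rfl⟩ := exists_fibLat hle h1
      obtain ⟨S, hS, hcard, hx, _, _⟩ := step_degrees a W
      obtain ⟨hb, i₁, hi₁⟩ := window_degrees hM hS
      have hlt : ∀ s ∈ S, a s < 1 := fun s hs => by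
        have := (hb s).2
        simp only [Pi.add_apply, bump, if_pos hs] at this
        omega
      have hu : Module.finrank k W + r < n := by
        have hsub : S ⊆ (Finset.univ.filter fun i => ¬ (1 : ℤ) ≤ a i).erase i₁ := fun s hs =>
          Finset.mem_erase.mpr ⟨fun e => by
            subst e
            simp only [Pi.add_apply, bump, if_pos hs] at hi₁
            rcases ha s with h0 | h1 <;> omega,
            Finset.mem_filter.mpr ⟨Finset.mem_univ s, by have := hlt s hs; omega⟩⟩
        have h3 := Finset.card_le_card hsub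
        rw [Finset.card_erase_of_mem (Finset.mem_filter.mpr ⟨Finset.mem_univ i₁, by
          simp only [Pi.add_apply, bump] at hi₁
          rcases ha i₁ with h0 | h1 <;> split_ifs at hi₁ <;> omega⟩)] at h3
        have h4 := Finset.card_filter_add_card_filter_not (s := (Finset.univ : Finset (Fin n)))
          (fun i => (1 : ℤ) ≤ a i)
        simp only [Finset.card_univ, Fintype.card_fin] at h4
        have h5 : 0 < (Finset.univ.filter fun i => ¬ (1 : ℤ) ≤ a i).card :=
          Finset.card_pos.mpr ⟨i₀, Finset.mem_filter.mpr ⟨Finset.mem_univ _, by omega⟩⟩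
        omega
      refine ⟨W, ⟨fun e => hne (by rw [e, fibLat_bot]), fun e => ?_,
        Or.inl ((hx 1).mp hlt)⟩, if_pos hu⟩
      rw [e, finrank_top, hn] at hu
      omega
    · have hlo : stdLat a' ≤ M := by
        rw [← shift_le_iff, hst]
        exact h2
      obtain ⟨W, rfl⟩ := exists_fibLat hlo (hle.trans hst.ge)
      obtain ⟨S, hS, hcard, _, hx, _⟩ := step_degrees a' W
      obtain ⟨hb, _⟩ := window_degrees hM hS
      have hsup : W ⊔ F = ⊤ := by
        rw [← hF']
        refine (hx 0).mp fun i hi => ?_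
        have := (hb i).1
        simpa [bump, hi] using this
      have hu : ¬ Module.finrank k W + r < n := by
        have := Submodule.finrank_add_le_finrank_add_finrank W F
        rw [hsup, finrank_top, hn] at this
        omega
      refine ⟨W, ⟨fun e => ?_, fun e => hne (by rw [e, fibLat_top, hst]), Or.inr hsup⟩,
        if_neg hu⟩
      rw [e, finrank_bot] at hu
      have : r < n := by
        have := Finset.card_lt_card (Finset.filter_ssubset.mpr
          ⟨i₀, Finset.mem_univ _, by omega⟩ :
          (Finset.univ.filter fun i => (1 : ℤ) ≤ a i) ⊂ Finset.univ)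
        simpa using this
      omega
  -- relations between two images
  have hrel : ∀ W W', IsOppVert F W → IsOppVert F W' →
      (((φ W ≤ φ W' ∨ φ W' ≤ φ W) ∧ φ W' ≤ shift (φ W) ∧ φ W ≤ shift (φ W')) ↔
        (W ≤ W' ∨ W' ≤ W)) := by
    intro W W' hW hW'
    have hmono : ∀ U U' : Submodule k (Fin n → k), U ≤ U' →
        Module.finrank k U ≤ Module.finrank k U' := fun U U' h => Submodule.finrank_mono h
    by_cases h : Module.finrank k W + r < n <;> by_cases h' : Module.finrank k W' + r < n
    · simp only [φ, if_pos h, if_pos h', fibLat_le_iff]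
      have hs : ∀ U, stdLat (k := k) a ≤ fibLat a U := std_le_fibLat a
      exact and_iff_left ⟨(fibLat_le_shift a W').trans (shift_le_iff.mpr (hs W)),
        (fibLat_le_shift a W).trans (shift_le_iff.mpr (hs W'))⟩
    · simp only [φ, if_pos h, if_neg h', hsf, fibLat_le_iff]
      have h1 : fibLat a' W' ≤ fibLat a W :=
        ((fibLat_le_shift a' W').trans hst.le).trans (std_le_fibLat a W)
      have h2 : fibLat a' W' ≤ shift (fibLat a W) :=
        h1.trans ((fibLat_le_shift a W).trans (shift_le_iff.mpr (std_le_fibLat a W)))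
      refine ⟨fun H => Or.inl H.2.2, fun H => ⟨Or.inr h1, h2, ?_⟩⟩
      rcases H with H | H
      · exact H
      · have := hmono _ _ H
        omega
    · simp only [φ, if_neg h, if_pos h', hsf, fibLat_le_iff]
      have h1 : fibLat a' W ≤ fibLat a W' :=
        ((fibLat_le_shift a' W).trans hst.le).trans (std_le_fibLat a W')
      have h2 : fibLat a' W ≤ shift (fibLat a W') :=
        h1.trans ((fibLat_le_shift a W').trans (shift_le_iff.mpr (std_le_fibLat a W')))
      refine ⟨fun H => Or.inr H.2.1, fun H => ⟨Or.inl h1, ?_, h2⟩⟩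
      rcases H with H | H
      · have := hmono _ _ H
        omega
      · exact H
    · simp only [φ, if_neg h, if_neg h', fibLat_le_iff]
      have hs : ∀ U, fibLat (k := k) a' U ≤ shift (stdLat a') := fibLat_le_shift a'
      exact and_iff_left ⟨(hs W').trans (shift_le_iff.mpr (std_le_fibLat a' W)),
        (hs W).trans (shift_le_iff.mpr (std_le_fibLat a' W'))⟩
  have hinj : Set.InjOn φ {W | IsOppVert F W} := by
    intro W hW W' hW' he
    rcases (hwin W hW).2 with ⟨h, h1, _⟩ | ⟨h, h1, _⟩ <;>
      rcases (hwin W' hW').2 with ⟨h', h1', _⟩ | ⟨h', h1', _⟩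
    · simp only [φ, if_pos h, if_pos h'] at he
      exact le_antisymm (fibLat_le_iff.mp he.le) (fibLat_le_iff.mp he.ge)
    · exact absurd (he ▸ h1) h1'.asymm
    · exact absurd (he ▸ h1) h1'.asymm
    · simp only [φ, if_neg h, if_neg h'] at he
      exact le_antisymm (fibLat_le_iff.mp he.le) (fibLat_le_iff.mp he.ge)
  let ψ : Submodule k (Fin n → k) → Lat k n := fun W => gamAct g (φ W)
  refine ⟨F, ψ, fun W hW W' hW' he => hinj hW hW' ((gamAct_inj g).mp he), fun τ => ?_⟩
  have hbase : InWindow (gamAct g (stdLat a)) := ⟨a, ha, ⟨i₀, hi₀⟩, g, rfl⟩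
  constructor
  · rintro ⟨hLτ, hwinτ, hrelτ⟩
    haveI : Fintype (Submodule k (Fin n → k)) := Fintype.ofFinite _
    refine ⟨Finset.univ.filter fun W => IsOppVert F W ∧ ψ W ∈ τ,
      ⟨fun W hW => (Finset.mem_filter.mp hW).2.1, fun W hW W' hW' => ?_⟩, ?_⟩
    · obtain ⟨hWo, hWτ⟩ := (Finset.mem_filter.mp hW).2
      obtain ⟨hWo', hWτ'⟩ := (Finset.mem_filter.mp hW').2
      obtain ⟨hc, hs⟩ := hrelτ _ (Finset.mem_insert_of_mem hWτ) _ (Finset.mem_insert_of_mem hWτ')
      have hs' := (hrelτ _ (Finset.mem_insert_of_mem hWτ') _ (Finset.mem_insert_of_mem hWτ)).2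
      simp only [ψ, ← gamAct_shift, gamAct_le_iff] at hc hs hs'
      exact (hrel W W' hWo hWo').mp ⟨hc, hs, hs'⟩
    · ext M
      simp only [Finset.mem_image, Finset.mem_filter, Finset.mem_univ, true_and]
      refine ⟨fun hM => ?_, fun ⟨W, ⟨_, hW⟩, e⟩ => e ▸ hW⟩
      have hMe : gamAct g (gamAct g⁻¹ M) = M := by
        rw [← gamAct_mul, mul_inv_cancel, gamAct_one]
      obtain ⟨hc, hs⟩ := hrelτ _ (Finset.mem_insert_self _ _) _ (Finset.mem_insert_of_mem hM)
      have hs' := (hrelτ _ (Finset.mem_insert_of_mem hM) _ (Finset.mem_insert_self _ _)).2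
      rw [← hMe] at hc hs hs'
      simp only [← gamAct_shift, gamAct_le_iff] at hc hs hs'
      rw [gamAct_shift] at hs'
      obtain ⟨W, hW, hWM⟩ := hsurj (gamAct g⁻¹ M) (fun e => hLτ (by
        rw [← e, hMe]
        exact hM)) (inWindow_gamAct (hwinτ M (Finset.mem_insert_of_mem hM)) g⁻¹) hc hs hs'
      have hψ : ψ W = M := by
        show gamAct g (φ W) = M
        rw [hWM, hMe]
      exact ⟨W, ⟨hW, hψ.symm ▸ hM⟩, hψ⟩
  · rintro ⟨c, ⟨hcv, hcc⟩, rfl⟩
    have hne : ∀ W ∈ c, φ W ≠ stdLat a := fun W hW e => by
      rcases (hwin W (hcv W hW)).2 with ⟨_, h, _⟩ | ⟨_, h, _⟩ <;> exact h.ne (by rw [e])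
    have hbase2 : ∀ W ∈ c, (stdLat a ≤ φ W ∨ φ W ≤ stdLat a) ∧ φ W ≤ shift (stdLat a) ∧
        stdLat a ≤ shift (φ W) := by
      intro W hW
      have hup : stdLat (k := k) a ≤ shift (stdLat a) := by
        rw [shift_stdLat]
        exact std_mono fun i => by omega
      rcases (hwin W (hcv W hW)).2 with ⟨_, h, h'⟩ | ⟨_, h, h'⟩
      · exact ⟨Or.inl h.le, h', hup.trans (shift_le_iff.mpr h.le)⟩
      · exact ⟨Or.inr h.le, h.le.trans hup, h'⟩
    refine ⟨?_, ?_, ?_⟩
    · intro hmem
      obtain ⟨W, hW, e⟩ := Finset.mem_image.mp hmem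
      exact hne W hW ((gamAct_inj g).mp e)
    · intro M hM
      rcases Finset.mem_insert.mp hM with e | e
      · exact e ▸ hbase
      · obtain ⟨W, hW, rfl⟩ := Finset.mem_image.mp e
        exact inWindow_gamAct (hwin W (hcv W hW)).1 g
    · intro M hM M' hM'
      have hrefl : stdLat (k := k) a ≤ shift (stdLat a) := by
        rw [shift_stdLat]
        exact std_mono fun i => by omega
      rcases Finset.mem_insert.mp hM with e | e
      · rcases Finset.mem_insert.mp hM' with e' | e'
        · rw [e, e', ← gamAct_shift, gamAct_le_iff, gamAct_le_iff]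
          exact ⟨Or.inl le_rfl, hrefl⟩
        · obtain ⟨W, hW, rfl⟩ := Finset.mem_image.mp e'
          rw [e, ← gamAct_shift, gamAct_le_iff, gamAct_le_iff, gamAct_le_iff]
          exact ⟨(hbase2 W hW).1, (hbase2 W hW).2.1⟩
      · obtain ⟨W, hW, rfl⟩ := Finset.mem_image.mp e
        rcases Finset.mem_insert.mp hM' with e' | e'
        · rw [e', ← gamAct_shift, gamAct_le_iff, gamAct_le_iff, gamAct_le_iff]
          exact ⟨(hbase2 W hW).1.symm, (hbase2 W hW).2.2⟩
        · obtain ⟨W', hW', rfl⟩ := Finset.mem_image.mp e'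
          have h := (hrel W W' (hcv W hW) (hcv W' hW')).mpr (hcc W hW W' hW')
          simp only [ψ, ← gamAct_shift, gamAct_le_iff]
          exact ⟨h.1, h.2.1⟩

end Vale.Agent.P067.KO
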