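import Vale.Agent.P067.KO.Cplx
import Vale.Agent.P067.KO.Acy

/-!
Coboundary expansion from fillings of bounded size and symmetry: on a complex whose symmetries are
transitive on top faces, a contraction with supports of bounded size, averaged over the symmetries,
corrects every cochain at a cost proportional to the size of its coboundary.
-/

namespace Vale.Agent.P067.KO

open Finset Vale.Agent.P067.Sub

variable {V : Type*} [DecidableEq V]

/-- evaluation of a cochain on a chain -/
noncomputable def ev (f : Finset V → ZMod 2) : Ch V →ₗ[ZMod 2] ZMod 2 :=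
  Finsupp.linearCombination (ZMod 2) f

omit [DecidableEq V] in
theorem ev_sg (f : Finset V → ZMod 2) (s : Finset V) : ev f (sg s) = f s := by
  simp [ev, sg, Finsupp.linearCombination_single]

theorem ev_bd (f : Finset V → ZMod 2) (z : Ch V) : ev f (bd z) = ev (dl f) z := by
  have h : (ev f).comp bd = ev (dl f) := ext_sg fun s => by
    simp [bd_sg, map_sum, ev_sg, dl]
  exact LinearMap.congr_fun h z

omit [DecidableEq V] in
theorem exists_of_ev_ne_zero {f : Finset V → ZMod 2} {z : Ch V} (h : ev f z ≠ 0) :
    ∃ t ∈ z.support, f t ≠ 0 := by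
  by_contra hne
  apply h
  rw [ev, Finsupp.linearCombination_apply]
  refine sum_eq_zero fun t ht => ?_
  have : f t = 0 := by_contra fun h' => hne ⟨t, ht, h'⟩
  simp [this]

/-- a bound for the size of a contraction built from fillings of size bounded by `L` -/
def fillK (L : ℕ → ℕ) : ℕ → ℕ
  | 0 => L 1
  | c + 1 => fillK L c + L (1 + (c + 1) * fillK L c)

theorem fillK_mono (L : ℕ → ℕ) : Monotone (fillK L) :=
  monotone_nat_of_le_succ fun _ => Nat.le_add_right _ _

/-- fillings of bounded size give a contraction of bounded size -/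
theorem exists_contraction {P : Finset V → Prop} (hdown : Down P) {L : ℕ → ℕ} {m : ℕ}
    (hA : AcyB L P m) : ∀ i < m, ∃ h : Finset V → Ch V, ∀ s, P s → s.card ≤ i →
      h s ∈ On (Sz P (s.card + 1)) ∧ (h s).support.card ≤ fillK L i ∧
        bd (h s) + lift h (bd (sg s)) = sg s := by
  intro i
  induction i with
  | zero =>
    intro hm
    by_cases h0 : P ∅
    · obtain ⟨w, hw, hwb, hws⟩ := hA 0 hm (sg ∅) (sg_mem ⟨h0, rfl⟩) (by simp [bd_sg]) 1
        ((card_le_card Finsupp.support_single_subset).trans_eq (card_singleton _))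
      refine ⟨fun _ => w, fun s _ hc => ?_⟩
      obtain rfl := card_eq_zero.1 (Nat.le_zero.1 hc)
      exact ⟨hw, hws, by simp [bd_sg, hwb]⟩
    · exact ⟨fun _ => 0, fun s hs _ => absurd (hdown s ∅ hs (empty_subset _)) h0⟩
  | succ i ih =>
    intro hm
    obtain ⟨h, hh⟩ := ih (by omega)
    have e : ∀ (g : Finset V → Ch V) (s : Finset V),
        lift g (bd (sg s)) = ∑ x ∈ s, g (s.erase x) := fun g s => by simp [bd_sg, map_sum]
    have key : ∀ s, P s → s.card = i + 1 → ∃ w ∈ On (Sz P (i + 1 + 1)),
        bd w = sg s + lift h (bd (sg s)) ∧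
          w.support.card ≤ L (1 + (i + 1) * fillK L i) := by
      intro s hs hc
      have hsub : ∀ x ∈ s, P (s.erase x) ∧ (s.erase x).card = i := fun x hx =>
        ⟨hdown s _ hs (erase_subset x s), by rw [card_erase_of_mem hx, hc]; omega⟩
      refine hA (i + 1) hm _ (Submodule.add_mem _ (sg_mem ⟨hs, hc⟩) ?_) ?_ _ ?_
      · rw [e]
        refine Submodule.sum_mem _ fun x hx => ?_
        have := (hh _ (hsub x hx).1 (hsub x hx).2.le).1
        rwa [(hsub x hx).2] at this
      · have hb : bd (lift h (bd (sg s))) + lift h (bd (bd (sg s))) = bd (sg s) := by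
          conv_lhs => rw [bd_sg, map_sum, map_sum, map_sum, map_sum, ← sum_add_distrib]
          rw [bd_sg]
          exact sum_congr rfl fun x hx => by
            rw [lift_sg]; exact (hh _ (hsub x hx).1 (hsub x hx).2.le).2.2
        rw [bd_bd, map_zero, add_zero] at hb
        rw [map_add, hb, add_self']
      · refine (card_le_card Finsupp.support_add).trans ((card_union_le _ _).trans
          (add_le_add ((card_le_card Finsupp.support_single_subset).trans_eq
            (card_singleton _)) ?_))
        rw [e, ← hc]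
        exact (card_le_card Finsupp.support_finsetSum).trans
          (card_biUnion_le_card_mul _ _ _ fun x hx =>
            (hh _ (hsub x hx).1 (hsub x hx).2.le).2.1)
    choose! w hw hwb hws using key
    refine ⟨fun s => if s.card = i + 1 then w s else h s, fun s hs hc => ?_⟩
    have hl : lift (fun s => if s.card = i + 1 then w s else h s) (bd (sg s)) =
        lift h (bd (sg s)) := by
      rw [e, e]
      refine sum_congr rfl fun x hx => if_neg ?_
      have := card_erase_lt_of_mem hx
      omega
    rw [hl]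
    dsimp only
    rcases eq_or_ne s.card (i + 1) with hc' | hc'
    · rw [if_pos hc', hc']
      refine ⟨hw s hs hc', (hws s hs hc').trans (Nat.le_add_left _ _), ?_⟩
      rw [hwb s hs hc', add_assoc, add_self', add_zero]
    · rw [if_neg hc']
      obtain ⟨h1, h2, h3⟩ := hh s hs (by omega)
      exact ⟨h1, h2.trans (fillK_mono L (Nat.le_succ i)), h3⟩

theorem mem_kf' {X : Finset (Finset V)} {k : ℕ} {s : Finset V} :
    s ∈ kf X k ↔ s.card = k ∧ ∃ T ∈ X, s ⊆ T := by
  simp only [kf, mem_biUnion, mem_powersetCard]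
  constructor
  · rintro ⟨T, hT, hs, hc⟩
    exact ⟨hc, T, hT, hs⟩
  · rintro ⟨hc, T, hT, hs⟩
    exact ⟨T, hT, hs, hc⟩

theorem wt_nonneg (X : Finset (Finset V)) (s : Finset V) : 0 ≤ wt X s :=
  sum_nonneg fun _ _ => inv_nonneg.2 (by positivity)

theorem wt_eq {X : Finset (Finset V)} {c : ℕ} (hX : TopCard c X) (s : Finset V) :
    wt X s = (X.filter fun T => s ⊆ T).card * ((c.choose s.card : ℝ) * X.card)⁻¹ := by
  rw [wt, ← nsmul_eq_mul, ← sum_const]
  exact sum_congr rfl fun T hT => by rw [hX T (mem_filter.1 hT).1]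

/-- the faces with a property, counted in top faces -/
theorem sum_card_filter {X : Finset (Finset V)} {c : ℕ} (hX : TopCard c X) (j : ℕ)
    (B : Finset V → Prop) [DecidablePred B] :
    ∑ T ∈ X, (((T.powersetCard j).filter B).card : ℝ) =
      (c.choose j : ℝ) * X.card * ∑ s ∈ (kf X j).filter B, wt X s := by
  rw [mul_sum]
  have h1 : ∀ s ∈ (kf X j).filter B,
      (c.choose j : ℝ) * X.card * wt X s = ((X.filter fun T => s ⊆ T).card : ℝ) := by
    intro s hs
    obtain ⟨hc, T, hT, hsT⟩ := mem_kf'.1 (mem_filter.1 hs).1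
    have hj : j ≤ c := hc ▸ hX T hT ▸ card_le_card hsT
    have : (c.choose j : ℝ) ≠ 0 := by exact_mod_cast (Nat.choose_pos hj).ne'
    have : (X.card : ℝ) ≠ 0 := by exact_mod_cast (card_pos.2 ⟨T, hT⟩).ne'
    rw [wt_eq hX, hc]
    field_simp
  rw [sum_congr rfl h1, ← Nat.cast_sum, ← Nat.cast_sum]
  congr 1
  conv_rhs => simp only [card_filter]
  rw [sum_comm]
  refine sum_congr rfl fun T hT => ?_
  rw [← sum_filter, ← card_eq_sum_ones]
  refine congrArg card (ext fun s => ?_)
  simp only [mem_filter, mem_powersetCard, mem_kf']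
  constructor
  · rintro ⟨⟨hs, hc⟩, hB⟩
    exact ⟨⟨⟨hc, T, hT, hs⟩, hB⟩, hs⟩
  · rintro ⟨⟨⟨hc, -⟩, hB⟩, hs⟩
    exact ⟨⟨hs, hc⟩, hB⟩

theorem sum_wt_le_one {X : Finset (Finset V)} {c : ℕ} (hX : TopCard c X) (j : ℕ) :
    ∑ s ∈ kf X j, wt X s ≤ 1 := by
  classical
  have h := sum_card_filter hX j fun _ => True
  simp only [filter_true] at h
  rw [sum_congr rfl (g := fun _ => (c.choose j : ℝ)) fun T hT => by
    rw [card_powersetCard, hX T hT]] at h
  rw [sum_const, nsmul_eq_mul] at h
  by_cases h0 : (c.choose j : ℝ) * X.card = 0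
  · refine (sum_eq_zero fun s hs => ?_).trans_le zero_le_one
    rw [wt_eq hX, (mem_kf'.1 hs).1, h0, inv_zero, mul_zero]
  · exact (mul_left_cancel₀ h0 (by linarith)).le

theorem image_top_eq {X : Finset (Finset V)} {g : Equiv.Perm V}
    (hg : ∀ U ∈ X, U.image g ∈ X) : X.image (fun U => U.image g) = X :=
  eq_of_subset_of_card_le (image_subset_iff.2 hg)
    (by rw [card_image_of_injective _ (image_injective g.injective)])

theorem image_kf_eq {X : Finset (Finset V)} {g : Equiv.Perm V} (hg : ∀ U ∈ X, U.image g ∈ X)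
    (j : ℕ) : (kf X j).image (fun s => s.image g) = kf X j := by
  refine eq_of_subset_of_card_le (image_subset_iff.2 fun s hs => ?_)
    (by rw [card_image_of_injective _ (image_injective g.injective)])
  obtain ⟨hc, T, hT, hsT⟩ := mem_kf'.1 hs
  exact mem_kf'.2 ⟨by rw [card_image_of_injective _ g.injective, hc],
    T.image g, hg T hT, image_subset_image hsT⟩

theorem wt_image {X : Finset (Finset V)} {g : Equiv.Perm V} (hg : ∀ U ∈ X, U.image g ∈ X)
    (s : Finset V) : wt X (s.image g) = wt X s := by
  have h : X.filter (fun T => s.image g ⊆ T) =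
      (X.filter fun T => s ⊆ T).image fun U => U.image g := by
    conv_lhs => rw [← image_top_eq hg, filter_image]
    exact congrArg _ (filter_congr fun T _ => image_subset_image_iff g.injective)
  rw [wt, h, sum_image fun a _ b _ e => image_injective g.injective e, wt]
  exact sum_congr rfl fun T _ => by
    rw [card_image_of_injective _ g.injective, card_image_of_injective _ g.injective]

/-- the identity behind the correction: a cochain differs from a coboundary by the evaluation of
its coboundary on a contraction, moved by a symmetry -/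
theorem add_dl_image {f : Finset V → ZMod 2} (g : Equiv.Perm V) {h : Finset V → Ch V}
    {s : Finset V} (hs : bd (h s) + lift h (bd (sg s)) = sg s) :
    f (s.image g) + dl (fun u => ev (fun t => f (t.image g)) (h (u.image g.symm))) (s.image g) =
      ev (fun t => dl f (t.image g)) (h s) := by
  have h2 : dl (fun t => f (t.image g)) = fun t => dl f (t.image g) := by
    funext t
    rw [dl, dl, sum_image fun a _ b _ e => g.injective e]
    exact sum_congr rfl fun x _ => by rw [image_erase g.injective]
  have h1 : f (s.image g) = ev (fun t => dl f (t.image g)) (h s) +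
      ∑ x ∈ s, ev (fun t => f (t.image g)) (h (s.erase x)) := by
    have h0 := congrArg (ev fun t => f (t.image g)) hs
    rw [map_add, ev_bd, h2, ev_sg, bd_sg, map_sum, map_sum] at h0
    rw [← h0]
    simp only [lift_sg]
  have h3 : dl (fun u => ev (fun t => f (t.image g)) (h (u.image g.symm))) (s.image g) =
      ∑ x ∈ s, ev (fun t => f (t.image g)) (h (s.erase x)) := by
    rw [dl, sum_image fun a _ b _ e => g.injective e]
    refine sum_congr rfl fun x _ => ?_
    rw [← image_erase g.injective, image_image,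
      show (g.symm : V → V) ∘ g = id from funext g.symm_apply_apply, image_id]
  rw [h1, h3, add_assoc, CharTwo.add_self_eq_zero, add_zero]

/-- coboundary expansion from a small contraction and symmetries transitive on top faces -/
theorem exists_small_correction [Fintype V] {X : Finset (Finset V)} {c : ℕ} (hX : TopCard c X)
    (htr : ∀ T ∈ X, ∀ T' ∈ X, ∃ g : Equiv.Perm V, (∀ U ∈ X, U.image g ∈ X) ∧ T.image g = T')
    {P : Finset V → Prop} (hP : ∀ j s, s ∈ kf X j ↔ P s ∧ s.card = j) {K i : ℕ}
    (h : Finset V → Ch V) (hh : ∀ s, P s → s.card ≤ i → h s ∈ On (Sz P (s.card + 1)) ∧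
      (h s).support.card ≤ K ∧ bd (h s) + lift h (bd (sg s)) = sg s)
    (f : Finset V → ZMod 2) :
    ∃ φ : Finset V → ZMod 2, nrm X i (f + dl φ) ≤ K * 2 ^ c * nrm X (i + 1) (dl f) := by
  classical
  set G : Finset (Equiv.Perm V) := univ.filter fun g => ∀ U ∈ X, U.image g ∈ X with hGdef
  have hG : ∀ g, g ∈ G ↔ ∀ U ∈ X, U.image g ∈ X := fun g => by simp [G]
  set N := nrm X (i + 1) (dl f) with hN
  have hN0 : 0 ≤ N := sum_nonneg fun s _ => wt_nonneg X s
  -- each face is moved to a bad one by few symmetries
  have hcount : ∀ t ∈ kf X (i + 1),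
      ((G.filter fun g : Equiv.Perm V => dl f (t.image g) ≠ 0).card : ℝ) ≤
        G.card * (2 ^ c * N) := by
    intro t ht
    obtain ⟨htc, T, hT, htT⟩ := mem_kf'.1 ht
    have hfle : ∀ T₁ ∈ X, ∀ T₂ ∈ X, (G.filter fun g : Equiv.Perm V => T.image g = T₁).card ≤
        (G.filter fun g : Equiv.Perm V => T.image g = T₂).card := by
      intro T₁ h₁ T₂ h₂
      obtain ⟨g₁, hg₁, e₁⟩ := htr T₁ h₁ T₂ h₂
      refine card_le_card_of_injOn (fun g => g₁ * g) (fun g hg => ?_)
        fun a _ b _ e => mul_left_cancel e
      obtain ⟨hg, e⟩ := mem_filter.1 hg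
      refine mem_filter.2 ⟨(hG _).2 fun U hU => ?_, ?_⟩
      · rw [Equiv.Perm.coe_mul, ← image_image]
        exact hg₁ _ ((hG g).1 hg U hU)
      · rw [Equiv.Perm.coe_mul, ← image_image, e, e₁]
    obtain ⟨fib, hfib⟩ : ∃ fib, ∀ T₁ ∈ X,
        (G.filter fun g : Equiv.Perm V => T.image g = T₁).card = fib :=
      ⟨_, fun T₁ h₁ => le_antisymm (hfle T₁ h₁ T hT) (hfle T hT T₁ h₁)⟩
    have hmaps : ∀ g ∈ G, T.image g ∈ X := fun g hg => (hG g).1 hg T hT
    have hcard : G.card = X.card * fib := by
      rw [card_eq_sum_card_fiberwise (f := fun g : Equiv.Perm V => T.image g) hmaps,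
        sum_congr rfl hfib, sum_const, smul_eq_mul]
    have hle : (G.filter fun g : Equiv.Perm V => dl f (t.image g) ≠ 0).card ≤
        ∑ T₁ ∈ X, fib * ((T₁.powersetCard (i + 1)).filter fun s => dl f s ≠ 0).card := by
      rw [card_eq_sum_card_fiberwise (f := fun g : Equiv.Perm V => T.image g)
        (t := X) fun g hg => hmaps g (mem_filter.1 hg).1]
      refine sum_le_sum fun T₁ h₁ => ?_
      rcases ((T₁.powersetCard (i + 1)).filter fun s => dl f s ≠ 0).eq_empty_or_nonempty with
        h0 | h0
      · refine (Nat.le_zero.2 (card_eq_zero.2 (filter_eq_empty_iff.2 fun g hg e => ?_))).trans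
          (Nat.zero_le _)
        have hmem : t.image g ∈ (T₁.powersetCard (i + 1)).filter fun s => dl f s ≠ 0 :=
          mem_filter.2 ⟨mem_powersetCard.2 ⟨e ▸ image_subset_image htT,
            by rw [card_image_of_injective _ g.injective, htc]⟩, (mem_filter.1 hg).2⟩
        simp [h0] at hmem
      · calc _ ≤ (G.filter fun g : Equiv.Perm V => T.image g = T₁).card :=
              card_le_card fun g hg => by
                simp only [mem_filter] at hg ⊢
                exact ⟨hg.1.1, hg.2⟩
          _ = fib * 1 := by rw [hfib T₁ h₁, mul_one]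
          _ ≤ _ := Nat.mul_le_mul_left _ h0.card_pos
    calc ((G.filter fun g : Equiv.Perm V => dl f (t.image g) ≠ 0).card : ℝ)
        ≤ ∑ T₁ ∈ X, (fib : ℝ) *
            (((T₁.powersetCard (i + 1)).filter fun s => dl f s ≠ 0).card : ℝ) := by
          exact_mod_cast hle
      _ = (G.card : ℝ) * ((c.choose (i + 1) : ℝ) * N) := by
          rw [← mul_sum, sum_card_filter hX, hcard, hN, nrm]
          push_cast
          ring
      _ ≤ _ := by
          refine mul_le_mul_of_nonneg_left (mul_le_mul_of_nonneg_right ?_ hN0) (Nat.cast_nonneg _)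
          exact_mod_cast Nat.choose_le_two_pow c (i + 1)
  -- the correction attached to a symmetry
  have hg : ∀ g ∈ G, nrm X i (f + dl fun u =>
      ev (fun t => f (t.image g)) (h (u.image g.symm))) ≤
        ∑ s ∈ kf X i, wt X s *
          ∑ t ∈ (h s).support, if dl f (t.image g) ≠ 0 then (1 : ℝ) else 0 := by
    intro g hgG
    have hgX := (hG g).1 hgG
    rw [nrm, sum_filter]
    conv_lhs => rw [← image_kf_eq hgX i]
    rw [sum_image fun a _ b _ e => image_injective g.injective e]
    refine sum_le_sum fun s hs => ?_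
    obtain ⟨hPs, hsc⟩ := (hP i s).1 hs
    rw [Pi.add_apply, add_dl_image g (hh s hPs hsc.le).2.2, wt_image hgX]
    split_ifs with hne
    · obtain ⟨t, ht, htne⟩ := exists_of_ev_ne_zero hne
      refine le_mul_of_one_le_right (wt_nonneg X s) ?_
      refine le_of_eq_of_le (if_pos htne).symm (single_le_sum
        (f := fun t => if dl f (t.image g) ≠ 0 then (1 : ℝ) else 0)
        (fun t _ => by split_ifs <;> norm_num) ht)
    · exact mul_nonneg (wt_nonneg X s) (sum_nonneg fun t _ => by split_ifs <;> norm_num)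
  -- average
  have havg : ∑ g ∈ G, nrm X i (f + dl fun u =>
      ev (fun t => f (t.image g)) (h (u.image g.symm))) ≤ ∑ _g ∈ G, (K : ℝ) * 2 ^ c * N := by
    refine (sum_le_sum hg).trans ?_
    rw [sum_comm, sum_const, nsmul_eq_mul]
    calc ∑ s ∈ kf X i, ∑ g ∈ G, wt X s *
          ∑ t ∈ (h s).support, (if dl f (t.image g) ≠ 0 then (1 : ℝ) else 0)
        ≤ ∑ s ∈ kf X i, wt X s * ((K : ℝ) * (G.card * (2 ^ c * N))) := by
          refine sum_le_sum fun s hs => ?_
          rw [← mul_sum, sum_comm]
          obtain ⟨hPs, hsc⟩ := (hP i s).1 hs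
          obtain ⟨h1, h2, -⟩ := hh s hPs hsc.le
          refine mul_le_mul_of_nonneg_left ?_ (wt_nonneg X s)
          calc ∑ t ∈ (h s).support, ∑ g ∈ G, (if dl f (t.image g) ≠ 0 then (1 : ℝ) else 0)
              ≤ ∑ _t ∈ (h s).support, (G.card : ℝ) * (2 ^ c * N) :=
                sum_le_sum fun t ht => by
                  rw [sum_boole]
                  obtain ⟨hPt, htc⟩ := h1 ht
                  exact hcount t ((hP (i + 1) t).2 ⟨hPt, htc.trans (by rw [hsc])⟩)
            _ ≤ _ := by
                rw [sum_const, nsmul_eq_mul]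
                exact mul_le_mul_of_nonneg_right (by exact_mod_cast h2) (by positivity)
      _ = (∑ s ∈ kf X i, wt X s) * ((K : ℝ) * (G.card * (2 ^ c * N))) := (sum_mul ..).symm
      _ ≤ 1 * ((K : ℝ) * (G.card * (2 ^ c * N))) :=
          mul_le_mul_of_nonneg_right (sum_wt_le_one hX i) (by positivity)
      _ = _ := by ring
  obtain ⟨g, -, hgle⟩ := exists_le_of_sum_le ⟨1, (hG 1).2 fun U hU => by simpa using hU⟩ havg
  exact ⟨_, hgle⟩

end Vale.Agent.P067.KO
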