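import Vale.Agent.P067.KO.Pins
import Vale.Agent.P067.KO.AvgExp

/-!
Coboundary expansion of the links in opposition complexes, uniform in the field, from fillings of
bounded size and purity: full flags transversal to `F` have bases adapted to them and to `F`, so
the symmetries of a link are transitive on its top faces.
-/

namespace Vale.Agent.P067.KO

open Finset Module Vale.Agent.P067.Sub

variable {k : Type*} [Field k] [Fintype k] {M : Type*} [AddCommGroup M] [Module k M] [Finite M]

omit [Fintype k] in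
theorem mem_oppTops {F : Submodule k M} {T : Finset (Submodule k M)} :
    T ∈ oppTops F ↔ OppFace F T ∧ T.card + 1 = finrank k M := by
  simp [oppTops]

omit [Fintype k] in
theorem finrank_inj_on_face {F : Submodule k M} {T : Finset (Submodule k M)} (hT : OppFace F T)
    {W W' : Submodule k M} (hW : W ∈ T) (hW' : W' ∈ T) (h : finrank k W = finrank k W') :
    W = W' := by
  rcases hT.2 W hW W' hW' with hle | hle
  · exact Submodule.eq_of_le_of_finrank_eq hle h
  · exact (Submodule.eq_of_le_of_finrank_eq hle h.symm).symm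

/-- a transversal full flag and the subspace it is transversal to have a common adapted basis -/
theorem flag_basis {n : ℕ} (hn : finrank k M = n) (F : Submodule k M)
    {T : Finset (Submodule k M)} (hT : T ∈ oppTops F) :
    ∃ b : Basis (Fin n) k M,
      (∀ W ∈ T, ∃ m, 0 < m ∧ m < n ∧ W = Submodule.span k (b '' {j | (j : ℕ) < m})) ∧
      (∀ m, 0 < m → m < n → Submodule.span k (b '' {j | (j : ℕ) < m}) ∈ T) ∧
      F = Submodule.span k (b '' {j | n - finrank k F ≤ (j : ℕ)}) := by
  classical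
  obtain ⟨hTF, hTc⟩ := mem_oppTops.1 hT
  rw [hn] at hTc
  have himg : T.image (fun W : Submodule k M => finrank k W) = Finset.Ioo 0 n := by
    refine eq_of_subset_of_card_le (image_subset_iff.2 fun W hW => ?_) ?_
    · obtain ⟨h0, h1, -⟩ := hTF.1 W hW
      refine mem_Ioo.2 ⟨Nat.pos_of_ne_zero fun h => h0 (Submodule.finrank_eq_zero.1 h), ?_⟩
      exact hn ▸ Submodule.finrank_lt h1
    · rw [card_image_of_injOn fun W hW W' hW' h => finrank_inj_on_face hTF hW hW' h, Nat.card_Ioo]
      omega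
  have hex : ∀ m, 0 < m → m < n → ∃ x ∈ T, finrank k x = m := fun m h0 h1 =>
    mem_image.1 (himg.symm ▸ mem_Ioo.2 ⟨h0, h1⟩)
  let W : ℕ → Submodule k M := fun m =>
    if m = 0 then ⊥ else if h : ∃ x ∈ T, finrank k x = m then h.choose else ⊤
  have hW0 : W 0 = ⊥ := if_pos rfl
  have hWin : ∀ m, 0 < m → m < n → W m ∈ T ∧ finrank k (W m) = m := fun m h0 h1 => by
    have e : W m = (hex m h0 h1).choose := by simp only [W, if_neg h0.ne', dif_pos (hex m h0 h1)]
    rw [e]
    exact (hex m h0 h1).choose_spec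
  have hWn : W n = ⊤ := by
    rcases n.eq_zero_or_pos with h0 | h0
    · exact (h0 ▸ hW0).trans (Submodule.eq_top_of_finrank_eq (by simp [hn, h0]))
    · have : ¬ ∃ x ∈ T, finrank k x = n := by
        rintro ⟨x, hx, he⟩
        have := (mem_Ioo.1 (himg ▸ mem_image_of_mem (fun W : Submodule k M => finrank k W) hx)).2
        omega
      simp only [W, if_neg h0.ne', dif_neg this]
  have hWm : ∀ m ≤ n, finrank k (W m) = m ∧ Trans F (W m) := by
    intro m hm
    rcases m.eq_zero_or_pos with rfl | h0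
    · exact hW0 ▸ ⟨finrank_bot k M, Or.inl (bot_inf_eq _)⟩
    rcases hm.lt_or_eq with h1 | rfl
    · exact ⟨(hWin m h0 h1).2, (hTF.1 _ (hWin m h0 h1).1).2.2⟩
    · exact hWn ▸ ⟨by rw [finrank_top, hn], Or.inr (top_sup_eq _)⟩
  have hlt : ∀ m, m < n → W m < W (m + 1) := by
    intro m hm
    have h1 := (hWm m hm.le).1
    have h2 := (hWm (m + 1) hm).1
    have hle : W m ≤ W (m + 1) := by
      rcases m.eq_zero_or_pos with rfl | h0
      · exact hW0 ▸ bot_le
      rcases (Nat.succ_le_of_lt hm).lt_or_eq with h3 | h3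
      · rcases hTF.2 _ (hWin m h0 hm).1 _ (hWin (m + 1) (by omega) h3).1 with h | h
        · exact h
        · have := Submodule.finrank_mono h
          omega
      · rw [show m + 1 = n from h3, hWn]
        exact le_top
    exact lt_of_le_of_ne hle fun e => by rw [e] at h1; omega
  set r := finrank k F
  have hr : r ≤ n := hn ▸ Submodule.finrank_le F
  have hinf : ∀ m ≤ n, n - r ≤ m → finrank k ↥(W m ⊓ F) + n = m + r := by
    intro m hm hge
    obtain ⟨h1, h2⟩ := hWm m hm
    have hs := Submodule.finrank_sup_add_finrank_inf_eq (W m) F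
    rcases h2 with h | h
    · have := Submodule.finrank_le (W m ⊔ F)
      rw [h, finrank_bot] at hs ⊢
      omega
    · rw [h, finrank_top] at hs
      omega
  have hv : ∀ j : Fin n, ∃ v, v ∈ W (j + 1) ∧ v ∉ W j ∧ (n - r ≤ (j : ℕ) → v ∈ F) := by
    intro j
    by_cases hj : n - r ≤ (j : ℕ)
    · have hnot : ¬ W (j + 1) ⊓ F ≤ W j := fun h => by
        have h1 := Submodule.finrank_mono (le_inf h (inf_le_right : W (j + 1) ⊓ F ≤ F))
        have h2 := hinf (j + 1) j.2 (by omega)
        have h3 := hinf j j.2.le hj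
        omega
      obtain ⟨v, hv, hvn⟩ := SetLike.not_le_iff_exists.1 hnot
      exact ⟨v, hv.1, hvn, fun _ => hv.2⟩
    · obtain ⟨v, hv, hvn⟩ := SetLike.exists_of_lt (hlt j j.2)
      exact ⟨v, hv, hvn, fun h => absurd h hj⟩
  choose v hv1 hv2 hv3 using hv
  have hspan : ∀ m ≤ n, Submodule.span k (v '' {j | (j : ℕ) < m}) = W m := by
    intro m
    induction m with
    | zero => intro _; simp [hW0]
    | succ m ih =>
      intro hm
      have e : ({j : Fin n | (j : ℕ) < m + 1}) = insert (⟨m, hm⟩ : Fin n) {j : Fin n | (j : ℕ) < m} := by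
        ext j
        simp [Fin.ext_iff]
        omega
      rw [e, Set.image_insert_eq, Submodule.span_insert, ih (by omega)]
      refine Submodule.eq_of_le_of_finrank_le
        (sup_le ((Submodule.span_singleton_le_iff_mem _ _).2 (hv1 ⟨m, hm⟩)) (hlt m hm).le) ?_
      have hlt' : W m < Submodule.span k {v ⟨m, hm⟩} ⊔ W m :=
        lt_of_le_of_ne le_sup_right fun h => hv2 ⟨m, hm⟩ <| by
          rw [show W ((⟨m, hm⟩ : Fin n) : ℕ) = Submodule.span k {v ⟨m, hm⟩} ⊔ W m from h]
          exact Submodule.mem_sup_left (Submodule.mem_span_singleton_self _)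
      have := Submodule.finrank_lt_finrank_of_lt hlt'
      rw [(hWm (m + 1) hm).1]
      rw [(hWm m (by omega)).1] at this
      omega
  have htop : ⊤ ≤ Submodule.span k (Set.range v) := by
    rw [← hWn, ← hspan n le_rfl]
    exact Submodule.span_mono (Set.image_subset_range _ _)
  let b : Basis (Fin n) k M := basisOfTopLeSpanOfCardEqFinrank v htop (by simp [hn])
  have hb : ⇑b = v := coe_basisOfTopLeSpanOfCardEqFinrank ..
  refine ⟨b, fun U hU => ?_, fun m h0 h1 => ?_, ?_⟩
  · have hd := mem_Ioo.1 (himg ▸ mem_image_of_mem (fun W : Submodule k M => finrank k W) hU)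
    refine ⟨_, hd.1, hd.2, ?_⟩
    rw [hb, hspan _ hd.2.le]
    exact finrank_inj_on_face hTF hU (hWin _ hd.1 hd.2).1 (hWin _ hd.1 hd.2).2.symm
  · rw [hb, hspan m h1.le]
    exact (hWin m h0 h1).1
  · let u : Fin r → Fin n := fun i => ⟨n - r + i, by omega⟩
    have hu : Function.Injective u := fun i i' h => by
      simp only [u, Fin.mk.injEq] at h
      exact Fin.ext (by omega)
    have hle : Submodule.span k (b '' {j | n - r ≤ (j : ℕ)}) ≤ F := by
      rw [hb, Submodule.span_le]
      rintro _ ⟨j, hj, rfl⟩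
      exact hv3 j hj
    have hsub : Submodule.span k (Set.range (b ∘ u)) ≤
        Submodule.span k (b '' {j | n - r ≤ (j : ℕ)}) := Submodule.span_mono <| by
      rintro _ ⟨i, rfl⟩
      exact ⟨u i, Nat.le_add_right _ _, rfl⟩
    refine (Submodule.eq_of_le_of_finrank_le hle (le_trans ?_ (Submodule.finrank_mono hsub))).symm
    rw [finrank_span_eq_card (b.linearIndependent.comp u hu), Fintype.card_fin]

/-- the symmetries fixing `τ` are transitive on the top faces through `τ` -/
theorem exists_symm_tops [DecidableEq (Submodule k M)] (F : Submodule k M)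
    {τ T T' : Finset (Submodule k M)} (hT : T ∈ oppTops F) (hT' : T' ∈ oppTops F) (hτ : τ ⊆ T)
    (hτ' : τ ⊆ T') : ∃ g : Equiv.Perm (Submodule k M),
      (∀ U ∈ oppTops F, U.image g ∈ oppTops F) ∧ τ.image g = τ ∧ T.image g = T' := by
  obtain ⟨b, hb, -, hbF⟩ := flag_basis rfl F hT
  obtain ⟨b', -, hb', hbF'⟩ := flag_basis rfl F hT'
  let e : M ≃ₗ[k] M := b.equiv b' (Equiv.refl _)
  have hspan : ∀ s : Set (Fin (finrank k M)),
      (Submodule.span k (b '' s)).map (e : M →ₗ[k] M) = Submodule.span k (b' '' s) := fun s => by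
    rw [Submodule.map_span, Set.image_image]
    congr 2
    funext j
    exact b.equiv_apply j b' (Equiv.refl _)
  let o : Submodule k M ≃o Submodule k M := Submodule.orderIsoMapComap e
  have ho : ∀ W, o W = W.map (e : M →ₗ[k] M) := fun _ => rfl
  have hoF : o F = F := by
    conv_lhs => rw [ho, hbF, hspan]
    exact hbF'.symm
  have hoT : ∀ W ∈ T, o W ∈ T' := fun W hW => by
    obtain ⟨m, h0, h1, rfl⟩ := hb W hW
    rw [ho, hspan]
    exact hb' m h0 h1
  refine ⟨o.toEquiv, fun U hU => ?_, ?_, ?_⟩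
  · obtain ⟨⟨h1, h2⟩, hc⟩ := mem_oppTops.1 hU
    refine mem_oppTops.2 ⟨⟨forall_mem_image.2 fun W hW => ?_, forall_mem_image.2 fun W hW =>
      forall_mem_image.2 fun W' hW' => (h2 W hW W' hW').imp o.monotone.imp o.monotone.imp⟩, ?_⟩
    · obtain ⟨hb0, ht0, htr⟩ := h1 W hW
      refine ⟨fun h => hb0 ((map_eq_bot_iff o).1 h), fun h => ht0 ((map_eq_top_iff o).1 h), ?_⟩
      rcases htr with h | h
      · left
        show o W ⊓ F = ⊥
        rw [← hoF, ← map_inf, h, map_bot]
      · right
        show o W ⊔ F = ⊤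
        rw [← hoF, ← map_sup, h, map_top]
    · rw [card_image_of_injective _ o.toEquiv.injective, hc]
  · refine (image_congr fun W hW => ?_).trans image_id
    have hW' : o W ∈ T' := hoT W (hτ hW)
    exact finrank_inj_on_face (mem_oppTops.1 hT').1 hW' (hτ' hW)
      (LinearEquiv.finrank_map_eq e W)
  · refine eq_of_subset_of_card_le (image_subset_iff.2 hoT) ?_
    rw [card_image_of_injective _ o.toEquiv.injective]
    have h1 := (mem_oppTops.1 hT).2
    have h2 := (mem_oppTops.1 hT').2
    omega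

/-- coboundary expansion of the links in opposition complexes -/
theorem oppExp (hA : OppAcyStmt) (hP : OppPureStmt) : OppExpStmt := by
  intro n d hnd
  obtain ⟨L, hL⟩ := hA n d hnd
  refine ⟨1 / ((fillK L d : ℝ) * 2 ^ n + 1), by positivity, ?_⟩
  intro k _ _ M _ _ _ _ hn F τ hτ i _ hid f
  have : Fintype (Submodule k M) := Fintype.ofFinite _
  set X := link (oppTops F) τ
  set P : Finset (Submodule k M) → Prop := fun s => Disjoint s τ ∧ OppFace F (s ∪ τ)
  have hdown : Down P := fun s t hs hts => ⟨disjoint_of_subset_left hts hs.1,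
    ⟨fun W hW => hs.2.1 W (union_subset_union_left hts hW), fun W hW W' hW' =>
      hs.2.2 W (union_subset_union_left hts hW) W' (union_subset_union_left hts hW')⟩⟩
  have hX : TopCard (n - 1 - τ.card) X := fun U hU => by
    obtain ⟨T, hT, rfl⟩ := mem_image.1 hU
    obtain ⟨h1, h2⟩ := mem_filter.1 hT
    have h3 := (mem_oppTops.1 h1).2
    rw [card_sdiff_of_subset h2]
    omega
  have hkf : ∀ j s, s ∈ kf X j ↔ P s ∧ s.card = j := by
    intro j s
    rw [mem_kf']
    constructor
    · rintro ⟨hc, U, hU, hs⟩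
      obtain ⟨T, hT, rfl⟩ := mem_image.1 hU
      obtain ⟨h1, h2⟩ := mem_filter.1 hT
      obtain ⟨hs1, hs2⟩ := subset_sdiff.1 hs
      obtain ⟨hT1, hT2⟩ := (mem_oppTops.1 h1).1
      have hsT := union_subset hs1 h2
      exact ⟨⟨hs2, fun W hW => hT1 W (hsT hW),
        fun W hW W' hW' => hT2 W (hsT hW) W' (hsT hW')⟩, hc⟩
    · rintro ⟨⟨hs1, hs2⟩, hc⟩
      obtain ⟨T, hT, hsT⟩ := hP k M F _ (by rw [hn]; nlinarith) hs2
      exact ⟨hc, T \ τ, mem_image.2 ⟨T, mem_filter.2 ⟨hT, subset_union_right.trans hsT⟩, rfl⟩,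
        subset_sdiff.2 ⟨subset_union_left.trans hsT, hs1⟩⟩
  have htr : ∀ U ∈ X, ∀ U' ∈ X,
      ∃ g : Equiv.Perm (Submodule k M), (∀ A ∈ X, A.image g ∈ X) ∧ U.image g = U' := by
    intro U hU U' hU'
    obtain ⟨T, hT, rfl⟩ := mem_image.1 hU
    obtain ⟨T', hT', rfl⟩ := mem_image.1 hU'
    obtain ⟨h1, h2⟩ := mem_filter.1 hT
    obtain ⟨h1', h2'⟩ := mem_filter.1 hT'
    obtain ⟨g, hg, hgτ, hgT⟩ := exists_symm_tops F h1 h1' h2 h2'
    refine ⟨g, fun A hA => ?_, by rw [image_sdiff _ _ g.injective, hgT, hgτ]⟩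
    obtain ⟨B, hB, rfl⟩ := mem_image.1 hA
    obtain ⟨hB1, hB2⟩ := mem_filter.1 hB
    exact mem_image.2 ⟨B.image g, mem_filter.2 ⟨hg B hB1, hgτ ▸ image_subset_image hB2⟩,
      by rw [image_sdiff _ _ g.injective, hgτ]⟩
  obtain ⟨h, hh⟩ := exists_contraction hdown (hL k M hn F τ hτ (by omega)) i (by omega)
  obtain ⟨φ, hφ⟩ := exists_small_correction hX htr hkf h hh f
  refine ⟨φ, ?_⟩
  have hN : 0 ≤ nrm X (i + 1) (dl f) := sum_nonneg fun s _ => wt_nonneg X s
  rw [one_div_mul_eq_div, div_le_iff₀ (by positivity)]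
  refine hφ.trans ?_
  have h1 : (fillK L i : ℝ) ≤ fillK L d := by exact_mod_cast fillK_mono L (by omega : i ≤ d)
  have h2 : (2 : ℝ) ^ (n - 1 - τ.card) ≤ 2 ^ n := pow_le_pow_right₀ (by norm_num) (by omega)
  calc (fillK L i : ℝ) * 2 ^ (n - 1 - τ.card) * nrm X (i + 1) (dl f)
      ≤ ((fillK L d : ℝ) * 2 ^ n) * nrm X (i + 1) (dl f) :=
        mul_le_mul_of_nonneg_right (mul_le_mul h1 h2 (by positivity) (by positivity)) hN
    _ ≤ _ := by rw [mul_comm]; exact mul_le_mul_of_nonneg_left (by linarith) hN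

end Vale.Agent.P067.KO
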