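import Vale.Agent.P067.KO.OppRankTwo

/-!
# P067: connectedness and spectral gap of the links in opposition complexes
-/

namespace Vale.Agent.P067.KO

open Finset Module Exp

variable {k : Type} [Field k] [Fintype k] {M : Type} [AddCommGroup M] [Module k M] [Finite M]
variable [DecidableEq (Submodule k M)] {F : Submodule k M} {τ : Finset (Submodule k M)} {n : ℕ}

omit [Fintype k] [DecidableEq (Submodule k M)] in
theorem chain_inj {s : Finset (Submodule k M)} (hs : OppFace F s) :
    Set.InjOn (fun W : Submodule k M => finrank k W) s := fun W hW W' hW' he => by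
  simp only at he
  rcases hs.2 W hW W' hW' with h | h
  exacts [eq_of_rk h he.ge, (eq_of_rk h he.le).symm]

omit [Fintype k] in
theorem chain_dims {s : Finset (Submodule k M)} (hM : finrank k M = n) (hs : OppFace F s)
    (hc : s.card + 1 = n) : s.image (fun W : Submodule k M => finrank k W) = Ioo 0 n := by
  refine eq_of_subset_of_card_le (fun d hd => ?_) ?_
  · obtain ⟨W, hW, rfl⟩ := mem_image.1 hd
    have h1 := rk_lt (bot_lt_iff_ne_bot.2 (hs.1 W hW).1)
    have h2 := rk_lt (lt_top_iff_ne_top.2 (hs.1 W hW).2.1)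
    rw [finrank_bot] at h1
    rw [finrank_top, hM] at h2
    exact mem_Ioo.2 ⟨h1, h2⟩
  · rw [card_image_of_injOn (chain_inj hs), Nat.card_Ioo]
    omega

omit [Fintype k] in
theorem rk_le_of_comp {W W' : Submodule k M} (h : W ≤ W' ∨ W' ≤ W)
    (hd : finrank k W < finrank k W') : W ≤ W' :=
  h.resolve_right fun h' => (Submodule.finrank_mono h').not_gt hd

omit [Fintype k] in
/-- All dimensions but two occur in the extended chain. -/
theorem ext_dim {T : Finset (Submodule k M)} (hM : finrank k M = n) (hT : OppFace F T)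
    (hTc : T.card + 1 = n) {R R' : Submodule k M} (hd : T \ τ = {R, R'}) {d : ℕ} (hdn : d ≤ n)
    (h1 : d ≠ finrank k R) (h2 : d ≠ finrank k R') : ∃ z ∈ ext τ, finrank k z = d := by
  rcases Nat.eq_zero_or_pos d with rfl | hd0
  · exact ⟨⊥, by simp [ext], finrank_bot k M⟩
  rcases hdn.eq_or_lt with rfl | hdn
  · exact ⟨⊤, by simp [ext], by rw [finrank_top, hM]⟩
  have hmem : d ∈ T.image (fun W : Submodule k M => finrank k W) := by
    rw [chain_dims hM hT hTc]
    exact mem_Ioo.2 ⟨hd0, hdn⟩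
  obtain ⟨z, hz, rfl⟩ := mem_image.1 hmem
  refine ⟨z, mem_insert_of_mem (mem_insert_of_mem ?_), rfl⟩
  by_contra hzt
  have : z ∈ ({R, R'} : Finset (Submodule k M)) := hd ▸ mem_sdiff.2 ⟨hz, hzt⟩
  simp only [mem_insert, mem_singleton] at this
  rcases this with rfl | rfl
  exacts [h1 rfl, h2 rfl]

/-- The data of a link of codimension two. -/
structure RankTwo (F : Submodule k M) (τ T : Finset (Submodule k M)) (R R' : Submodule k M)
    (n : ℕ) : Prop where
  dim : finrank k M = n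
  face : OppFace F τ
  top : OppFace F T
  card : T.card + 1 = n
  sub : τ ⊆ T
  two : T \ τ = {R, R'}
  lt : finrank k R < finrank k R'

variable {T : Finset (Submodule k M)} {R R' : Submodule k M}

theorem exists_rankTwo (hpure : OppPureOn k M) (hM : finrank k M = n) (hτ : OppFace F τ)
    (hc : τ.card + 3 = n) : ∃ T R R', RankTwo F τ T R R' n := by
  obtain ⟨T, hT, hTsub⟩ := hpure F _ hτ
  obtain ⟨hTf, hTc⟩ := mem_oppTops_iff.1 hT
  rw [hM] at hTc
  obtain ⟨a, b, hab, he⟩ := card_eq_two.1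
    (show (T \ τ).card = 2 by rw [card_sdiff_of_subset hTsub]; omega)
  have ha : a ∈ T := (mem_sdiff.1 (he ▸ mem_insert_self a {b})).1
  have hb : b ∈ T := (mem_sdiff.1 (he ▸ mem_insert_of_mem (mem_singleton_self b))).1
  rcases lt_or_gt_of_ne (fun e => hab (chain_inj hTf ha hb e) :
      finrank k a ≠ finrank k b) with h | h
  · exact ⟨T, a, b, hM, hτ, hTf, hTc, hTsub, he, h⟩
  · exact ⟨T, b, a, hM, hτ, hTf, hTc, hTsub, he.trans (pair_comm a b), h⟩

omit [Fintype k] in
theorem RankTwo.vert (h : RankTwo F τ T R R' n) :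
    LinkVert F τ R ∧ LinkVert F τ R' ∧ R ≤ R' := by
  have hR : R ∈ T \ τ := h.two ▸ mem_insert_self R {R'}
  have hR' : R' ∈ T \ τ := h.two ▸ mem_insert_of_mem (mem_singleton_self R')
  rw [mem_sdiff] at hR hR'
  exact ⟨⟨hR.2, h.top.1 R hR.1, fun x hx => h.top.2 x (h.sub hx) R hR.1⟩,
    ⟨hR'.2, h.top.1 R' hR'.1, fun x hx => h.top.2 x (h.sub hx) R' hR'.1⟩,
    rk_le_of_comp (h.top.2 R hR.1 R' hR'.1) h.lt⟩

omit [Fintype k] in
theorem RankTwo.vert_dim (h : RankTwo F τ T R R' n) {W : Submodule k M} (hW : LinkVert F τ W) :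
    finrank k W = finrank k R ∨ finrank k W = finrank k R' := by
  have h1 := rk_lt (bot_lt_iff_ne_bot.2 hW.2.1.1)
  have h2 := rk_lt (lt_top_iff_ne_top.2 hW.2.1.2.1)
  rw [finrank_bot] at h1
  rw [finrank_top, h.dim] at h2
  by_contra hne
  rw [not_or] at hne
  obtain ⟨z, hz, hzd⟩ := ext_dim h.dim h.top h.card h.two h2.le hne.1 hne.2
  have hzW : z = W := by
    rcases ext_comp hW.2.2 hz with h' | h'
    exacts [eq_of_rk h' hzd.ge, (eq_of_rk h' hzd.le).symm]
  subst hzW
  rcases mem_insert.1 hz with rfl | hz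
  · exact hW.2.1.1 rfl
  rcases mem_insert.1 hz with rfl | hz
  exacts [hW.2.1.2.1 rfl, hW.1 hz]

theorem RankTwo.link_eq [Fintype (Submodule k M)] (hpure : OppPureOn k M)
    (h : RankTwo F τ T R R' n) (P Q : Finset (Submodule k M))
    (hP : ∀ x, x ∈ P ↔ LinkVert F τ x ∧ finrank k x = finrank k R)
    (hQ : ∀ x, x ∈ Q ↔ LinkVert F τ x ∧ finrank k x = finrank k R')
    [DecidableRel fun a b : Submodule k M => a ≤ b] :
    link (oppTops F) τ =
      ((P ×ˢ Q).filter fun z => z.1 ≤ z.2).image fun z => {z.1, z.2} := by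
  have hcard : ∀ Z ∈ link (oppTops F) τ, Z.card = 2 := fun Z hZ => by
    obtain ⟨U, hU, rfl⟩ := mem_image.1 hZ
    obtain ⟨hU1, hU2⟩ := mem_filter.1 hU
    have hUc := (mem_oppTops_iff.1 hU1).2
    have e := h.two ▸ card_sdiff_of_subset h.sub
    rw [card_pair fun e : R = R' => h.lt.ne (by rw [e])] at e
    have := h.dim
    have := h.card
    rw [card_sdiff_of_subset hU2]
    omega
  ext Z
  simp only [mem_image, mem_filter, mem_product, hP, hQ, Prod.exists]
  constructor
  · intro hZ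
    have hc := hcard Z hZ
    obtain ⟨U, hU, rfl⟩ := mem_image.1 hZ
    obtain ⟨hU1, hU2⟩ := mem_filter.1 hU
    have hUf := (mem_oppTops_iff.1 hU1).1
    obtain ⟨a, b, hab, he⟩ := card_eq_two.1 hc
    have ha : a ∈ U \ τ := he ▸ mem_insert_self a {b}
    have hb : b ∈ U \ τ := he ▸ mem_insert_of_mem (mem_singleton_self b)
    rw [mem_sdiff] at ha hb
    have hav : LinkVert F τ a :=
      ⟨ha.2, hUf.1 a ha.1, fun x hx => hUf.2 x (hU2 hx) a ha.1⟩
    have hbv : LinkVert F τ b :=
      ⟨hb.2, hUf.1 b hb.1, fun x hx => hUf.2 x (hU2 hx) b hb.1⟩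
    have hne : finrank k a ≠ finrank k b := fun e => hab (chain_inj hUf ha.1 hb.1 e)
    have hlt := h.lt
    rcases h.vert_dim hav with da | da <;> rcases h.vert_dim hbv with db | db
    · omega
    · exact ⟨a, b, ⟨⟨⟨hav, da⟩, hbv, db⟩, rk_le_of_comp (hUf.2 a ha.1 b hb.1) (by omega)⟩,
        he.symm⟩
    · exact ⟨b, a, ⟨⟨⟨hbv, db⟩, hav, da⟩, rk_le_of_comp (hUf.2 b hb.1 a ha.1) (by omega)⟩,
        (pair_comm b a).trans he.symm⟩
    · omega
  · rintro ⟨a, b, ⟨⟨⟨ha, da⟩, hb, db⟩, hle⟩, rfl⟩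
    obtain ⟨Z', hZ', hsub⟩ := link_edge hpure h.face ha hb (Or.inl hle)
    have hab : a ≠ b := fun e => h.lt.ne (by rw [← da, ← db, e])
    rwa [eq_of_subset_of_card_le hsub (by rw [hcard Z' hZ', card_pair hab])]

omit [Fintype k] in
/-- The gap around two consecutive missing dimensions. -/
theorem RankTwo.adj_dims (h : RankTwo F τ T R R' n) (hj : finrank k R' = finrank k R + 1)
    {A B : Submodule k M} (hAB : Adj τ A B) (hA : A < R) (hB : R < B) :
    finrank k A + 1 = finrank k R ∧ finrank k B = finrank k R + 2 := by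
  obtain ⟨hR, hR', -⟩ := h.vert
  have hA' := rk_lt hA
  have hB' := rk_lt hB
  have hR'n := rk_lt (lt_top_iff_ne_top.2 hR'.2.1.2.1)
  rw [finrank_top, h.dim] at hR'n
  constructor
  · obtain ⟨z, hz, hzd⟩ := ext_dim (d := finrank k R - 1) h.dim h.top h.card h.two (by omega)
      (by omega) (by omega)
    rcases hAB.2.2.2 z hz with h' | h'
    · have := Submodule.finrank_mono h'
      omega
    · have := Submodule.finrank_mono h'
      omega
  · obtain ⟨z, hz, hzd⟩ := ext_dim (d := finrank k R + 2) h.dim h.top h.card h.two (by omega)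
      (by omega) (by omega)
    have hup : finrank k B ≤ finrank k R + 2 := by
      rcases hAB.2.2.2 z hz with h' | h'
      · have := Submodule.finrank_mono h'
        omega
      · have := Submodule.finrank_mono h'
        omega
    have hne : finrank k B ≠ finrank k R' := fun e => by
      have hBR : B = R' := by
        rcases ext_comp hR'.2.2 hAB.2.1 with h' | h'
        exacts [eq_of_rk h' e.ge, (eq_of_rk h' e.le).symm]
      subst hBR
      rcases mem_insert.1 hAB.2.1 with h' | h'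
      · exact hR'.2.1.1 h'
      rcases mem_insert.1 h' with h' | h'
      exacts [hR'.2.1.2.1 h', hR'.1 h']
    omega

theorem RankTwo.hasGap [Fintype (Submodule k M)] (h : RankTwo F τ T R R' n)
    (P Q : Finset (Submodule k M))
    (hP : ∀ x, x ∈ P ↔ LinkVert F τ x ∧ finrank k x = finrank k R)
    (hQ : ∀ x, x ∈ Q ↔ LinkVert F τ x ∧ finrank k x = finrank k R')
    [DecidableRel fun a b : Submodule k M => a ≤ b] {ε : ℝ} (hε : 0 ≤ ε)
    (hq : (Real.sqrt (Fintype.card k))⁻¹ ≤ ε) :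
    HasGap (incGraph fun (x : ↥P) (y : ↥Q) => x.1 ≤ y.1) ε := by
  obtain ⟨hR, hR', -⟩ := h.vert
  have hlt := h.lt
  by_cases hj : finrank k R' = finrank k R + 1
  · obtain ⟨A, B, hAB, hA, hB⟩ := exists_adj h.face hR
    obtain ⟨dA, dB⟩ := h.adj_dims hj hAB hA hB
    have hAG : A ≤ F ⊓ B ⊔ A := le_sup_right
    have hGB : F ⊓ B ⊔ A ≤ B := sup_le inf_le_right hAB.2.2.1.le
    have hgood : ∀ W, A < W → W < B → (Good A B (F ⊓ B ⊔ A) W ↔ Trans F W) := fun W h1 h2 =>
      ⟨fun hg => (trans_iff (ext_trans h.face hAB.1) (ext_trans h.face hAB.2.1) h1.le h2.le).2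
        hg.2.2, fun ht => ⟨h1, h2,
          (trans_iff (ext_trans h.face hAB.1) (ext_trans h.face hAB.2.1) h1.le h2.le).1 ht⟩⟩
    have hin : ∀ x, LinkVert F τ x → finrank k A < finrank k x → finrank k x < finrank k B →
        A < x ∧ x < B := fun x hx h1 h2 =>
      ⟨lt_of_le_of_ne (rk_le_of_comp (ext_comp hx.2.2 hAB.1) h1) fun e => by
          rw [e] at h1; omega,
        lt_of_le_of_ne (rk_le_of_comp (ext_comp hx.2.2 hAB.2.1).symm h2) fun e => by
          rw [e] at h2; omega⟩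
    refine hasGap_mono (incGraph_nonneg _) hq
      (plane_hasGap hAG hGB (by omega) P Q (fun x => ?_) fun x => ?_)
    · rw [hP]
      constructor
      · rintro ⟨hx, dx⟩
        obtain ⟨x1, x2⟩ := hin x hx (by omega) (by omega)
        exact ⟨x1, x2, by omega, (hgood x x1 x2).2 hx.2.1.2.2⟩
      · rintro ⟨x1, x2, dx, hg⟩
        exact ⟨adj_vert hAB x1 x2 ((hgood x x1 x2).1 hg), by omega⟩
    · rw [hQ]
      constructor
      · rintro ⟨hx, dx⟩
        obtain ⟨x1, x2⟩ := hin x hx (by omega) (by omega)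
        exact ⟨x1, x2, by omega, (hgood x x1 x2).2 hx.2.1.2.2⟩
      · rintro ⟨x1, x2, dx, hg⟩
        exact ⟨adj_vert hAB x1 x2 ((hgood x x1 x2).1 hg), by omega⟩
  · have hR'n := rk_lt (lt_top_iff_ne_top.2 hR'.2.1.2.1)
    rw [finrank_top, h.dim] at hR'n
    obtain ⟨z, hz, hzd⟩ := ext_dim (d := finrank k R + 1) h.dim h.top h.card h.two (by omega)
      (by omega) (Ne.symm hj)
    refine hasGap_mono (incGraph_nonneg _) hε (complete_gap ?_ ?_ fun x y => ?_)
    · exact Fintype.card_pos_iff.2 ⟨⟨R, (hP R).2 ⟨hR, rfl⟩⟩⟩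
    · exact Fintype.card_pos_iff.2 ⟨⟨R', (hQ R').2 ⟨hR', rfl⟩⟩⟩
    · obtain ⟨hx, dx⟩ := (hP _).1 x.2
      obtain ⟨hy, dy⟩ := (hQ _).1 y.2
      exact (rk_le_of_comp (ext_comp hx.2.2 hz).symm (by omega)).trans
        (rk_le_of_comp (ext_comp hy.2.2 hz) (by omega))

theorem gap_link (hpure : OppPureOn k M) (hM : finrank k M = n) (hτ : OppFace F τ)
    (hc : τ.card + 3 = n) {ε : ℝ} (hε : 0 ≤ ε) (hq : (Real.sqrt (Fintype.card k))⁻¹ ≤ ε) :
    Gap ε (link (oppTops F) τ) := by
  classical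
  have : Fintype (Submodule k M) := Fintype.ofFinite _
  obtain ⟨T, R, R', h⟩ := exists_rankTwo hpure hM hτ hc
  set P := univ.filter fun x => LinkVert F τ x ∧ finrank k x = finrank k R with hP
  set Q := univ.filter fun x => LinkVert F τ x ∧ finrank k x = finrank k R' with hQ
  have hP' : ∀ x, x ∈ P ↔ LinkVert F τ x ∧ finrank k x = finrank k R := fun x => by simp [hP]
  have hQ' : ∀ x, x ∈ Q ↔ LinkVert F τ x ∧ finrank k x = finrank k R' := fun x => by simp [hQ]
  refine gap_bipartite (P := P) (Q := Q) (disjoint_left.2 fun x hx hy => h.lt.ne ?_)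
    (fun a b => a ≤ b) (h.link_eq hpure P Q hP' hQ') (h.hasGap P Q hP' hQ' hε hq)
  rw [← ((hP' x).1 hx).2, ((hQ' x).1 hy).2]

/-- Links in opposition complexes are connected, and those of rank two are spectral expanders. -/
theorem oppSpec (hpure : OppPureStmt) : OppSpecStmt := by
  intro n hn ε hε
  obtain ⟨q₀, hq₀⟩ := exists_nat_ge (ε⁻¹ ^ 2)
  refine ⟨q₀, fun k _ _ hq M _ _ _ _ hM F τ hτ => ?_⟩
  have hp : OppPureOn k M := fun G σ h => hpure k M G σ (by omega) h
  refine ⟨fun hc => conn_link hp hM hτ hc, fun hc => gap_link hp hM hτ hc hε.le ?_⟩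
  refine inv_le_of_inv_le₀ hε (Real.le_sqrt_of_sq_le (hq₀.trans ?_))
  exact_mod_cast hq

end Vale.Agent.P067.KO
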