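import Vale.Agent.P067.KO.QuotientBase

/-!
The finite quotients of the lattice complex by deep congruence subgroups: pure complexes whose
links of vertices are opposition complexes, acyclic where the coinvariants are.
-/

namespace Vale.Agent.P067.KO.Quot

open Finset Vale.Agent.P067.Sub

variable {k : Type} [Field k] {n : ℕ}

theorem inWindow_gamAct_q (g : Gam n k) {L : Lat k n} (h : InWindow L) :
    InWindow (gamAct g L) := by
  obtain ⟨a, ha, ha0, g', rfl⟩ := h
  exact ⟨a, ha, ha0, g * g', (gamAct_mul_q _ _ _).symm⟩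

theorem XInf_mono {s t : Finset (Lat k n)} (h : XInf s) (ht : t ⊆ s) : XInf t :=
  ⟨fun L hL => h.1 L (ht hL), fun L hL L' hL' => h.2 L (ht hL) L' (ht hL')⟩

theorem inWindow_std0 (hn : 1 ≤ n) : InWindow (stdLat (fun _ => 0) : Lat k n) :=
  ⟨fun _ => 0, fun _ => Or.inl rfl, ⟨⟨0, by omega⟩, rfl⟩, 1, (gamAct_one_q _).symm⟩

theorem le_shift_self {L : Lat k n} : L ≤ shift L := by
  intro v hv
  rw [mem_shift_q]
  have h : (⟨(RatFunc.X : RatFunc k)⁻¹, show (RatFunc.X : RatFunc k)⁻¹.intDegree ≤ 0 by simp⟩ :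
    inftyRing k) • v ∈ L := L.smul_mem _ hv
  simpa [Subring.smul_def] using h

theorem XInf_singleton {L : Lat k n} (h : InWindow L) : XInf ({L} : Finset (Lat k n)) := by
  refine ⟨fun M hM => by rwa [Finset.mem_singleton.mp hM], fun M hM M' hM' => ?_⟩
  rw [Finset.mem_singleton.mp hM, Finset.mem_singleton.mp hM']
  exact ⟨Or.inl le_rfl, le_shift_self⟩

theorem cong_antitone {m m' : ℕ} (h : m ≤ m') : cong k n m' ≤ cong k n m := fun _ hg =>
  mem_cong.mpr fun i j => (pow_dvd_pow _ h).trans (mem_cong.mp hg i j)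

/-- the transvection with a monomial -/
noncomputable def mono (hn : 2 ≤ n) (e : ℕ) : Gam n k :=
  ⟨Matrix.transvection ⟨0, by omega⟩ ⟨1, by omega⟩ ((Polynomial.X : Polynomial k) ^ e),
    Matrix.det_transvection_of_ne _ _ (by simp) _⟩

theorem mono_mem_cong (hn : 2 ≤ n) {e m : ℕ} (h : m ≤ e) : mono hn e ∈ cong k n m := by
  refine mem_cong.mpr fun i j => ?_
  have h1 : ((mono hn e : Gam n k) : Matrix (Fin n) (Fin n) (Polynomial k)) i j
      - (1 : Matrix (Fin n) (Fin n) (Polynomial k)) i j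
      = Matrix.single (⟨0, by omega⟩ : Fin n) ⟨1, by omega⟩ ((Polynomial.X : Polynomial k) ^ e)
        i j := by
    simp [mono, Matrix.transvection]
  rw [h1, Matrix.single_apply]
  split_ifs
  · exact pow_dvd_pow _ h
  · exact dvd_zero _

theorem mono_apply (hn : 2 ≤ n) (e : ℕ) :
    ((mono hn e : Gam n k) : Matrix (Fin n) (Fin n) (Polynomial k)) ⟨0, by omega⟩ ⟨1, by omega⟩
      = (Polynomial.X : Polynomial k) ^ e := by
  simp [mono, Matrix.transvection]

theorem mono_sep (hn : 2 ≤ n) {e e' m : ℕ} (he' : e' < m) {h : Gam n k}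
    (hh : h ∈ cong k n m) (heq : mono hn e' = h * mono hn e) : e' = e := by
  have h1 := congrArg (Matrix.SpecialLinearGroup.map (n := Fin n)
    (Ideal.Quotient.mk (Ideal.span {(Polynomial.X : Polynomial k) ^ m}))) heq
  rw [map_mul, MonoidHom.mem_ker.mp hh, one_mul] at h1
  have h2 := Matrix.ext_iff.mpr (congrArg Subtype.val h1) ⟨0, by omega⟩ ⟨1, by omega⟩
  simp only [Matrix.SpecialLinearGroup.map_apply_coe, RingHom.mapMatrix_apply,
    Matrix.map_apply, mono_apply] at h2
  rw [Ideal.Quotient.mk_eq_mk_iff_sub_mem, Ideal.mem_span_singleton,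
    Polynomial.X_pow_dvd_iff] at h2
  have h3 := h2 e' he'
  by_contra hc
  simp [Polynomial.coeff_X_pow, hc] at h3

/-- lattices in the window have finitely many orbits under a congruence subgroup -/
theorem finite_orbits [Fintype k] (m : ℕ) {Q : Type} (q : {L : Lat k n // InWindow L} → Q)
    (hq : Function.Surjective q)
    (hH : ∀ L L' : {L : Lat k n // InWindow L}, ∀ g ∈ cong k n m,
      gamAct g L.1 = L'.1 → q L = q L') : Finite Q := by
  classical
  rcases isEmpty_or_nonempty Q with h0 | h0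
  · infer_instance
  have : Finite (Polynomial k ⧸ Ideal.span {(Polynomial.X : Polynomial k) ^ m}) := by
    have := (Polynomial.monic_X_pow (R := k) m).finite_quotient
    exact Module.finite_of_finite k
  have : Finite (Gam n k ⧸ cong k n m) :=
    Finite.of_injective _ (QuotientGroup.kerLift_injective _)
  let f : (Fin n → Bool) × (Gam n k ⧸ cong k n m) → Q := fun p =>
    if h : InWindow (gamAct p.2.out (stdLat fun i => if p.1 i then 1 else 0)) then q ⟨_, h⟩
    else Classical.choice h0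
  refine Finite.of_surjective f fun x => ?_
  obtain ⟨⟨L, hL⟩, rfl⟩ := hq x
  obtain ⟨a, ha, ha0, g, rfl⟩ := id hL
  refine ⟨(fun i => decide (a i = 1), (g : Gam n k ⧸ cong k n m)), ?_⟩
  have e1 : (fun i => if decide (a i = 1) = true then (1 : ℤ) else 0) = a := by
    funext i
    rcases ha i with h | h <;> simp [h]
  obtain ⟨z, hz⟩ := QuotientGroup.mk_out_eq_mul (cong k n m) g
  have hmem : g * (z : Gam n k) * g⁻¹ ∈ cong k n m :=
    (MonoidHom.normal_ker _).conj_mem _ z.2 g
  have hg : gamAct (g * (z : Gam n k) * g⁻¹) (gamAct g (stdLat a))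
      = gamAct ((g : Gam n k ⧸ cong k n m).out) (stdLat a) := by
    rw [← gamAct_mul_q, inv_mul_cancel_right, hz]
  have hw : InWindow (gamAct ((g : Gam n k ⧸ cong k n m).out) (stdLat a)) :=
    hg ▸ inWindow_gamAct_q _ hL
  simp only [f, e1]
  rw [dif_pos hw]
  exact (hH ⟨_, hL⟩ ⟨_, hw⟩ _ hmem hg).symm

omit [Field k] in
theorem map_On'_q {α : Type*} {W : Type*} [AddCommGroup W] [Module (ZMod 2) W]
    {P : Finset α → Prop} {M : Submodule (ZMod 2) W} (A : Ch α →ₗ[ZMod 2] W)
    (h : ∀ s, P s → A (sg s) ∈ M) {z : Ch α} (hz : z ∈ On P) : A z ∈ M := by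
  rw [← Finsupp.sum_single z, Finsupp.sum, map_sum]
  refine Submodule.sum_mem _ fun s hs => ?_
  have e : Finsupp.single s (z s) = z s • sg s := by simp [sg]
  rw [e, map_smul]
  exact Submodule.smul_mem _ _ (h s (hz hs))

variable [DecidableEq (Lat k n)] {V : Type} [DecidableEq V]

/-- the projection to the orbits of a congruence subgroup, with the hypotheses on it -/
structure IsProj (H : Subgroup (Gam n k)) (π : Lat k n → V) : Prop where
  inv : ∀ (g : Gam n k) (s : Finset (Lat k n)), XInf s → XInf (s.image (gamAct g))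
  far : ∀ g ∈ H, ∀ L M L' : Lat k n, XInf {L, M} → XInf {M, L'} → gamAct g L = L' → L' = L
  eq_iff : ∀ L L' : Lat k n, InWindow L → InWindow L' →
    (π L = π L' ↔ ∃ g ∈ H, gamAct g L = L')
  surj : ∀ v, ∃ L, InWindow L ∧ π L = v

namespace IsProj

variable {H : Subgroup (Gam n k)} {π : Lat k n → V}

omit [DecidableEq V] in
theorem eq_of_near (hp : IsProj H π) {L M L' : Lat k n} (h1 : XInf {L, M}) (h2 : XInf {M, L'})
    (h : π L = π L') : L = L' := by
  obtain ⟨g, hg, hgL⟩ := (hp.eq_iff L L' (h1.1 L (by simp)) (h2.1 L' (by simp))).mp h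
  exact (hp.far g hg L M L' h1 h2 hgL).symm

omit [DecidableEq V] in
theorem injOn (hp : IsProj H π) {s : Finset (Lat k n)} (hs : XInf s) :
    Set.InjOn π (s : Set (Lat k n)) := fun L hL L' hL' h =>
  hp.eq_of_near (M := L) (XInf_mono hs (by simpa using hL))
    (XInf_mono hs (Finset.insert_subset hL (by simpa using hL'))) h

theorem card_image (hp : IsProj H π) {s : Finset (Lat k n)} (hs : XInf s) :
    (s.image π).card = s.card := Finset.card_image_of_injOn (hp.injOn hs)

theorem image_act (hp : IsProj H π) {g : Gam n k} (hg : g ∈ H) {s : Finset (Lat k n)}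
    (hs : XInf s) : (s.image (gamAct g)).image π = s.image π := by
  rw [Finset.image_image]
  exact Finset.image_congr fun L hL =>
    ((hp.eq_iff L _ (hs.1 L hL) (inWindow_gamAct_q g (hs.1 L hL))).mpr ⟨g, hg, rfl⟩).symm

theorem exists_translate (hp : IsProj H π) {s s' : Finset (Lat k n)} (hs : XInf s)
    (hs' : XInf s') (h : s.image π = s'.image π) : ∃ g ∈ H, s.image (gamAct g) = s' := by
  rcases s.eq_empty_or_nonempty with rfl | ⟨L, hL⟩
  · refine ⟨1, one_mem H, ?_⟩
    have : s' = ∅ := Finset.image_eq_empty.mp (h.symm.trans (Finset.image_empty π))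
    rw [this, Finset.image_empty]
  obtain ⟨L', hL', hLL'⟩ := Finset.mem_image.mp (h ▸ Finset.mem_image_of_mem π hL)
  obtain ⟨g, hg, hgL⟩ := (hp.eq_iff L L' (hs.1 L hL) (hs'.1 L' hL')).mp hLL'.symm
  refine ⟨g, hg, ?_⟩
  have hi := hp.image_act hg hs
  have ht := hp.inv g s hs
  have hLt : L' ∈ s.image (gamAct g) := hgL ▸ Finset.mem_image_of_mem _ hL
  set t := s.image (gamAct g)
  rw [h] at hi
  refine Finset.Subset.antisymm (fun x hx => ?_) (fun y hy => ?_)
  · obtain ⟨y, hy, hxy⟩ := Finset.mem_image.mp (hi ▸ Finset.mem_image_of_mem π hx)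
    rwa [hp.eq_of_near (XInf_mono ht (Finset.insert_subset hx (by simpa using hLt)))
      (XInf_mono hs' (Finset.insert_subset hL' (by simpa using hy))) hxy.symm]
  · obtain ⟨x, hx, hxy⟩ := Finset.mem_image.mp (hi.symm ▸ Finset.mem_image_of_mem π hy)
    rwa [← hp.eq_of_near (XInf_mono ht (Finset.insert_subset hx (by simpa using hLt)))
      (XInf_mono hs' (Finset.insert_subset hL' (by simpa using hy))) hxy]

theorem image_erase (hp : IsProj H π) {s : Finset (Lat k n)} (hs : XInf s) {x : Lat k n}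
    (hx : x ∈ s) : (s.erase x).image π = (s.image π).erase (π x) := by
  ext v
  simp only [Finset.mem_image, Finset.mem_erase]
  constructor
  · rintro ⟨y, ⟨hne, hy⟩, rfl⟩
    exact ⟨fun h => hne (hp.injOn hs hy hx h), y, hy, rfl⟩
  · rintro ⟨hne, y, hy, rfl⟩
    exact ⟨y, ⟨fun h => hne (h ▸ rfl), hy⟩, rfl⟩

end IsProj

/-- the top faces of the image -/
noncomputable def tops [Fintype V] (π : Lat k n → V) : Finset (Finset V) := by
  classical
  exact Finset.univ.filter fun T => ∃ s : Finset (Lat k n), XInf s ∧ s.card = n ∧ s.image π = T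

omit [DecidableEq (Lat k n)] in
theorem mem_tops [Fintype V] {π : Lat k n → V} {T : Finset V} :
    T ∈ tops π ↔ ∃ s : Finset (Lat k n), XInf s ∧ s.card = n ∧ s.image π = T := by
  simp [tops]

section Links

variable [Fintype k] [DecidableEq (Submodule k (Fin n → k))] {H : Subgroup (Gam n k)}
  {π : Lat k n → V}

omit [DecidableEq (Lat k n)] [DecidableEq (Submodule k (Fin n → k))] in
theorem mem_oppTops_q {F : Submodule k (Fin n → k)} {c : Finset (Submodule k (Fin n → k))} :
    c ∈ oppTops F ↔ OppFace F c ∧ c.card + 1 = n := by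
  simp [oppTops]

omit [Fintype k] [DecidableEq (Submodule k (Fin n → k))] [DecidableEq V] in
theorem injOn_comp (hp : IsProj H π) {L : Lat k n} {F : Submodule k (Fin n → k)}
    {ψ : Submodule k (Fin n → k) → Lat k n} (hψi : Set.InjOn ψ {W | IsOppVert F W})
    (hψ : ∀ τ : Finset (Lat k n),
      (L ∉ τ ∧ XInf (insert L τ)) ↔ ∃ c, OppFace F c ∧ τ = c.image ψ) :
    Set.InjOn (π ∘ ψ) {W | IsOppVert F W} := by
  have key : ∀ W, IsOppVert F W → XInf {L, ψ W} := fun W hW =>
    ((hψ {ψ W}).mpr ⟨{W}, ⟨fun U hU => by rwa [Finset.mem_singleton.mp hU],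
      fun U hU U' hU' => Or.inl (by rw [Finset.mem_singleton.mp hU, Finset.mem_singleton.mp hU'])⟩,
      (Finset.image_singleton _ _).symm⟩).2
  intro W hW W' hW' h
  refine hψi hW hW' (hp.eq_of_near (M := L) ?_ (key W' hW') h)
  rw [Finset.pair_comm]
  exact key W hW

theorem face_tops [Fintype V] (hn : 1 ≤ n) (hlink : LinkModelStmt)
    (hpure : OppPureStmt) {t : Finset V} :
    IsFace (tops π) t ↔ ∃ s : Finset (Lat k n), XInf s ∧ s.image π = t := by
  constructor
  · rintro ⟨T, hT, htT⟩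
    obtain ⟨s, hs, -, rfl⟩ := mem_tops.mp hT
    refine ⟨s.filter fun x => π x ∈ t, XInf_mono hs (Finset.filter_subset _ _), ?_⟩
    ext v
    simp only [Finset.mem_image, Finset.mem_filter]
    refine ⟨?_, fun hv => ?_⟩
    · rintro ⟨x, ⟨-, hx⟩, rfl⟩
      exact hx
    · obtain ⟨x, hx, rfl⟩ := Finset.mem_image.mp (htT hv)
      exact ⟨x, ⟨hx, hv⟩, rfl⟩
  · rintro ⟨s, hs, rfl⟩
    obtain ⟨L, hL, hLs⟩ : ∃ L, InWindow L ∧ XInf (insert L s) := by
      rcases s.eq_empty_or_nonempty with rfl | ⟨L, hL⟩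
      · exact ⟨_, inWindow_std0 hn, XInf_singleton (inWindow_std0 hn)⟩
      · exact ⟨L, hs.1 L hL, by rwa [Finset.insert_eq_of_mem hL]⟩
    obtain ⟨F, ψ, hψi, hψ⟩ := hlink k n L hL
    have hτ : L ∉ s.erase L ∧ XInf (insert L (s.erase L)) :=
      ⟨Finset.notMem_erase _ _, XInf_mono hLs fun x hx => by
        rcases Finset.mem_insert.mp hx with h | h
        · exact h ▸ Finset.mem_insert_self _ _
        · exact Finset.mem_insert_of_mem (Finset.mem_of_mem_erase h)⟩
    obtain ⟨c, hc, hcs⟩ := (hψ _).mp hτ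
    obtain ⟨T, hT, hcT⟩ := hpure k (Fin n → k) F c
      (by rw [Module.finrank_fintype_fun_eq_card, Fintype.card_fin]; omega) hc
    obtain ⟨hTf, hTc⟩ := mem_oppTops_q.mp hT
    obtain ⟨hLn, hLX⟩ := (hψ (T.image ψ)).mpr ⟨T, hTf, rfl⟩
    refine ⟨_, mem_tops.mpr ⟨_, hLX, ?_, rfl⟩, Finset.image_subset_image fun x hx => ?_⟩
    · rw [Finset.card_insert_of_notMem hLn,
        Finset.card_image_of_injOn (hψi.mono fun W hW => hTf.1 W hW), hTc]
    · by_cases hxL : x = L
      · exact hxL ▸ Finset.mem_insert_self _ _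
      · refine Finset.mem_insert_of_mem (Finset.image_subset_image hcT ?_)
        rw [← hcs]
        exact Finset.mem_erase.mpr ⟨hxL, hx⟩

theorem link_tops [Fintype V] (hp : IsProj H π) (hlink : LinkModelStmt) (v : V) :
    ∃ (F : Submodule k (Fin n → k)) (ψ : Submodule k (Fin n → k) → V),
      Set.InjOn ψ {W | IsOppVert F W} ∧ link (tops π) {v} = mapC ψ (oppTops F) := by
  obtain ⟨L, hL, rfl⟩ := hp.surj v
  obtain ⟨F, ψ, hψi, hψ⟩ := hlink k n L hL
  refine ⟨F, π ∘ ψ, injOn_comp hp hψi hψ, ?_⟩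
  ext T'
  simp only [link, mapC, Finset.mem_image, Finset.mem_filter, Finset.singleton_subset_iff,
    Finset.sdiff_singleton_eq_erase, mem_tops, mem_oppTops_q]
  constructor
  · rintro ⟨T, ⟨⟨s, hs, hsn, rfl⟩, hv⟩, rfl⟩
    obtain ⟨L', hL', hLL'⟩ := Finset.mem_image.mp hv
    obtain ⟨g, hg, hgL⟩ := (hp.eq_iff L' L (hs.1 L' hL') hL).mp hLL'
    have hs' := hp.inv g s hs
    have hLs : L ∈ s.image (gamAct g) := hgL ▸ Finset.mem_image_of_mem _ hL'
    obtain ⟨c, hc, hcs⟩ := (hψ ((s.image (gamAct g)).erase L)).mp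
      ⟨Finset.notMem_erase _ _, by rwa [Finset.insert_erase hLs]⟩
    refine ⟨c, ⟨hc, ?_⟩, ?_⟩
    · have hcard := congrArg Finset.card hcs
      rw [Finset.card_erase_of_mem hLs, Finset.card_image_of_injective _ (gamAct_inj_q g), hsn,
        Finset.card_image_of_injOn (hψi.mono fun W hW => hc.1 W hW)] at hcard
      have := Finset.card_pos.mpr ⟨L', hL'⟩
      omega
    · rw [← Finset.image_image, ← hcs, hp.image_erase hs' hLs, hp.image_act hg hs]
  · rintro ⟨c, ⟨hc, hcn⟩, rfl⟩
    obtain ⟨hLn, hLX⟩ := (hψ (c.image ψ)).mpr ⟨c, hc, rfl⟩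
    refine ⟨(insert L (c.image ψ)).image π, ⟨⟨_, hLX, ?_, rfl⟩,
      Finset.mem_image_of_mem π (Finset.mem_insert_self _ _)⟩, ?_⟩
    · rw [Finset.card_insert_of_notMem hLn,
        Finset.card_image_of_injOn (hψi.mono fun W hW => hc.1 W hW), hcn]
    · rw [← hp.image_erase hLX (Finset.mem_insert_self _ _), Finset.erase_insert hLn,
        Finset.image_image]

theorem degLE_tops [Fintype V] (hp : IsProj H π) (hlink : LinkModelStmt) :
    DegLE (Nat.card (Finset (Submodule k (Fin n → k)))) (tops π) := by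
  intro v
  obtain ⟨F, ψ, -, h⟩ := link_tops hp hlink v
  have h1 : ((tops π).filter fun T => v ∈ T).card = (link (tops π) {v}).card := by
    rw [link, Finset.card_image_of_injOn]
    · simp
    · intro A hA B hB hAB
      simp only [Finset.coe_filter, Set.mem_ofPred_eq, Finset.singleton_subset_iff] at hA hB
      simp only [Finset.sdiff_singleton_eq_erase] at hAB
      rw [← Finset.insert_erase hA.2, hAB, Finset.insert_erase hB.2]
  rw [h1, h, mapC]
  refine Finset.card_image_le.trans ?_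
  rw [← Nat.card_eq_finsetCard]
  exact Nat.card_le_card_of_injective _ Subtype.val_injective

end Links

section Coacy

variable {H : Subgroup (Gam n k)} {π : Lat k n → V}

/-- the induced map of chains -/
noncomputable def proj (π : Lat k n → V) : Ch (Lat k n) →ₗ[ZMod 2] Ch V :=
  Finsupp.lmapDomain (ZMod 2) (ZMod 2) fun s => s.image π

omit [DecidableEq (Lat k n)] in
theorem proj_sg (π : Lat k n → V) (s : Finset (Lat k n)) : proj π (sg s) = sg (s.image π) := by
  simp [proj, sg]

theorem proj_bd (hp : IsProj H π) {c : ℕ} {x : Ch (Lat k n)} (hx : x ∈ On (Sz XInf c)) :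
    proj π (bd x) = bd (proj π x) := by
  have h : (proj π ∘ₗ bd + bd ∘ₗ proj π : Ch (Lat k n) →ₗ[ZMod 2] Ch V) x
      ∈ (⊥ : Submodule (ZMod 2) (Ch V)) := by
    refine map_On'_q _ (fun s hs => ?_) hx
    rw [Submodule.mem_bot, LinearMap.add_apply, LinearMap.comp_apply, LinearMap.comp_apply,
      proj_sg, bd_sg, bd_sg, map_sum, Finset.sum_image (hp.injOn hs.1), ← Finset.sum_add_distrib]
    refine Finset.sum_eq_zero fun y hy => ?_
    rw [proj_sg, hp.image_erase hs.1 hy, add_self']
  rw [Submodule.mem_bot, LinearMap.add_apply, LinearMap.comp_apply, LinearMap.comp_apply] at h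
  calc proj π (bd x) = proj π (bd x) + (bd (proj π x) + bd (proj π x)) := by
        rw [add_self', add_zero]
    _ = bd (proj π x) := by rw [← add_assoc, h, zero_add]

theorem proj_rel (hp : IsProj H π) {c : ℕ} {x : Ch (Lat k n)}
    (hx : x ∈ Rel gamAct (H : Set (Gam n k)) XInf c) : proj π x = 0 := by
  refine LinearMap.mem_ker.mp ((Submodule.span_le.mpr ?_) hx)
  rintro _ ⟨g, hg, s, hs, rfl⟩
  rw [SetLike.mem_coe, LinearMap.mem_ker, map_add, proj_sg, proj_sg,
    hp.image_act (SetLike.mem_coe.mp hg) hs.1, add_self']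

/-- a chosen face above a face of the image -/
noncomputable def up (π : Lat k n → V) (t : Finset V) : Finset (Lat k n) := by
  classical
  exact if h : ∃ s, XInf s ∧ s.image π = t then h.choose else ∅

omit [DecidableEq (Lat k n)] in
theorem up_spec {t : Finset V} (h : ∃ s, XInf s ∧ s.image π = t) :
    XInf (up π t) ∧ (up π t).image π = t := by
  rw [up, dif_pos h]
  exact h.choose_spec

/-- chosen lifts of chains -/
noncomputable def upMap (π : Lat k n → V) : Ch V →ₗ[ZMod 2] Ch (Lat k n) :=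
  Finsupp.lmapDomain (ZMod 2) (ZMod 2) (up π)

omit [DecidableEq (Lat k n)] in
theorem upMap_sg (π : Lat k n → V) (t : Finset V) : upMap π (sg t) = sg (up π t) := by
  simp [upMap, sg]

theorem acy_image (hp : IsProj H π) {P : Finset V → Prop}
    (hP : ∀ t, P t ↔ ∃ s, XInf s ∧ s.image π = t) {v : V} (hv : P {v}) {M : ℕ}
    (hM : CoAcy gamAct (H : Set (Gam n k)) XInf M) : Acy P M := by
  intro c hc z hz hb
  rcases c with _ | c
  · obtain ⟨h1, h2⟩ := zero_card_cycle hv hz
    exact ⟨_, h2, h1⟩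
  have hupz : upMap π z ∈ On (Sz XInf (c + 1)) := by
    refine map_On'_q _ (fun t ht => ?_) hz
    obtain ⟨h1, h2⟩ := up_spec ((hP t).mp ht.1)
    rw [upMap_sg]
    exact sg_mem ⟨h1, by rw [← hp.card_image h1, h2, ht.2]⟩
  have hpu : proj π (upMap π z) = z := by
    have h : (proj π ∘ₗ upMap π + LinearMap.id : Ch V →ₗ[ZMod 2] Ch V) z
        ∈ (⊥ : Submodule (ZMod 2) (Ch V)) := by
      refine map_On'_q _ (fun t ht => ?_) hz
      rw [Submodule.mem_bot, LinearMap.add_apply, LinearMap.comp_apply, LinearMap.id_apply,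
        upMap_sg, proj_sg, (up_spec ((hP t).mp ht.1)).2, add_self']
    rw [Submodule.mem_bot, LinearMap.add_apply, LinearMap.comp_apply, LinearMap.id_apply] at h
    calc proj π (upMap π z) = proj π (upMap π z) + (z + z) := by rw [add_self', add_zero]
      _ = z := by rw [← add_assoc, h, zero_add]
  have hbz : bd (upMap π z) ∈ On (Sz XInf c) := by
    refine map_On bd (fun s hs => ?_) hupz
    rw [bd_sg]
    exact Submodule.sum_mem _ fun x hx => sg_mem
      ⟨XInf_mono hs.1 (Finset.erase_subset _ _), by rw [Finset.card_erase_of_mem hx, hs.2]; rfl⟩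
  have hrel : bd (upMap π z) ∈ Rel gamAct (H : Set (Gam n k)) XInf c := by
    have h : (LinearMap.id + upMap π ∘ₗ proj π : Ch (Lat k n) →ₗ[ZMod 2] Ch (Lat k n))
        (bd (upMap π z)) ∈ Rel gamAct (H : Set (Gam n k)) XInf c := by
      refine map_On _ (fun s hs => ?_) hbz
      obtain ⟨h1, h2⟩ := up_spec (π := π) ⟨s, hs.1, rfl⟩
      obtain ⟨g, hg, hgs⟩ := hp.exists_translate hs.1 h1 h2.symm
      rw [LinearMap.add_apply, LinearMap.id_apply, LinearMap.comp_apply, proj_sg, upMap_sg, ← hgs]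
      exact gen_mem_Rel (SetLike.mem_coe.mpr hg) hs
    simpa [proj_bd hp hupz, hpu, hb] using h
  obtain ⟨w, hw, hwz⟩ := hM (c + 1) (by omega) hc _ hupz (by simpa using hrel)
  refine ⟨proj π w, map_On'_q _ (fun s hs => ?_) hw, ?_⟩
  · rw [proj_sg]
    exact sg_mem ⟨(hP _).mpr ⟨s, hs.1, rfl⟩, by rw [hp.card_image hs.1, hs.2]⟩
  · have h := proj_rel hp hwz
    rw [map_add, hpu, proj_bd hp hw] at h
    calc bd (proj π w) = z + z + bd (proj π w) := by rw [add_self', zero_add]
      _ = z := by rw [add_assoc, h, add_zero]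

end Coacy

end Vale.Agent.P067.KO.Quot

namespace Vale.Agent.P067.KO

open Finset Vale.Agent.P067.Sub Vale.Agent.P067.KO.Quot

/-- E: the finite quotients -/
theorem quotient (hact : GamActStmt) (hrig : RigidStmt) (hlink : LinkModelStmt)
    (hpure : OppPureStmt) : QuotientStmt := by
  intro k _ _ n _ _ hn m₁
  refine ⟨Nat.card (Finset (Submodule k (Fin n → k))), fun n₀ => ?_⟩
  classical
  obtain ⟨hone, hmul, hinv⟩ := hact k n
  obtain ⟨m₀, hm₀⟩ := hrig k n (by omega)
  refine ⟨max m₁ (m₀ + n₀ + 1), le_max_left _ _, ?_⟩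
  set m := max m₁ (m₀ + n₀ + 1) with hm
  have hmm : m₀ + n₀ + 1 ≤ m := le_max_right _ _
  let S : Setoid {L : Lat k n // InWindow L} :=
    { r := fun L L' => ∃ g ∈ cong k n m, gamAct g L.1 = L'.1
      iseqv :=
        ⟨fun L => ⟨1, one_mem _, gamAct_one_q _⟩,
          fun {L L'} ⟨g, hg, h⟩ => ⟨g⁻¹, inv_mem hg, by rw [← h, gamAct_inv]⟩,
          fun {L L' L''} ⟨g, hg, h⟩ ⟨g', hg', h'⟩ =>
            ⟨g' * g, mul_mem hg' hg, by rw [gamAct_mul_q, h, h']⟩⟩ }
  have hfin : Finite (Quotient S) :=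
    finite_orbits m (Quotient.mk S) Quotient.mk_surjective
      fun L L' g hg h => Quotient.sound ⟨g, hg, h⟩
  let e := Finite.equivFin (Quotient S)
  let base : {L : Lat k n // InWindow L} := ⟨_, inWindow_std0 (k := k) (n := n) (by omega)⟩
  let π : Lat k n → Fin (Nat.card (Quotient S)) := fun L =>
    if h : InWindow L then e (Quotient.mk S ⟨L, h⟩) else e (Quotient.mk S base)
  have hp : IsProj (cong k n m) π :=
    { inv := hinv
      far := fun g hg => (hm₀ m (by omega) g hg).1
      eq_iff := fun L L' hL hL' => by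
        simp only [π, dif_pos hL, dif_pos hL', EmbeddingLike.apply_eq_iff_eq]
        exact Quotient.eq
      surj := fun v => by
        obtain ⟨⟨L, hL⟩, h⟩ := Quotient.mk_surjective (e.symm v)
        exact ⟨L, hL, by simp only [π, dif_pos hL, h, Equiv.apply_symm_apply]⟩ }
  have hface : ∀ v, IsFace (tops π) {v} := fun v => by
    obtain ⟨L, hL, rfl⟩ := hp.surj v
    exact (face_tops (by omega) hlink hpure).mpr
      ⟨{L}, XInf_singleton hL, Finset.image_singleton _ _⟩
  refine ⟨Nat.card (Quotient S), ?_, tops π, ?_, degLE_tops hp hlink, hface,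
    link_tops hp hlink, fun M hM => ?_⟩
  · let p : Fin (n₀ + 1) → Fin (Nat.card (Quotient S)) := fun i =>
      π (gamAct (mono (by omega) (m₀ + i.1)) (stdLat fun _ => 0))
    have hpi : Function.Injective p := by
      intro i j hij
      have hw : InWindow (stdLat (fun _ => 0) : Lat k n) := inWindow_std0 (by omega)
      obtain ⟨h, hh, heq⟩ :=
        (hp.eq_iff _ _ (inWindow_gamAct_q _ hw) (inWindow_gamAct_q _ hw)).mp hij
      rw [← gamAct_mul_q] at heq
      have hfix := (hm₀ m₀ le_rfl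
        ((mono (by omega) (m₀ + j.1))⁻¹ * (h * mono (by omega) (m₀ + i.1)))
        (mul_mem (inv_mem (mono_mem_cong _ (by omega)))
          (mul_mem (cong_antitone (by omega) hh) (mono_mem_cong _ (by omega))))).2
        _ hw (by rw [gamAct_mul_q, heq, gamAct_inv])
      rw [inv_mul_eq_one] at hfix
      have := mono_sep (e := m₀ + i.1) (e' := m₀ + j.1) (by omega) (by omega) hh hfix
      exact Fin.ext (by omega)
    have := Nat.card_le_card_of_injective p hpi
    simp only [Nat.card_fin] at this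
    omega
  · intro T hT
    obtain ⟨s, hs, hsn, rfl⟩ := mem_tops.mp hT
    rw [hp.card_image hs, hsn]
  · exact acy_image hp (fun t => face_tops (by omega) hlink hpure)
      (hface (π (stdLat fun _ => 0))) hM

end Vale.Agent.P067.KO
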