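import Vale.Agent.P067.KO.Pins
import Vale.Agent.P067.KO.LatFacts

/-!
Deep congruence subgroups move lattices far: a matrix congruent to one modulo a high power of the
variable whose entries have small degree is one.
-/

namespace Vale.Agent.P067.KO

open Finset Polynomial

variable {k : Type*} [Field k] {n : ℕ}

theorem eq_one_of_small {m : ℕ} (hm : 0 < m) {x : Gam n k} (hx : x ∈ cong k n m)
    {a b : Fin n → ℤ} (hab : ∀ i j, b i - a j < (m : ℤ))
    (hle : gamAct x (stdLat a) ≤ stdLat b) : x = 1 := by
  classical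
  have h1 : (x : Matrix (Fin n) (Fin n) (Polynomial k)).map
      (Ideal.Quotient.mk (Ideal.span {(X : Polynomial k) ^ m})) = 1 := by
    have := congrArg (fun y : Matrix.SpecialLinearGroup (Fin n)
      (Polynomial k ⧸ Ideal.span {(X : Polynomial k) ^ m}) => y.1)
      (MonoidHom.mem_ker.mp hx)
    simpa [Matrix.SpecialLinearGroup.map_apply_coe] using this
  refine Subtype.ext (Matrix.ext fun i j => ?_)
  have h2 := congrFun (congrFun h1 i) j
  have h3 : (X : Polynomial k) ^ m ∣ x.1 i j - (1 : Matrix (Fin n) (Fin n) (Polynomial k)) i j := by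
    rw [← Ideal.mem_span_singleton, ← Ideal.Quotient.mk_eq_mk_iff_sub_mem]
    rw [Matrix.map_apply] at h2
    rw [h2, Matrix.one_apply, Matrix.one_apply]
    split_ifs <;> simp
  show x.1 i j = (1 : Matrix (Fin n) (Fin n) (Polynomial k)) i j
  by_contra hne
  have hd : m ≤ (x.1 i j - (1 : Matrix (Fin n) (Fin n) (Polynomial k)) i j).natDegree := by
    simpa using Polynomial.natDegree_le_of_dvd h3 (sub_ne_zero.mpr hne)
  have hsub := Polynomial.natDegree_sub_le (x.1 i j)
    ((1 : Matrix (Fin n) (Fin n) (Polynomial k)) i j)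
  have hone : ((1 : Matrix (Fin n) (Fin n) (Polynomial k)) i j).natDegree = 0 := by
    rw [Matrix.one_apply]
    split_ifs <;> simp
  have hdeg := gamAct_std_le_iff.mp hle i j
  by_cases h0 : x.1 i j = 0
  · rw [h0, zero_sub, natDegree_neg, hone] at hd
    refine hne (h0.trans ?_)
    by_cases hij : i = j
    · subst hij
      exfalso
      omega
    · rw [Matrix.one_apply_ne hij]
  · have := natDegree_le_of_dle h0 hdeg
    have := hab i j
    omega

theorem rigid : RigidStmt := by
  intro k _ _ n _ hn
  refine ⟨4, fun m hm g hg => ⟨fun L M L' hLM hML' hgL => ?_, fun L hL hgL => ?_⟩⟩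
  all_goals have hnorm : (cong k n m).Normal := MonoidHom.normal_ker _
  · obtain ⟨a, ha, -, h, rfl⟩ := hLM.1 L (Finset.mem_insert_self L {M})
    have h1 : M ≤ shift (gamAct h (stdLat a)) :=
      (hLM.2 _ (Finset.mem_insert_self _ _) M
        (Finset.mem_insert_of_mem (Finset.mem_singleton_self M))).2
    have h2 : L' ≤ shift M := (hML'.2 _ (Finset.mem_insert_self _ _) L'
        (Finset.mem_insert_of_mem (Finset.mem_singleton_self L'))).2
    have h3 : gamAct g (gamAct h (stdLat a)) ≤ gamAct h (stdLat fun i => a i + 2) := by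
      rw [hgL]
      refine h2.trans ((shift_le_iff.mpr h1).trans (le_of_eq ?_))
      rw [← gamAct_shift, ← gamAct_shift, shift_stdLat, shift_stdLat]
      congr 2
      funext i
      ring
    have h4 : gamAct (h⁻¹ * g * h) (stdLat a) ≤ stdLat fun i => a i + 2 := by
      have := gamAct_mono h⁻¹ h3
      rw [← gamAct_mul, ← gamAct_mul, ← gamAct_mul, inv_mul_cancel, gamAct_one] at this
      exact this
    have h5 := eq_one_of_small (by omega) (hnorm.conj_mem' g hg h) (fun i j => by
      rcases ha i with e | e <;> rcases ha j with e' | e' <;> omega) h4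
    rw [mul_assoc, inv_mul_eq_one] at h5
    have h6 : g = 1 := mul_eq_right.mp h5.symm
    rw [← hgL, h6, gamAct_one]
  · obtain ⟨a, ha, -, h, rfl⟩ := hL
    have h4 : gamAct (h⁻¹ * g * h) (stdLat a) ≤ stdLat a := by
      have := congrArg (gamAct h⁻¹) hgL
      rw [← gamAct_mul, ← gamAct_mul, ← gamAct_mul, inv_mul_cancel, gamAct_one] at this
      rw [this]
    have h5 := eq_one_of_small (by omega) (hnorm.conj_mem' g hg h) (fun i j => by
      rcases ha i with e | e <;> rcases ha j with e' | e' <;> omega) h4
    rw [mul_assoc, inv_mul_eq_one] at h5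
    exact mul_eq_right.mp h5.symm

end Vale.Agent.P067.KO
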