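import Vale.Agent.P067.KO.Acy

/-!
Acyclicity of the coinvariants of a complex with a group action, without forming quotients, and
the free complex on countably many copies of a group.
-/

namespace Vale.Agent.P067.KO

open Finset Vale.Agent.P067.Sub

variable {G α : Type*} [DecidableEq α]

/-- the span of the differences of translates, in one size -/
noncomputable def Rel (act : G → α → α) (H : Set G) (P : Finset α → Prop) (c : ℕ) : Submodule (ZMod 2) (Ch α) :=
  Submodule.span (ZMod 2)
    {x | ∃ g ∈ H, ∃ s : Finset α, Sz P c s ∧ x = sg s + sg (s.image (act g))}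

/-- the coinvariants of `P` have no reduced homology in sizes below `m` -/
def CoAcy (act : G → α → α) (H : Set G) (P : Finset α → Prop) (m : ℕ) : Prop :=
  ∀ c, 1 ≤ c → c < m → ∀ z ∈ On (Sz P c), bd z ∈ Rel act H P (c - 1) →
    ∃ w ∈ On (Sz P (c + 1)), z + bd w ∈ Rel act H P c

/-- a complex with an action under which it is preserved and nonempty faces have trivial
stabilisers -/
structure FreeOn [Group G] (act : G → α → α) (H : Subgroup G) (P : Finset α → Prop) : Prop where
  down : Down P
  one : ∀ a, act 1 a = a
  mul : ∀ g h a, act (g * h) a = act g (act h a)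
  invariant : ∀ g ∈ H, ∀ s, P s → P (s.image (act g))
  free : ∀ g ∈ H, ∀ s, P s → s.Nonempty → s.image (act g) = s → g = 1

/-- finite sets meeting every copy of the group at most once -/
def MilnorFace {G : Type*} (s : Finset (G × ℕ)) : Prop :=
  Set.InjOn Prod.snd (s : Set (G × ℕ))

/-- left multiplication on the copies -/
def milnorAct {G : Type*} [Group G] (g : G) (x : G × ℕ) : G × ℕ := (g * x.1, x.2)

end Vale.Agent.P067.KO
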