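import Mathlib

/-!
The congruence subgroups of the special linear group over a polynomial ring, lattices over the
valuation ring at infinity, and the complex of lattices with degrees zero and one.
-/

namespace Vale.Agent.P067.KO

open Polynomial

/-- the special linear group over the polynomial ring -/
abbrev Gam (n : ℕ) (k : Type*) [Field k] := Matrix.SpecialLinearGroup (Fin n) (Polynomial k)

variable (k : Type*) [Field k]

/-- the congruence subgroup modulo the `m`-th power of the variable -/
noncomputable def cong (n m : ℕ) : Subgroup (Gam n k) :=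
  (Matrix.SpecialLinearGroup.map (n := Fin n)
    (Ideal.Quotient.mk (Ideal.span {(X : Polynomial k) ^ m}))).ker

/-- rational functions without pole at infinity -/
noncomputable def inftyRing : Subring (RatFunc k) where
  carrier := {f | f.intDegree ≤ 0}
  mul_mem' := by
    intro f g hf hg
    simp only [Set.mem_setOf_eq] at hf hg ⊢
    by_cases h1 : f = 0
    · simp [h1]
    by_cases h2 : g = 0
    · simp [h2]
    rw [RatFunc.intDegree_mul h1 h2]
    omega
  one_mem' := by simp
  add_mem' := by
    intro f g hf hg
    simp only [Set.mem_setOf_eq] at hf hg ⊢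
    by_cases h2 : g = 0
    · simpa [h2] using hf
    by_cases h3 : f + g = 0
    · simp [h3]
    exact (RatFunc.intDegree_add_le h2 h3).trans (max_le hf hg)
  zero_mem' := by simp
  neg_mem' := by
    intro f hf
    simpa [RatFunc.intDegree_neg] using hf

/-- lattices in the space of columns of rational functions -/
abbrev Lat (n : ℕ) := Submodule (inftyRing k) (Fin n → RatFunc k)

variable {k} {n : ℕ}

/-- the standard lattice with degrees `a` -/
noncomputable def stdLat (a : Fin n → ℤ) : Lat k n where
  carrier := {v | ∀ i, v i = 0 ∨ (v i).intDegree ≤ a i}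
  add_mem' := by
    intro u v hu hv i
    by_cases h2 : v i = 0
    · simpa [h2] using hu i
    by_cases h1 : u i = 0
    · simpa [h1] using hv i
    by_cases h3 : u i + v i = 0
    · exact Or.inl h3
    exact Or.inr ((RatFunc.intDegree_add_le h2 h3).trans
      (max_le ((hu i).resolve_left h1) ((hv i).resolve_left h2)))
  zero_mem' := fun i => Or.inl rfl
  smul_mem' := by
    intro c v hv i
    by_cases hc : (c : RatFunc k) = 0
    · left
      simp [Subring.smul_def, hc]
    by_cases hv0 : v i = 0
    · left
      simp [Subring.smul_def, hv0]
    right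
    have hd : (c : RatFunc k).intDegree ≤ 0 := c.2
    simp only [Subring.smul_def, Pi.smul_apply, smul_eq_mul]
    rw [RatFunc.intDegree_mul hc hv0]
    have := (hv i).resolve_left hv0
    omega

/-- a matrix of rational functions acting on columns, linearly over the ring at infinity -/
noncomputable def mulVecLat (A : Matrix (Fin n) (Fin n) (RatFunc k)) :
    (Fin n → RatFunc k) →ₗ[inftyRing k] (Fin n → RatFunc k) :=
  (Matrix.mulVecLin A).restrictScalars (inftyRing k)

/-- the image of a lattice under an element of the group -/
noncomputable def gamAct (g : Gam n k) (L : Lat k n) : Lat k n :=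
  L.map (mulVecLat ((g : Matrix (Fin n) (Fin n) (Polynomial k)).map
    (algebraMap (Polynomial k) (RatFunc k))))

/-- multiplication of a lattice by the variable -/
noncomputable def shift (L : Lat k n) : Lat k n :=
  L.map ((LinearMap.lsmul (RatFunc k) (Fin n → RatFunc k) RatFunc.X).restrictScalars (inftyRing k))

/-- the lattice is a bundle with degrees `a` -/
def HasDeg (L : Lat k n) (a : Fin n → ℤ) : Prop := ∃ g : Gam n k, L = gamAct g (stdLat a)

/-- degrees zero and one, not all one -/
def InWindow (L : Lat k n) : Prop :=
  ∃ a : Fin n → ℤ, (∀ i, a i = 0 ∨ a i = 1) ∧ (∃ i, a i = 0) ∧ HasDeg L a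

/-- the faces of the lattice complex: short chains in the window -/
def XInf (s : Finset (Lat k n)) : Prop :=
  (∀ L ∈ s, InWindow L) ∧ ∀ L ∈ s, ∀ L' ∈ s, (L ≤ L' ∨ L' ≤ L) ∧ L' ≤ shift L

end Vale.Agent.P067.KO
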