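import Vale.Agent.P067.KO.Cplx

/-!
The opposition complex of a subspace: chains of proper nonzero subspaces transversal to it.
-/

namespace Vale.Agent.P067.KO

open Finset

variable {k : Type*} [Field k] [Fintype k] {M : Type*} [AddCommGroup M] [Module k M] [Finite M]

/-- transversal to `F` -/
def Trans (F W : Submodule k M) : Prop := W ⊓ F = ⊥ ∨ W ⊔ F = ⊤

/-- vertices of the opposition complex -/
def IsOppVert (F W : Submodule k M) : Prop := W ≠ ⊥ ∧ W ≠ ⊤ ∧ Trans F W

/-- faces of the opposition complex -/
def OppFace (F : Submodule k M) (s : Finset (Submodule k M)) : Prop :=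
  (∀ W ∈ s, IsOppVert F W) ∧ ∀ W ∈ s, ∀ W' ∈ s, W ≤ W' ∨ W' ≤ W

/-- top faces of the opposition complex: full flags of transversal subspaces -/
noncomputable def oppTops (F : Submodule k M) : Finset (Finset (Submodule k M)) := by
  classical
  haveI : Fintype (Submodule k M) := Fintype.ofFinite _
  exact univ.filter fun s => OppFace F s ∧ s.card + 1 = Module.finrank k M

end Vale.Agent.P067.KO
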