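import Vale.Agent.P067.Defs
import Vale.Agent.P067.KO.CoAcy
import Vale.Agent.P067.KO.Opp
import Vale.Agent.P067.KO.Lattice

/-!
The interfaces between the modules of the construction of bounded degree coboundary expanders in
every dimension. Each statement is proved in the file of its module and assembled in the main file.
-/

namespace Vale.Agent.P067.KO

open Finset Vale.Agent.P067.Sub

/-- the goal: the question in the weights and norms of the problem -/
def MainStmt : Prop :=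
  ∀ d : ℕ, 1 ≤ d → ∃ D : ℕ, ∃ ε : ℝ, 0 < ε ∧ ∀ n₀ : ℕ, ∃ N : ℕ, n₀ ≤ N ∧
    ∃ F : Finset (Finset (Fin N)), IsPure d F ∧ DegreeLE D F ∧ IsCobExpander d F ε ∧
      ∀ u v, Relation.ReflTransGen (fun a b => ∃ τ ∈ F, a ∈ τ ∧ b ∈ τ) u v

/-- K: local to global -/
def LocalToGlobalStmt : Prop :=
  ∀ d D : ℕ, d + 1 ≤ D → ∀ β : ℝ, 0 < β → ∃ lam : ℝ, 0 < lam ∧ ∀ Δ : ℕ, ∃ C : ℕ,
    ∀ (V : Type) [DecidableEq V] (X : Finset (Finset V)), TopCard (D + 1) X → DegLE Δ X →
      LinkExp d β X → MixLinks d lam X → ∀ k, 1 ≤ k → k ≤ d → ∀ f : Finset V → ZMod 2,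
        ∃ z : Finset V → ZMod 2, (∀ t ∈ kf X (k + 1), dl z t = 0) ∧
          ((kf X k).filter fun s => f s ≠ z s).card ≤
            C * ((kf X (k + 1)).filter fun t => dl f t ≠ 0).card

/-- J: trickling down to mixing -/
def TrickleStmt : Prop :=
  ∀ D : ℕ, 2 ≤ D → ∀ ε : ℝ, 0 < ε → ∃ lam : ℝ, 0 < lam ∧
    ∀ (V : Type) [DecidableEq V] (X : Finset (Finset V)), TopCard (D + 1) X →
      (∀ σ, IsFace X σ → σ.card + 2 ≤ D → Conn (link X σ)) →
      (∀ σ, IsFace X σ → σ.card + 1 = D → Gap lam (link X σ)) →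
      ∀ d, d + 1 ≤ D → MixLinks d ε X

/-- I2: connectivity and spectral gap of the links in opposition complexes -/
def OppSpecStmt : Prop :=
  ∀ n : ℕ, 3 ≤ n → ∀ ε : ℝ, 0 < ε → ∃ q₀ : ℕ,
    ∀ (k : Type) [Field k] [Fintype k], q₀ ≤ Fintype.card k →
    ∀ (M : Type) [AddCommGroup M] [Module k M] [Finite M] [DecidableEq (Submodule k M)],
      Module.finrank k M = n → ∀ F : Submodule k M, ∀ τ, OppFace F τ →
        (τ.card + 4 ≤ n → Conn (link (oppTops F) τ)) ∧
        (τ.card + 3 = n → Gap ε (link (oppTops F) τ))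

/-- I: coboundary expansion of the links in opposition complexes, uniform in the field -/
def OppExpStmt : Prop :=
  ∀ n d : ℕ, 4 * (d + 3) ^ 2 ≤ n → ∃ β : ℝ, 0 < β ∧
    ∀ (k : Type) [Field k] [Fintype k] (M : Type) [AddCommGroup M] [Module k M] [Finite M]
      [DecidableEq (Submodule k M)],
      Module.finrank k M = n → ∀ F : Submodule k M, ∀ τ, OppFace F τ →
        ∀ i, 1 ≤ i → τ.card + i ≤ d → ∀ f : Finset (Submodule k M) → ZMod 2,
          ∃ h : Finset (Submodule k M) → ZMod 2,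
            β * nrm (link (oppTops F) τ) i (f + dl h) ≤
              nrm (link (oppTops F) τ) (i + 1) (dl f)

/-- C: fillings in links of opposition complexes, of size independent of the field; and purity -/
def OppAcyStmt : Prop :=
  ∀ n d : ℕ, 4 * (d + 3) ^ 2 ≤ n → ∃ L : ℕ → ℕ,
    ∀ (k : Type) [Field k] [Fintype k] (M : Type) [AddCommGroup M] [Module k M] [Finite M]
      [DecidableEq (Submodule k M)],
      Module.finrank k M = n → ∀ F : Submodule k M, ∀ τ, OppFace F τ → τ.card ≤ d →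
        AcyB L (fun s => Disjoint s τ ∧ OppFace F (s ∪ τ)) (d + 2 - τ.card)

/-- C: purity of opposition complexes -/
def OppPureStmt : Prop :=
  ∀ (k : Type) [Field k] [Fintype k] (M : Type) [AddCommGroup M] [Module k M] [Finite M]
    [DecidableEq (Submodule k M)] (F : Submodule k M) (τ : Finset (Submodule k M)),
    1 ≤ Module.finrank k M → OppFace F τ → ∃ T ∈ oppTops F, τ ⊆ T

/-- chains of subspaces transversal to `A`, or to `B` and not containing `C` -/
def SFace {k : Type*} [Field k] {M : Type*} [AddCommGroup M] [Module k M]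
    (A B C : Submodule k M) (s : Finset (Submodule k M)) : Prop :=
  (∀ W ∈ s, (W ≠ ⊥ ∧ W ⊓ A = ⊥) ∨ (W ≠ ⊤ ∧ W ⊔ B = ⊤ ∧ ¬ C ≤ W)) ∧
    ∀ W ∈ s, ∀ W' ∈ s, W ≤ W' ∨ W' ≤ W

/-- C: acyclicity of the links met when lattices are removed -/
def SAcyStmt : Prop :=
  ∀ (k : Type) [Field k] [Fintype k] (M : Type) [AddCommGroup M] [Module k M] [Finite M]
    [DecidableEq (Submodule k M)] (A B C : Submodule k M) (m : ℕ),
    C ≤ A → A ≤ B → C ≠ ⊥ → 3 * m ≤ Module.finrank k M → Acy (SFace A B C) m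

/-- D: the action on lattices -/
def GamActStmt : Prop :=
  ∀ (k : Type) [Field k] [Fintype k] (n : ℕ) [DecidableEq (Lat k n)],
    (∀ L : Lat k n, gamAct 1 L = L) ∧
    (∀ (g h : Gam n k) (L : Lat k n), gamAct (g * h) L = gamAct g (gamAct h L)) ∧
    (∀ (g : Gam n k) (s : Finset (Lat k n)), XInf s → XInf (s.image (gamAct g)))

/-- D: the lattice complex is acyclic in low degrees -/
def XInfAcyStmt : Prop :=
  ∀ (k : Type) [Field k] [Fintype k] (n m : ℕ) [DecidableEq (Lat k n)],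
    3 * m + 3 ≤ n → Acy (XInf (k := k) (n := n)) m

/-- D: links of vertices are opposition complexes -/
def LinkModelStmt : Prop :=
  ∀ (k : Type) [Field k] [Fintype k] (n : ℕ) [DecidableEq (Lat k n)]
    [DecidableEq (Submodule k (Fin n → k))] (L : Lat k n), InWindow L →
    ∃ (F : Submodule k (Fin n → k)) (ψ : Submodule k (Fin n → k) → Lat k n),
      Set.InjOn ψ {W | IsOppVert F W} ∧
      ∀ τ : Finset (Lat k n), (L ∉ τ ∧ XInf (insert L τ)) ↔
        ∃ c, OppFace F c ∧ τ = c.image ψ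

/-- D: deep congruence subgroups act freely and far -/
def RigidStmt : Prop :=
  ∀ (k : Type) [Field k] [Fintype k] (n : ℕ) [DecidableEq (Lat k n)], 2 ≤ n → ∃ m₀ : ℕ,
    ∀ m, m₀ ≤ m → ∀ g ∈ cong k n m,
      (∀ L M L' : Lat k n, XInf {L, M} → XInf {M, L'} → gamAct g L = L' → L' = L) ∧
      (∀ L : Lat k n, InWindow L → gamAct g L = L → g = 1)

/-- E: the finite quotients -/
def QuotientStmt : Prop :=
  ∀ (k : Type) [Field k] [Fintype k] (n : ℕ) [DecidableEq (Lat k n)]
    [DecidableEq (Submodule k (Fin n → k))], 3 ≤ n → ∀ m₁ : ℕ, ∃ Δ : ℕ, ∀ n₀ : ℕ,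
    ∃ m, m₁ ≤ m ∧ ∃ N, n₀ ≤ N ∧ ∃ X : Finset (Finset (Fin N)),
      TopCard n X ∧ DegLE Δ X ∧ (∀ v, IsFace X {v}) ∧
      (∀ v, ∃ (F : Submodule k (Fin n → k)) (ψ : Submodule k (Fin n → k) → Fin N),
        Set.InjOn ψ {W | IsOppVert F W} ∧ link X {v} = mapC ψ (oppTops F)) ∧
      ∀ M, CoAcy gamAct (cong k n m : Set (Gam n k)) XInf M → Acy (IsFace X) M

/-- E: the quotient by the first congruence subgroup is a cone over the building -/
def FirstQuotientStmt : Prop :=
  ∀ (k : Type) [Field k] [Fintype k] (n M : ℕ) [DecidableEq (Lat k n)], 2 ≤ n →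
    CoAcy gamAct (cong k n 1 : Set (Gam n k)) XInf M

/-- partial bases -/
def PB (R : Type*) [CommRing R] (n : ℕ) (s : Finset (Fin n → R)) : Prop :=
  ∃ g : Matrix (Fin n) (Fin n) R, IsUnit g.det ∧ ∀ v ∈ s, ∃ i, v = fun j => g j i

/-- the group acting on columns -/
noncomputable def colAct {k : Type*} [Field k] {n : ℕ} (g : Gam n k)
    (v : Fin n → Polynomial k) : Fin n → Polynomial k :=
  Matrix.mulVec (g : Matrix (Fin n) (Fin n) (Polynomial k)) v

/-- G: partial bases over the polynomial ring, and their coinvariants -/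
def PartialBasisStmt : Prop :=
  ∀ (k : Type) [Field k] [Fintype k] [DecidableEq k] (n m : ℕ), 1 ≤ m →
    Acy (PB (Polynomial k) n) n ∧
    CoAcy colAct (cong k n m : Set (Gam n k)) (PB (Polynomial k) n) n

/-- G: the group is generated by transvections modulo a congruence subgroup -/
def ElementaryStmt : Prop :=
  ∀ (k : Type) [Field k] (n m : ℕ) (H : Subgroup (Gam n k)), 1 ≤ m → cong k n m ≤ H →
    (∀ g : Gam n k, (∃ (i j : Fin n) (a : Polynomial k), i ≠ j ∧
      (g : Matrix (Fin n) (Fin n) (Polynomial k)) = Matrix.transvection i j a) → g ∈ H) → H = ⊤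

/-- H: from the first congruence subgroup to all of them, given a free acyclic complex in
every smaller rank -/
def VanishStmt : Prop :=
  ∀ (k : Type) [Field k] [Fintype k], (2 : k) ≠ 0 → ∀ n M : ℕ, 3 * M + 6 ≤ n →
    ∀ (α : ℕ → Type) [∀ j, DecidableEq (α j)] (act : ∀ j, Gam j k → α j → α j)
      (P : ∀ j, Finset (α j) → Prop) (m : ℕ), 1 ≤ m →
      (∀ j, 2 ≤ j → j ≤ n → FreeOn (act j) (cong k j m) (P j) ∧
        (P j ∅ ∧ ∀ g s, P j s → P j (s.image (act j g))) ∧
        ∀ M', 3 * M' + 6 ≤ j → M' ≤ M → Acy (P j) (M' + 1) ∧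
          CoAcy (act j) (cong k j 1 : Set (Gam j k)) (P j) M') →
      CoAcy (act n) (cong k n m : Set (Gam n k)) (P n) M

end Vale.Agent.P067.KO
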