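import Vale.Agent.P067.KO.Subspace
import Vale.Agent.P067.KO.Pins

/-!
Opposition complexes: purity, and acyclicity with fillings of bounded size of the links of faces;
acyclicity of the posets met when lattices are removed. All follow from the lattice lemmas applied
to the largest gap of a flag.
-/

namespace Vale.Agent.P067.KO

open Finset Vale.Agent.P067.Sub

variable {k : Type*} [Field k] {M : Type*} [AddCommGroup M] [Module k M] [FiniteDimensional k M]

theorem ranked_finrank :
    Ranked (fun W : Submodule k M => Module.finrank k W) (Module.finrank k M) where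
  mono := fun _ _ h => Submodule.finrank_lt_finrank_of_lt h
  modular := fun a b => Submodule.finrank_sup_add_finrank_inf_eq a b
  le := fun W => Submodule.finrank_le W
  atom := by
    intro a b Z H haZ hZb hH
    obtain ⟨z, hzb, hzZ⟩ := SetLike.exists_of_lt hZb
    obtain ⟨h, hhb, hhH⟩ := SetLike.not_le_iff_exists.1 hH
    obtain ⟨v, hvb, hvZ, hvH⟩ : ∃ v ∈ b, v ∉ Z ∧ v ∉ H := by
      by_cases h1 : z ∈ H
      · by_cases h2 : h ∈ Z
        · exact ⟨z + h, add_mem hzb hhb, fun h' => hzZ ((Submodule.add_mem_iff_left Z h2).1 h'),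
            fun h' => hhH ((Submodule.add_mem_iff_right H h1).1 h')⟩
        · exact ⟨h, hhb, h2, hhH⟩
      · exact ⟨z, hzb, hzZ, h1⟩
    have hva : v ∉ a := fun h' => hvZ (haZ h')
    have hlt : a < a ⊔ k ∙ v := lt_of_le_of_ne le_sup_left fun e => hva <| by
      rw [e]
      exact Submodule.mem_sup_right (Submodule.mem_span_singleton_self v)
    refine ⟨a ⊔ k ∙ v, hlt, sup_le (haZ.trans hZb.le)
      ((Submodule.span_singleton_le_iff_mem v b).2 hvb), le_antisymm ?_ ?_, ?_, ?_⟩
    · have h1 := Submodule.finrank_sup_add_finrank_inf_eq a (k ∙ v)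
      have h2 : Module.finrank k (k ∙ v : Submodule k M) = 1 :=
        finrank_span_singleton fun e => hva (e ▸ zero_mem a)
      show Module.finrank k (a ⊔ k ∙ v : Submodule k M) ≤ _
      omega
    · exact Submodule.finrank_lt_finrank_of_lt hlt
    · exact fun h' => hvZ (h' (Submodule.mem_sup_right (Submodule.mem_span_singleton_self v)))
    · exact fun h' => hvH (h' (Submodule.mem_sup_right (Submodule.mem_span_singleton_self v)))
  coatom := by
    intro a b Z H haZ hZb hH
    obtain ⟨z, hzZ, hza⟩ := SetLike.exists_of_lt haZ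
    obtain ⟨h, hhH, hha⟩ := SetLike.not_le_iff_exists.1 hH
    obtain ⟨f1, hf1, hf1a⟩ := Submodule.exists_dual_map_eq_bot_of_notMem hza inferInstance
    obtain ⟨f2, hf2, hf2a⟩ := Submodule.exists_dual_map_eq_bot_of_notMem hha inferInstance
    have hker : ∀ f : Module.Dual k M, a.map f = ⊥ → ∀ y ∈ a, f y = 0 := fun f hf y hy => by
      have : f y ∈ a.map f := Submodule.mem_map_of_mem hy
      rwa [hf, Submodule.mem_bot] at this
    obtain ⟨f, hfa, hfz, hfh⟩ : ∃ f : Module.Dual k M, (∀ y ∈ a, f y = 0) ∧ f z ≠ 0 ∧ f h ≠ 0 := by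
      by_cases h1 : f1 h = 0
      · by_cases h2 : f2 z = 0
        · exact ⟨f1 + f2, fun y hy => by simp [hker f1 hf1a y hy, hker f2 hf2a y hy],
            by simpa [h2] using hf1, by simpa [h1] using hf2⟩
        · exact ⟨f2, hker f2 hf2a, h2, hf2⟩
      · exact ⟨f1, hker f1 hf1a, hf1, h1⟩
    set x := b ⊓ LinearMap.ker f with hx
    have hbk : ¬ b ≤ LinearMap.ker f := fun h' => hfz (LinearMap.mem_ker.1 (h' (hZb hzZ)))
    have hxb : x < b := lt_of_le_of_ne inf_le_left fun e => hbk (e ▸ inf_le_right)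
    have hk : Module.finrank k (LinearMap.ker f) + 1 = Module.finrank k M := by
      have h1 := LinearMap.finrank_range_add_finrank_ker f
      have h2 : LinearMap.range f = ⊤ := LinearMap.range_eq_top.2 fun r => ⟨(r / f z) • z, by
        rw [map_smul, smul_eq_mul, div_mul_cancel₀ _ hfz]⟩
      rw [h2, finrank_top, Module.finrank_self] at h1
      omega
    refine ⟨x, le_inf (haZ.le.trans hZb) fun y hy => LinearMap.mem_ker.2 (hfa y hy), hxb, ?_,
      fun h' => hfz (LinearMap.mem_ker.1 (inf_le_right (a := b) (h' hzZ))),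
      fun h' => hfh (LinearMap.mem_ker.1 (inf_le_right (a := b) (h' hhH)))⟩
    have h1 := Submodule.finrank_sup_add_finrank_inf_eq b (LinearMap.ker f)
    have h2 := Submodule.finrank_le (b ⊔ LinearMap.ker f)
    have h3 := Submodule.finrank_lt_finrank_of_lt hxb
    show Module.finrank k (b ⊓ LinearMap.ker f : Submodule k M) + 1 = Module.finrank k b
    change Module.finrank k (b ⊓ LinearMap.ker f : Submodule k M) < Module.finrank k b at h3
    omega

omit [FiniteDimensional k M] in
theorem OppFace.down {F : Submodule k M} {s t : Finset (Submodule k M)} [Fintype k] [Finite M]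
    (hs : OppFace F s) (ht : t ⊆ s) : OppFace F t :=
  ⟨fun W hW => hs.1 W (ht hW), fun W hW W' hW' => hs.2 W (ht hW) W' (ht hW')⟩

/-- a gap of length more than `G` in a flag with at most `d` members -/
theorem exists_gap (τ : Finset (Submodule k M))
    (hchain : ∀ W ∈ τ, ∀ W' ∈ τ, W ≤ W' ∨ W' ≤ W) {d G : ℕ} (hG : 1 ≤ G) (hd : τ.card ≤ d)
    (hn : (d + 1) * G + 1 ≤ Module.finrank k M) :
    ∃ a b : Submodule k M, a < b ∧ Module.finrank k a + G + 1 ≤ Module.finrank k b ∧
      (a = ⊥ ∨ a ∈ τ) ∧ (b = ⊤ ∨ b ∈ τ) ∧ ∀ W ∈ τ, W ≤ a ∨ b ≤ W := by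
  classical
  set rk : Submodule k M → ℕ := fun W => Module.finrank k W
  have hmono : ∀ {A B' : Submodule k M}, A ≤ B' → rk A ≤ rk B' := fun h =>
    Submodule.finrank_mono h
  obtain ⟨j, hj, hjn⟩ : ∃ j ∈ Finset.range (d + 1), j ∉ τ.image fun W => (rk W - 1) / G := by
    by_contra hall
    push Not at hall
    have h1 := Finset.card_le_card (fun j hj => hall j hj :
      Finset.range (d + 1) ⊆ τ.image fun W => (rk W - 1) / G)
    have h2 := Finset.card_image_le (s := τ) (f := fun W => (rk W - 1) / G)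
    rw [Finset.card_range] at h1
    omega
  have hjd : (j + 1) * G ≤ (d + 1) * G :=
    Nat.mul_le_mul_right G (Finset.mem_range.1 hj)
  have hout : ∀ W ∈ τ, rk W ≤ j * G ∨ (j + 1) * G < rk W := fun W hW => by
    have hne : (rk W - 1) / G ≠ j := fun e => hjn (Finset.mem_image.2 ⟨W, hW, e⟩)
    rcases lt_or_gt_of_ne hne with h | h
    · have := (Nat.div_lt_iff_lt_mul (by omega)).1 h
      exact Or.inl (by omega)
    · have h' := (Nat.le_div_iff_mul_le (by omega)).1 (Nat.succ_le_of_lt h)
      simp only [Nat.succ_eq_add_one] at h'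
      have : 0 < (j + 1) * G := Nat.mul_pos (Nat.succ_pos _) hG
      exact Or.inr (by omega)
  obtain ⟨a, hra, ha, hamax⟩ : ∃ a : Submodule k M, rk a ≤ j * G ∧ (a = ⊥ ∨ a ∈ τ) ∧
      ∀ W ∈ τ, rk W ≤ j * G → W ≤ a := by
    rcases (τ.filter fun W => rk W ≤ j * G).eq_empty_or_nonempty with h | h
    · refine ⟨⊥, by simp [rk], Or.inl rfl, fun W hW hr => ?_⟩
      have : W ∈ τ.filter fun W => rk W ≤ j * G := Finset.mem_filter.2 ⟨hW, hr⟩
      simp [h] at this
    · obtain ⟨a, ha, hmax⟩ := Finset.exists_max_image _ rk h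
      obtain ⟨haτ, har⟩ := Finset.mem_filter.1 ha
      refine ⟨a, har, Or.inr haτ, fun W hW hr => ?_⟩
      rcases hchain W hW a haτ with h' | h'
      · exact h'
      · exact (Submodule.eq_of_le_of_finrank_le h' (hmax W (Finset.mem_filter.2 ⟨hW, hr⟩))).ge
  obtain ⟨b, hrb, hb, hbmin⟩ : ∃ b : Submodule k M, (j + 1) * G < rk b ∧ (b = ⊤ ∨ b ∈ τ) ∧
      ∀ W ∈ τ, (j + 1) * G < rk W → b ≤ W := by
    rcases (τ.filter fun W => (j + 1) * G < rk W).eq_empty_or_nonempty with h | h
    · refine ⟨⊤, ?_, Or.inl rfl, fun W hW hr => ?_⟩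
      · show _ < Module.finrank k (⊤ : Submodule k M)
        rw [finrank_top]
        omega
      · have : W ∈ τ.filter fun W => (j + 1) * G < rk W := Finset.mem_filter.2 ⟨hW, hr⟩
        simp [h] at this
    · obtain ⟨b, hb, hmin⟩ := Finset.exists_min_image _ rk h
      obtain ⟨hbτ, hbr⟩ := Finset.mem_filter.1 hb
      refine ⟨b, hbr, Or.inr hbτ, fun W hW hr => ?_⟩
      rcases hchain b hbτ W hW with h' | h'
      · exact h'
      · exact (Submodule.eq_of_le_of_finrank_le h' (hmin W (Finset.mem_filter.2 ⟨hW, hr⟩))).ge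
  have hab : rk a + G + 1 ≤ rk b := by
    rw [Nat.add_mul, Nat.one_mul] at hrb
    omega
  refine ⟨a, b, ?_, hab, ha, hb, fun W hW => (hout W hW).imp (hamax W hW) (hbmin W hW)⟩
  have hle : a ≤ b := by
    rcases ha with rfl | ha
    · exact bot_le
    rcases hb with rfl | hb
    · exact le_top
    rcases hchain a ha b hb with h | h
    · exact h
    · have := hmono h
      omega
  exact lt_of_le_of_ne hle fun e => by rw [e] at hab; omega

variable [Fintype k] [Finite M]

omit [FiniteDimensional k M] [Fintype k] [Finite M] in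
/-- in a gap of a flag: either everything is transversal or it is a poset of the kind `SV` -/
theorem gap_cases {F a b : Submodule k M} (hab : a ≤ b) (hta : a = ⊥ ∨ Trans F a)
    (htb : b = ⊤ ∨ Trans F b) :
    (∀ W, OI a b W → Trans F W) ∨
      ∃ F', a < F' ∧ F' < b ∧ ∀ W, (OI a b W ∧ Trans F W) ↔ SV a b F' F' F' W := by
  have key : ∀ {W : Submodule k M}, W ≤ b → b ⊓ F = ⊥ → W ⊓ F = ⊥ := fun hW h =>
    le_bot_iff.1 ((inf_le_inf_right F hW).trans_eq h)
  by_cases haF : a ⊓ F = ⊥
  swap
  · rcases hta with rfl | hta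
    · exact absurd (bot_inf_eq F) haF
    refine Or.inl fun W hW => Or.inr (le_antisymm le_top ?_)
    rw [← hta.resolve_left haF]
    exact sup_le_sup_right hW.1.le F
  by_cases hbF : b ⊔ F = ⊤
  swap
  · rcases htb with rfl | htb
    · exact absurd (top_sup_eq F) hbF
    exact Or.inl fun W hW => Or.inl (key hW.2.le (htb.resolve_right hbF))
  set F' := a ⊔ F ⊓ b with hF'
  by_cases h1 : F' = a
  · refine Or.inl fun W hW => Or.inl (key hW.2.le ?_)
    have : F ⊓ b ≤ a ⊓ F := le_inf (h1 ▸ le_sup_right) inf_le_left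
    rw [haF] at this
    rw [inf_comm]
    exact le_bot_iff.1 this
  by_cases h2 : F' = b
  · refine Or.inl fun W hW => Or.inr (le_antisymm le_top ?_)
    rw [← hbF, ← h2]
    exact sup_le (sup_le (hW.1.le.trans le_sup_left) (inf_le_left.trans le_sup_right)) le_sup_right
  refine Or.inr ⟨F', lt_of_le_of_ne le_sup_left (Ne.symm h1),
    lt_of_le_of_ne (sup_le hab inf_le_right) h2, fun W => ⟨?_, ?_⟩⟩
  · rintro ⟨⟨haW, hWb⟩, hW | hW⟩
    · refine Or.inl ⟨haW, hWb.le, ?_⟩
      rw [hF', inf_comm, sup_inf_assoc_of_le (F ⊓ b) haW.le]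
      have : F ⊓ b ⊓ W = ⊥ := le_bot_iff.1
        ((le_inf inf_le_right (inf_le_left.trans inf_le_left)).trans_eq hW)
      rw [this, sup_bot_eq]
    · have hWF' : W ⊔ F' = b := by
        rw [hF', ← sup_assoc, sup_eq_left.2 haW.le, ← sup_inf_assoc_of_le F hWb.le, hW, top_inf_eq]
      exact Or.inr ⟨haW.le, hWb, hWF', fun h => hWb.ne ((sup_eq_left.2 h).symm.trans hWF')⟩
  · rintro (⟨haW, hWb, hWF⟩ | ⟨haW, hWb, hWF, -⟩)
    · refine ⟨⟨haW, lt_of_le_of_ne hWb fun e => h1 ?_⟩, Or.inl ?_⟩
      · rw [e, inf_eq_right.2 (sup_le hab inf_le_right)] at hWF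
        exact hWF
      · have h3 : W ⊓ F ≤ a := hWF ▸ le_inf inf_le_left
          ((le_inf inf_le_right (inf_le_left.trans hWb)).trans le_sup_right)
        exact le_bot_iff.1 ((le_inf h3 inf_le_right).trans_eq haF)
    · refine ⟨⟨lt_of_le_of_ne haW fun e => h2 ?_, hWb⟩, Or.inr (le_antisymm le_top ?_)⟩
      · rw [← e, sup_eq_right.2 le_sup_left] at hWF
        exact hWF
      · rw [← hbF, ← hWF]
        exact sup_le (sup_le le_sup_left
          (sup_le (haW.trans le_sup_left) (inf_le_left.trans le_sup_right))) le_sup_right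

/-- vertices in a gap -/
def GapVert (F a b W : Submodule k M) : Prop := OI a b W ∧ Trans F W

omit [Fintype k] [Finite M] in
/-- in a gap of length at least two there is a transversal subspace -/
theorem exists_trans_between {F a b : Submodule k M} (hab : a < b)
    (hgap : Module.finrank k a + 2 ≤ Module.finrank k b) (hta : a = ⊥ ∨ Trans F a)
    (htb : b = ⊤ ∨ Trans F b) : ∃ x, OI a b x ∧ Trans F x := by
  have R := ranked_finrank (k := k) (M := M)
  rcases gap_cases hab.le hta htb with hall | ⟨F', ha, hb, hiff⟩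
  · obtain ⟨x, h1, h2, h3, -, -⟩ := R.atom a b a a le_rfl hab hab.not_ge
    have hx : OI a b x := ⟨h1, lt_of_le_of_ne h2 fun e => by
      rw [e] at h3
      change Module.finrank k b = Module.finrank k a + 1 at h3
      omega⟩
    exact ⟨x, hx, hall x hx⟩
  · obtain ⟨x, h1, h2, h3, h4, -⟩ := R.atom a b F' a ha.le hb hab.not_ge
    refine ⟨x, (hiff x).2 (Or.inl ⟨h1, h2, (R.eq_of_le (le_inf h1.le ha.le) ?_).symm⟩)⟩
    have := R.mono (lt_of_le_of_ne inf_le_left fun e => h4 (inf_eq_left.1 e) : x ⊓ F' < x)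
    omega

omit [FiniteDimensional k M] [Fintype k] [Finite M] in
theorem trans_of_end {F : Submodule k M} [Fintype k] [Finite M] {τ : Finset (Submodule k M)}
    (hτ : OppFace F τ) {a e : Submodule k M} (ha : a = e ∨ a ∈ τ) : a = e ∨ Trans F a :=
  ha.imp_right fun h => (hτ.1 a h).2.2

/-- the link of a flag is a factor on the other vertices times one gap -/
theorem acyB_link_gap {F : Submodule k M} [DecidableEq (Submodule k M)]
    {τ : Finset (Submodule k M)} (hτ : OppFace F τ) {a b : Submodule k M} (hab : a < b)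
    (ha : a = ⊥ ∨ a ∈ τ) (hb : b = ⊤ ∨ b ∈ τ) (hsep : ∀ W ∈ τ, W ≤ a ∨ b ≤ W)
    {N g m : ℕ} (hN : Module.finrank k M ≤ N) (hg : Module.finrank k b ≤ Module.finrank k a + g)
    (hm : 3 * m ≤ Module.finrank k b - Module.finrank k a) :
    AcyB (B N (2 * 3 ^ g + 1)) (fun s => Disjoint s τ ∧ OppFace F (s ∪ τ)) m := by
  classical
  have R := ranked_finrank (k := k) (M := M)
  set V : Submodule k M → Prop := GapVert F a b with hV
  set Y : Finset (Submodule k M) → Prop := fun s =>
    Disjoint s τ ∧ OppFace F (s ∪ τ) ∧ ∀ u ∈ s, ¬ V u with hY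
  have hav : Avoid V Y := fun s hs => hs.2.2
  have hdown : Down Y := fun s t hs ht => ⟨Finset.disjoint_of_subset_left ht hs.1,
    OppFace.down hs.2.1 (Finset.union_subset_union_left ht), fun u hu => hs.2.2 u (ht hu)⟩
  have main : AcyB (B N (2 * 3 ^ g + 1)) (J V Y) m := by
    rcases gap_cases hab.le (trans_of_end hτ ha) (trans_of_end hτ hb) with hall | ⟨F', h1, h2, hiff⟩
    · have hVO : ∀ u, OI a b u ↔ V u := fun u => ⟨fun h => ⟨h, hall u h⟩, fun h => h.1⟩
      have hN' : Module.finrank k b ≤ N := (Submodule.finrank_le b).trans hN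
      have hpos := Submodule.finrank_lt_finrank_of_lt hab
      refine ((acyB_OI (M := N) R g 0 a b Y 0 hab.le hg (hav.mono fun u hu => (hVO u).1 hu) hdown
        (acyB_zero _ _) (by omega)).mono (m' := m) ?_
          (fun s => B_le N (by omega) s)).congr fun s => J_congr Y hVO s
      omega
    · refine ((acyB_SV (M := N) R hN g 0 a F' F' F' b Y m h1.le le_rfl h2.le le_rfl h1.not_ge hg hm
        (hav.mono fun u hu => (hiff u).2 hu) hdown).mono le_rfl
          (fun s => B_le N (by omega) s)).congr fun s => J_congr Y (fun u => (hiff u).symm) s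
  refine main.congr fun s => ⟨?_, ?_⟩
  · rintro ⟨hc, hdis, hface, -⟩
    have hcase : ∀ u ∈ s, V u ∨ u ∈ s.filter fun u => ¬ V u := fun u hu => by
      by_cases h : V u
      · exact Or.inl h
      · exact Or.inr (Finset.mem_filter.2 ⟨hu, h⟩)
    have hVτ : ∀ u, V u → u ∉ τ := fun u hu h => by
      rcases hsep u h with h' | h'
      · exact (hu.1.1.trans_le h').false
      · exact (hu.1.2.trans_le h').false
    have hvert : ∀ u ∈ s ∪ τ, IsOppVert F u := fun u hu => by
      rcases Finset.mem_union.1 hu with h | h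
      · rcases hcase u h with hV' | hF
        · exact ⟨ne_bot_of_gt hV'.1.1, ne_top_of_lt hV'.1.2, hV'.2⟩
        · exact hface.1 u (Finset.mem_union_left _ hF)
      · exact hτ.1 u h
    -- a vertex outside the gap lies below or above it
    have hside : ∀ u ∈ s.filter (fun u => ¬ V u) ∪ τ, u ≤ a ∨ b ≤ u := fun u hu => by
      rcases Finset.mem_union.1 hu with h | h
      swap
      · exact hsep u h
      by_contra hn
      push Not at hn
      have hca : ∀ e, (e = ⊥ ∨ e = ⊤ ∨ e ∈ τ) → u ≤ e ∨ e ≤ u := by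
        rintro e (rfl | rfl | he)
        · exact Or.inr bot_le
        · exact Or.inl le_top
        · exact hface.2 u hu e (Finset.mem_union_right _ he)
      have h1 : a ≤ u := (hca a (ha.imp_right Or.inr)).resolve_left hn.1
      have h2 : u ≤ b := (hca b (Or.inr hb)).resolve_right hn.2
      exact (Finset.mem_filter.1 h).2 ⟨⟨lt_of_le_of_ne h1 fun e => hn.1 e.ge,
        lt_of_le_of_ne h2 fun e => hn.2 e.ge⟩, (hface.1 u hu).2.2⟩
    refine ⟨Finset.disjoint_left.2 fun u hu huτ => ?_, hvert, fun u hu w hw => ?_⟩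
    · rcases hcase u hu with h | h
      · exact hVτ u h huτ
      · exact Finset.disjoint_left.1 hdis h huτ
    have hsplit : ∀ u ∈ s ∪ τ, (u ∈ s ∧ V u) ∨ u ∈ s.filter (fun u => ¬ V u) ∪ τ := fun u hu => by
      rcases Finset.mem_union.1 hu with h | h
      · exact (hcase u h).imp (fun h' => ⟨h, h'⟩) (Finset.mem_union_left _)
      · exact Or.inr (Finset.mem_union_right _ h)
    rcases hsplit u hu with ⟨hus, huV⟩ | hu' <;> rcases hsplit w hw with ⟨hws, hwV⟩ | hw'
    · exact hc u hus w hws huV hwV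
    · rcases hside w hw' with h | h
      · exact Or.inr (h.trans huV.1.1.le)
      · exact Or.inl (huV.1.2.le.trans h)
    · rcases hside u hu' with h | h
      · exact Or.inl (h.trans hwV.1.1.le)
      · exact Or.inr (hwV.1.2.le.trans h)
    · exact hface.2 u hu' w hw'
  · rintro ⟨hdis, hface⟩
    exact ⟨fun u hu w hw _ _ => hface.2 u (Finset.mem_union_left _ hu) w
        (Finset.mem_union_left _ hw),
      Finset.disjoint_of_subset_left (Finset.filter_subset _ _) hdis,
      OppFace.down hface (Finset.union_subset_union_left (Finset.filter_subset _ _)),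
      fun u hu => (Finset.mem_filter.1 hu).2⟩

theorem oppPure : OppPureStmt := by
  intro k _ _ M _ _ _ _ F τ hpos hτ
  classical
  have : FiniteDimensional k M := Module.Finite.of_finite
  set n := Module.finrank k M
  have hle : ∀ s : Finset (Submodule k M), OppFace F s → s.card ≤ n - 1 := by
    intro s hs
    have h := Finset.card_le_card_of_injOn (fun W : Submodule k M => Module.finrank k W)
      (s := s) (t := Finset.Ico 1 n) (fun W hW => ?_) (fun W hW W' hW' e => ?_)
    · rwa [Nat.card_Ico] at h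
    · obtain ⟨hb, ht, -⟩ := hs.1 W hW
      rw [Finset.coe_Ico]
      refine ⟨Nat.one_le_iff_ne_zero.2 fun h0 => hb (Submodule.finrank_eq_zero.1 h0), ?_⟩
      exact Submodule.finrank_lt ht
    · rcases hs.2 W hW W' hW' with h | h
      · exact Submodule.eq_of_le_of_finrank_eq h e
      · exact (Submodule.eq_of_le_of_finrank_eq h e.symm).symm
  suffices h : ∀ r, ∀ s, OppFace F s → n - 1 ≤ s.card + r → τ ⊆ s → ∃ T ∈ oppTops F, τ ⊆ T from
    h (n - 1) τ hτ (by omega) (Finset.Subset.refl τ)
  intro r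
  induction r with
  | zero =>
    intro s hs hr hτs
    refine ⟨s, ?_, hτs⟩
    unfold oppTops
    have := hle s hs
    simp only [Finset.mem_filter, Finset.mem_univ, true_and]
    exact ⟨hs, by omega⟩
  | succ r ih =>
    intro s hs hr hτs
    by_cases hfull : n - 1 ≤ s.card + r
    · exact ih s hs hfull hτs
    obtain ⟨a, b, hab, hgap, ha, hb, hsep⟩ := exists_gap s hs.2 le_rfl le_rfl (G := 1)
      (show (s.card + 1) * 1 + 1 ≤ n by omega)
    obtain ⟨x, hx, hxF⟩ := exists_trans_between hab (by omega) (trans_of_end hs ha)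
      (trans_of_end hs hb)
    have hxs : x ∉ s := fun h => by
      rcases hsep x h with h' | h'
      · exact (hx.1.trans_le h').false
      · exact (hx.2.trans_le h').false
    have hcmp : ∀ W ∈ s, W ≤ x ∨ x ≤ W := fun W hW =>
      (hsep W hW).imp (fun h => h.trans hx.1.le) fun h => hx.2.le.trans h
    refine ih (insert x s) ⟨fun W hW => ?_, fun W hW W' hW' => ?_⟩
      (by rw [Finset.card_insert_of_notMem hxs]; omega) (hτs.trans (Finset.subset_insert x s))
    · rcases Finset.mem_insert.1 hW with rfl | hW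
      · exact ⟨ne_bot_of_gt hx.1, ne_top_of_lt hx.2, hxF⟩
      · exact hs.1 W hW
    · rcases Finset.mem_insert.1 hW with h₁ | h₁ <;>
        rcases Finset.mem_insert.1 hW' with h₂ | h₂
      · exact Or.inl (h₁.trans h₂.symm).le
      · exact h₁ ▸ (hcmp W' h₂).symm
      · exact h₂ ▸ hcmp W h₁
      · exact hs.2 W h₁ W' h₂

theorem oppAcy : OppAcyStmt := by
  intro n d hnd
  refine ⟨B (n + d + 2) (2 * 3 ^ n + 1), ?_⟩
  intro k _ _ M _ _ _ _ hn F τ hτ hd
  have : FiniteDimensional k M := Module.Finite.of_finite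
  obtain ⟨a, b, hab, hgap, ha, hb, hsep⟩ := exists_gap τ hτ.2 (G := 3 * (d + 2)) (by omega) hd
    (by rw [hn]; nlinarith)
  have hb' : Module.finrank k b ≤ n := hn ▸ Submodule.finrank_le b
  exact acyB_link_gap hτ hab ha hb hsep (by omega) (by omega) (by omega)

theorem sAcy : SAcyStmt := by
  intro k _ _ M _ _ _ _ A B' C m hCA hAB hC hm
  classical
  have : FiniteDimensional k M := Module.Finite.of_finite
  have R := ranked_finrank (k := k) (M := M)
  set Y : Finset (Submodule k M) → Prop := fun s => s = ∅ with hY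
  have hdown : Down Y := fun s t hs ht => Finset.subset_empty.1 (hs ▸ ht)
  have hav : Avoid (SV ⊥ ⊤ A B' C) Y := fun s hs u hu => by simp [show s = ∅ from hs] at hu
  have h := (acyB_SV (M := Module.finrank k M) R le_rfl (Module.finrank k M) 0 ⊥ A B' C ⊤ Y m
    bot_le hAB le_top hCA (fun h => hC (le_bot_iff.1 h)) (by simp) (by simpa using hm) hav
    hdown).acy
  have hiff : ∀ W : Submodule k M, SV ⊥ ⊤ A B' C W ↔
      ((W ≠ ⊥ ∧ W ⊓ A = ⊥) ∨ (W ≠ ⊤ ∧ W ⊔ B' = ⊤ ∧ ¬ C ≤ W)) := fun W => by
    simp [SV, bot_lt_iff_ne_bot, lt_top_iff_ne_top]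
  have he : SFace A B' C = J (SV ⊥ ⊤ A B' C) Y := by
    funext s
    refine propext ⟨fun hs => ⟨fun u hu w hw _ _ => hs.2 u hu w hw, ?_⟩, fun hs => ?_⟩
    · exact Finset.filter_eq_empty_iff.2 fun u hu => not_not.2 ((hiff u).2 (hs.1 u hu))
    · have hall : ∀ u ∈ s, SV ⊥ ⊤ A B' C u := fun u hu =>
        not_not.1 (Finset.filter_eq_empty_iff.1 hs.2 hu)
      exact ⟨fun u hu => (hiff u).1 (hall u hu),
        fun u hu w hw => hs.1 u hu w hw (hall u hu) (hall w hw)⟩
  rw [he]
  exact h

end Vale.Agent.P067.KO
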