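import Vale.Agent.P067.KO.Cplx
import Vale.Agent.P067.Exp.LinkGap

/-!
# P067: the sums over a link as sums over pairs of vertices
-/

namespace Vale.Agent.P067.KO

open Finset Exp

variable {V : Type*} [DecidableEq V] {X : Finset (Finset V)} {σ : Finset V} {c : ℕ}

theorem link_card (σ : Finset V) : (link X σ).card = LG.cnt X σ := by
  rw [link, card_image_of_injOn, LG.cnt]
  intro A hA B hB h
  simp only [coe_filter] at hA hB
  simp only at h
  rw [← sdiff_union_of_subset hA.2, ← sdiff_union_of_subset hB.2, h]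

theorem link_cnt {s : Finset V} (hs : Disjoint s σ) :
    ((link X σ).filter fun T => s ⊆ T).card = LG.cnt X (s ∪ σ) := by
  rw [link, filter_image, filter_filter, card_image_of_injOn, LG.cnt]
  · refine congrArg card (filter_congr fun T _ => ?_)
    rw [union_subset_iff, and_comm, and_congr_left_iff]
    intro h
    exact ⟨fun h' => h'.trans sdiff_subset, fun h' => subset_sdiff.2 ⟨h', hs⟩⟩
  · intro A hA B hB h
    simp only [coe_filter] at hA hB
    simp only at h
    rw [← sdiff_union_of_subset hA.2.1, ← sdiff_union_of_subset hB.2.1, h]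

theorem link_disjoint {s : Finset V} {T : Finset V} (hT : T ∈ link X σ) (hs : s ⊆ T) :
    Disjoint s σ := by
  obtain ⟨A, -, rfl⟩ := mem_image.1 hT
  exact disjoint_of_subset_left hs sdiff_disjoint

theorem link_topCard {N : ℕ} (hX : TopCard N X) (hσ : σ.card + c = N) : TopCard c (link X σ) := by
  intro T hT
  obtain ⟨A, hA, rfl⟩ := mem_image.1 hT
  obtain ⟨h1, h2⟩ := mem_filter.1 hA
  rw [card_sdiff_of_subset h2, hX A h1]
  omega

theorem wt_link {N : ℕ} (hX : TopCard N X) (hσ : σ.card + c = N) (s : Finset V) :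
    wt (link X σ) s = if Disjoint s σ then
      (LG.cnt X (s ∪ σ) : ℝ) / ((c.choose s.card : ℝ) * LG.cnt X σ) else 0 := by
  rw [wt]
  by_cases hs : Disjoint s σ
  · rw [if_pos hs, sum_congr rfl (g := fun _ => ((c.choose s.card : ℝ) * LG.cnt X σ)⁻¹) fun T hT => by
      rw [link_topCard hX hσ T (mem_filter.1 hT).1, link_card]]
    rw [sum_const, nsmul_eq_mul, link_cnt hs, div_eq_mul_inv]
  · rw [if_neg hs, filter_eq_empty_iff.2 fun T hT h => hs (link_disjoint hT h), sum_empty]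

theorem kf_eq (Y : Finset (Finset V)) (k : ℕ) {G : Finset V} (hG : ∀ T ∈ Y, T ⊆ G) (g : Finset V → ℝ) :
    ∑ e ∈ kf Y k, wt Y e * g e = ∑ e ∈ G.powersetCard k, wt Y e * g e := by
  refine sum_subset (fun e he => ?_) fun e he hne => ?_
  · obtain ⟨T, hT, h⟩ := mem_biUnion.1 he
    obtain ⟨h1, h2⟩ := mem_powersetCard.1 h
    exact mem_powersetCard.2 ⟨h1.trans (hG T hT), h2⟩
  · rw [wt, filter_eq_empty_iff.2, sum_empty, zero_mul]
    exact fun T hT hs => hne (mem_biUnion.2
      ⟨T, hT, mem_powersetCard.2 ⟨hs, (mem_powersetCard.1 he).2⟩⟩)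

theorem sum_one {N : ℕ} (hX : TopCard N X) (hσ : σ.card + c = N) {G : Finset V}
    (hG : ∀ T ∈ X, T ⊆ G) (φ : V → ℝ) :
    ∑ e ∈ kf (link X σ) 1, wt (link X σ) e * ∏ x ∈ e, φ x =
      (∑ v ∈ G, (if v ∉ σ then (LG.cnt X (insert v σ) : ℝ) else 0) * φ v) /
        ((c : ℝ) * LG.cnt X σ) := by
  have hG' : ∀ T ∈ link X σ, T ⊆ G := fun T hT => by
    obtain ⟨A, hA, rfl⟩ := mem_image.1 hT
    exact sdiff_subset.trans (hG A (mem_filter.1 hA).1)
  rw [kf_eq _ 1 hG', powersetCard_one, sum_map, sum_div]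
  refine sum_congr rfl fun v _ => ?_
  simp only [Function.Embedding.coeFn_mk, prod_singleton, wt_link hX hσ, card_singleton,
    Nat.choose_one_right, disjoint_singleton_left, singleton_union]
  split_ifs <;> ring

theorem sum_two {N : ℕ} (hX : TopCard N X) (hσ : σ.card + c = N) {G : Finset V}
    (hG : ∀ T ∈ X, T ⊆ G) (φ : V → ℝ) :
    ∑ e ∈ kf (link X σ) 2, wt (link X σ) e * ∏ x ∈ e, φ x =
      (∑ u ∈ G, ∑ v ∈ G, linkW X σ u v * φ u * φ v) /
        (2 * ((c.choose 2 : ℝ) * LG.cnt X σ)) := by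
  have hG' : ∀ T ∈ link X σ, T ⊆ G := fun T hT => by
    obtain ⟨A, hA, rfl⟩ := mem_image.1 hT
    exact sdiff_subset.trans (hG A (mem_filter.1 hA).1)
  rw [kf_eq _ 2 hG']
  have hzero : ∀ u v, u = v → linkW X σ u v * φ u * φ v = 0 := fun u v h => by simp [linkW, h]
  rw [← sum_product' (f := fun u v => linkW X σ u v * φ u * φ v)]
  have hoff : ∑ z ∈ G ×ˢ G, linkW X σ z.1 z.2 * φ z.1 * φ z.2 =
      ∑ z ∈ G.offDiag, linkW X σ z.1 z.2 * φ z.1 * φ z.2 := by
    refine (sum_subset (fun z hz => ?_) fun z hz hne => ?_).symm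
    · obtain ⟨h1, h2, -⟩ := mem_offDiag.1 hz
      exact mem_product.2 ⟨h1, h2⟩
    · obtain ⟨h1, h2⟩ := mem_product.1 hz
      exact hzero _ _ (by_contra fun h => hne (mem_offDiag.2 ⟨h1, h2, h⟩))
  rw [hoff, sum_div, ← sum_fiberwise_of_maps_to (s := G.offDiag) (t := G.powersetCard 2)
    (g := fun z => ({z.1, z.2} : Finset V))
    (fun z hz => by
      obtain ⟨h1, h2, h3⟩ := mem_offDiag.1 hz
      exact mem_powersetCard.2 ⟨by simp [insert_subset_iff, h1, h2], card_pair h3⟩)]
  refine sum_congr rfl fun e he => ?_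
  obtain ⟨heG, hec⟩ := mem_powersetCard.1 he
  obtain ⟨a, b, hab, rfl⟩ := card_eq_two.1 hec
  have hfib : G.offDiag.filter (fun z => ({z.1, z.2} : Finset V) = {a, b}) = {(a, b), (b, a)} := by
    ext ⟨u, v⟩
    simp only [mem_filter, mem_offDiag, mem_insert, mem_singleton, Prod.mk.injEq]
    constructor
    · rintro ⟨⟨-, -, huv⟩, h⟩
      have hu : u ∈ ({a, b} : Finset V) := h ▸ by simp
      have hv : v ∈ ({a, b} : Finset V) := h ▸ by simp
      simp only [mem_insert, mem_singleton] at hu hv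
      rcases hu with rfl | rfl <;> rcases hv with rfl | rfl <;> simp_all
    · have ha : a ∈ G := heG (by simp)
      have hb : b ∈ G := heG (by simp)
      rintro (⟨rfl, rfl⟩ | ⟨rfl, rfl⟩)
      · exact ⟨⟨ha, hb, hab⟩, rfl⟩
      · exact ⟨⟨hb, ha, Ne.symm hab⟩, pair_comm _ _⟩
  rw [hfib, sum_pair (by simp [hab]), prod_pair hab, linkW_comm σ b a, wt_link hX hσ,
    card_pair hab, linkW]
  have hu : ({a, b} : Finset V) ∪ σ = insert a (insert b σ) := by
    rw [insert_union, singleton_union]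
  by_cases ha : a ∈ σ
  · simp [ha, disjoint_insert_left]
  by_cases hb : b ∈ σ
  · simp [hb, disjoint_insert_left]
  simp [ha, hb, hab, disjoint_insert_left]
  ring

end Vale.Agent.P067.KO
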