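import Vale.Agent.P067.KO.Pins
import Vale.Agent.P067.KO.LinkSums
import Vale.Agent.P067.Exp.LinkMix

/-!
# P067: descent of the spectral gap to all links, and mixing
-/

namespace Vale.Agent.P067.KO

open Finset Exp

variable {V : Type} [DecidableEq V] {X : Finset (Finset V)}

theorem isFace_iff {s : Finset V} : IsFace X s ↔ 0 < LG.cnt X s :=
  ⟨fun ⟨T, hT, hs⟩ => card_pos.2 ⟨T, mem_filter.2 ⟨hT, hs⟩⟩, fun h => by
    obtain ⟨T, hT⟩ := card_pos.1 h
    exact ⟨T, (mem_filter.1 hT).1, (mem_filter.1 hT).2⟩⟩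

/-- The complex on the finite type of its vertices. -/
def onG (G : Finset V) (X : Finset (Finset V)) : Finset (Finset {x // x ∈ G}) :=
  X.image fun T => T.subtype fun x => x ∈ G

variable {G : Finset V}

theorem map_subtype_self {T : Finset V} (hT : T ⊆ G) :
    (T.subtype fun x => x ∈ G).map (Function.Embedding.subtype fun x => x ∈ G) = T := by
  rw [subtype_map, filter_true_of_mem hT]

theorem cnt_onG (hG : ∀ T ∈ X, T ⊆ G) (s : Finset {x // x ∈ G}) :
    LG.cnt (onG G X) s = LG.cnt X (s.map (Function.Embedding.subtype fun x => x ∈ G)) := by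
  rw [LG.cnt, onG, filter_image, card_image_of_injOn, LG.cnt]
  · refine congrArg card (filter_congr fun T hT => ?_)
    conv_rhs => rw [← map_subtype_self (hG T hT), map_subset_map]
  · intro A hA B hB h
    simp only at h
    rw [← map_subtype_self (hG A (mem_filter.1 hA).1), h,
      map_subtype_self (hG B (mem_filter.1 hB).1)]

theorem linkW_onG (hG : ∀ T ∈ X, T ⊆ G) (s : Finset {x // x ∈ G}) (u v : {x // x ∈ G}) :
    linkW (onG G X) s u v =
      linkW X (s.map (Function.Embedding.subtype fun x => x ∈ G)) u.1 v.1 := by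
  unfold linkW
  simp only [cnt_onG hG, map_insert, Function.Embedding.coe_subtype, ne_eq, Subtype.ext_iff,
    ← mem_map' (Function.Embedding.subtype fun x => x ∈ G)]

theorem link_conn {σ : Finset V} (hc : Conn (link X σ)) (f : V → ℝ)
    (hf : ∀ u v, 0 < linkW X σ u v → f u = f v) {u v : V} (hu : u ∉ σ) (hv : v ∉ σ)
    (hu' : 0 < LG.cnt X (insert u σ)) (hv' : 0 < LG.cnt X (insert v σ)) : f u = f v := by
  have hface : ∀ w, w ∉ σ → 0 < LG.cnt X (insert w σ) → IsFace (link X σ) {w} := fun w hw h => by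
    obtain ⟨T, hT, hs⟩ := isFace_iff.2 h
    refine ⟨T \ σ, mem_image.2 ⟨T, mem_filter.2 ⟨hT, (subset_insert _ _).trans hs⟩, rfl⟩, ?_⟩
    simp [hs (mem_insert_self w σ), hw]
  have hpath := hc u v (hface u hu hu') (hface v hv hv')
  clear hv hv'
  induction hpath with
  | refl => rfl
  | @tail a b _ hab ih =>
    refine ih.trans ?_
    by_cases h : a = b
    · rw [h]
    refine hf a b ?_
    obtain ⟨T', hT', hs⟩ := hab
    obtain ⟨T, hT, rfl⟩ := mem_image.1 hT'
    obtain ⟨h1, h2⟩ := mem_filter.1 hT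
    have hd := link_disjoint hT' hs
    simp only [disjoint_insert_left, disjoint_singleton_left] at hd
    simp only [insert_subset_iff, singleton_subset_iff, mem_sdiff] at hs
    rw [linkW, if_pos ⟨h, hd⟩]
    have : 0 < LG.cnt X (insert a (insert b σ)) := isFace_iff.1
      ⟨T, h1, insert_subset hs.1.1 (insert_subset hs.2.1 h2)⟩
    exact_mod_cast this

theorem conn_onG (hG : ∀ T ∈ X, T ⊆ G) {s : Finset {x // x ∈ G}}
    (hc : Conn (link X (s.map (Function.Embedding.subtype fun x => x ∈ G)))) :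
    LinkConn (onG G X) s := by
  intro f hf u v hu hv hu' hv'
  classical
  set f' : V → ℝ := fun x => if h : x ∈ G then f ⟨x, h⟩ else 0 with hf'
  have h := link_conn hc f' (fun a b hab => ?_) (u := u.1) (v := v.1)
    (fun h => hu ((mem_map' _).1 h)) (fun h => hv ((mem_map' _).1 h))
    (by rwa [cnt_onG hG, map_insert] at hu') (by rwa [cnt_onG hG, map_insert] at hv')
  · simpa [hf', u.2, v.2] using h
  · obtain ⟨-, -, -, hpos⟩ := linkW_of_pos hab.ne'
    obtain ⟨T, hT, hs⟩ := isFace_iff.2 hpos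
    have ha : a ∈ G := hG T hT (hs (by simp))
    have hb : b ∈ G := hG T hT (hs (by simp))
    rw [hf']
    simp only [dif_pos ha, dif_pos hb]
    exact hf _ _ (by rwa [linkW_onG hG])

theorem sum_deg {N : ℕ} (hG : ∀ T ∈ X, T ⊆ G) (hX : TopCard N X) (s : Finset {x // x ∈ G})
    (g : V → ℝ) :
    ∑ u : {x // x ∈ G}, wdeg (linkW (onG G X) s) u * g u.1 =
      ((N : ℝ) - s.card - 1) * ∑ v ∈ G, (if v ∉ s.map (Function.Embedding.subtype fun x => x ∈ G)
        then (LG.cnt X (insert v (s.map (Function.Embedding.subtype fun x => x ∈ G))) : ℝ)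
        else 0) * g v := by
  have hN : ∀ ρ ∈ onG G X, ρ.card = N := fun ρ hρ => by
    obtain ⟨T, hT, rfl⟩ := mem_image.1 hρ
    rw [← hX T hT]
    conv_rhs => rw [← map_subtype_self (hG T hT), card_map]
  rw [mul_sum, ← Finset.sum_coe_sort G]
  refine sum_congr rfl fun u _ => ?_
  rw [wdeg_linkW hN, cnt_onG hG, map_insert]
  have hiff : u.1 ∈ s.map (Function.Embedding.subtype fun x => x ∈ G) ↔ u ∈ s := mem_map' _
  by_cases hu : u ∈ s
  · rw [if_pos hu, if_neg (not_not.2 (hiff.2 hu))]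
    ring
  · rw [if_neg hu, if_pos (mt hiff.1 hu)]
    simp only [Function.Embedding.coe_subtype]
    ring

/-- The gap of a link in the language of the pins is the gap of its weighted graph. -/
theorem gap_iff {N c : ℕ} (hG : ∀ T ∈ X, T ⊆ G) (hX : TopCard N X) {s : Finset {x // x ∈ G}}
    (hσ : 0 < LG.cnt (onG G X) s) (hc : s.card + c = N) (hc2 : 2 ≤ c) (lam : ℝ) :
    Gap lam (link X (s.map (Function.Embedding.subtype fun x => x ∈ G))) ↔
      HasGap (linkW (onG G X) s) lam := by
  set σ := s.map (Function.Embedding.subtype fun x => x ∈ G) with hσdef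
  have hcard : σ.card + c = N := by rw [hσdef, card_map, hc]
  set W0 : ℝ := (c : ℝ) * ((c : ℝ) - 1) * LG.cnt X σ with hW0
  have hcR : (2 : ℝ) ≤ c := by exact_mod_cast hc2
  have hpos : (0 : ℝ) < LG.cnt X σ := by rw [cnt_onG hG] at hσ; exact_mod_cast hσ
  have hWpos : 0 < W0 := by rw [hW0]; have : 0 < (c : ℝ) - 1 := by linarith
                            positivity
  have hk : ((N : ℝ) - s.card - 1) = (c : ℝ) - 1 := by rw [← hc]; push_cast; ring
  have hch : 2 * (c.choose 2 : ℝ) = (c : ℝ) * ((c : ℝ) - 1) := by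
    rw [Nat.cast_choose_two]; ring
  have hdeg : ∑ u, wdeg (linkW (onG G X) s) u = W0 := by
    have h := LG.cnt X σ
    have hone := sum_deg hG hX s (fun _ => (1 : ℝ))
    simp only [mul_one] at hone
    rw [hone, hk, hW0]
    have hN : ∀ ρ ∈ onG G X, ρ.card = N := fun ρ hρ => by
      obtain ⟨T, hT, rfl⟩ := mem_image.1 hρ
      rw [← hX T hT]
      conv_rhs => rw [← map_subtype_self (hG T hT), card_map]
    have e := cnt_sum hN s
    simp only [cnt_onG hG, map_insert] at e
    rw [← hσdef] at *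
    rw [← Finset.sum_coe_sort G]
    have hcast : (N : ℝ) - s.card = c := by rw [← hc]; push_cast; ring
    rw [hcast] at e
    rw [mul_comm (c : ℝ) ((c : ℝ) - 1), mul_assoc, ← e]
    congr 1
    refine sum_congr rfl fun u _ => ?_
    simp only [Function.Embedding.coe_subtype,
      ← mem_map' (Function.Embedding.subtype fun x => x ∈ G)]
    rfl
  have h1 : ∀ φ : V → ℝ, ∑ e ∈ kf (link X σ) 1, wt (link X σ) e * ∏ x ∈ e, φ x =
      (∑ u, wdeg (linkW (onG G X) s) u * φ u.1) / W0 := by
    intro φ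
    rw [sum_one hX hcard hG, sum_deg hG hX, hk, hW0]
    have : (c : ℝ) - 1 ≠ 0 := by linarith
    field_simp
    ring
  have h2 : ∀ φ : V → ℝ, ∑ e ∈ kf (link X σ) 2, wt (link X σ) e * ∏ x ∈ e, φ x =
      wform (linkW (onG G X) s) (fun u => φ u.1) / W0 := by
    intro φ
    rw [sum_two hX hcard hG, ← mul_assoc, hch, wform, ← Finset.sum_coe_sort G, hW0]
    congr 1
    refine sum_congr rfl fun u _ => ?_
    rw [← Finset.sum_coe_sort G]
    exact sum_congr rfl fun v _ => by rw [linkW_onG hG]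
  have hsym : ∀ u v, linkW (onG G X) s u v = linkW (onG G X) s v u := fun u v => linkW_comm s u v
  constructor
  · intro h f hf
    have hh := h (fun x => if hx : x ∈ G then f ⟨x, hx⟩ else 0)
    rw [h1, h2, h1 (fun x => (if hx : x ∈ G then f ⟨x, hx⟩ else 0) ^ 2)] at hh
    simp only [Finset.coe_mem, dite_true, Subtype.coe_eta, hf, zero_div] at hh
    rw [zero_pow two_ne_zero, zero_add, sub_zero, mul_div_assoc',
      div_le_div_iff_of_pos_right hWpos] at hh
    exact hh
  · intro h φ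
    rw [h1, h2, h1 (fun x => φ x ^ 2)]
    set f : {x // x ∈ G} → ℝ := fun u => φ u.1 with hf
    set S1 := ∑ u, wdeg (linkW (onG G X) s) u * f u with hS1
    set S2 := ∑ u, wdeg (linkW (onG G X) s) u * f u ^ 2 with hS2
    show wform (linkW (onG G X) s) f / W0 ≤ (S1 / W0) ^ 2 + lam * (S2 / W0 - (S1 / W0) ^ 2)
    set a : ℝ := S1 / W0 with ha
    have haW : a * W0 = S1 := div_mul_cancel₀ _ hWpos.ne'
    have hmean : ∑ u, wdeg (linkW (onG G X) s) u * (f u - a) = 0 := by
      simp only [mul_sub, sum_sub_distrib, ← sum_mul, hdeg, ← hS1]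
      linarith
    have hh := h _ hmean
    rw [wform_shift hsym, hdeg, ← hS1] at hh
    have e2 : ∀ u, wdeg (linkW (onG G X) s) u * (f u - a) ^ 2 =
        wdeg (linkW (onG G X) s) u * f u ^ 2 - 2 * a * (wdeg (linkW (onG G X) s) u * f u) +
          a ^ 2 * wdeg (linkW (onG G X) s) u := fun u => by ring
    simp only [e2, sum_add_distrib, sum_sub_distrib, ← mul_sum, hdeg, ← hS1, ← hS2] at hh
    rw [div_le_iff₀ hWpos]
    have e3 : S2 / W0 * W0 = S2 := div_mul_cancel₀ _ hWpos.ne'
    have e4 : a ^ 2 * W0 = a * S1 := by rw [sq, mul_assoc, haW]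
    have e5 : (a ^ 2 + lam * (S2 / W0 - a ^ 2)) * W0 = a * S1 + lam * (S2 - a * S1) := by
      linear_combination (1 - lam) * e4 + lam * e3
    rw [e5]
    rw [← haW] at hh ⊢
    linarith

theorem gap_nonneg_var {Y : Finset (Finset V)} (S : Finset V) :
    0 ≤ ∑ e ∈ (kf Y 1).filter (fun e => e ⊆ S), wt Y e :=
  sum_nonneg fun _ _ => sum_nonneg fun _ _ =>
    inv_nonneg.2 (mul_nonneg (Nat.cast_nonneg _) (Nat.cast_nonneg _))

theorem gap_to_mixing {Y : Finset (Finset V)} {μ ε : ℝ} (hμ : 0 ≤ μ) (hμε : μ ≤ ε)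
    (hg : Gap μ Y) (S : Finset V) :
    ∑ e ∈ (kf Y 2).filter (fun e => e ⊆ S), wt Y e ≤
      (∑ e ∈ (kf Y 1).filter (fun e => e ⊆ S), wt Y e) *
        (∑ e ∈ (kf Y 1).filter (fun e => e ⊆ S), wt Y e + ε) := by
  have hind : ∀ e : Finset V, ∏ x ∈ e, (if x ∈ S then (1 : ℝ) else 0) =
      if e ⊆ S then 1 else 0 := by
    intro e
    by_cases he : e ⊆ S
    · rw [if_pos he]
      exact prod_eq_one fun x hx => if_pos (he hx)
    · rw [if_neg he]
      obtain ⟨x, hx, hxS⟩ := not_subset.1 he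
      exact prod_eq_zero hx (if_neg hxS)
  have h := hg fun x => if x ∈ S then 1 else 0
  have hsq : ∀ x : V, (if x ∈ S then (1 : ℝ) else 0) ^ 2 = if x ∈ S then 1 else 0 := fun x => by
    split_ifs <;> simp
  simp only [hsq, hind, mul_ite, mul_one, mul_zero, ← sum_filter] at h
  refine h.trans ?_
  have hm := gap_nonneg_var (Y := Y) S
  set m := ∑ e ∈ (kf Y 1).filter (fun e => e ⊆ S), wt Y e with hmdef
  nlinarith [mul_le_mul_of_nonneg_left hμε hm, mul_nonneg hμ (sq_nonneg m)]

/-- The pinned statement of module J. -/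
theorem trickle : TrickleStmt := by
  intro D hD ε hε
  set lam : ℝ := min (ε / 2) (1 / (2 * ((D : ℝ) + 1))) with hlamdef
  have hlam : 0 < lam := lt_min (by linarith) (by positivity)
  refine ⟨lam, hlam, fun V _ X hX hconn htop d hd σ hσ hσd S => ?_⟩
  set G : Finset V := X.biUnion id with hGdef
  have hG : ∀ T ∈ X, T ⊆ G := fun T hT x hx => mem_biUnion.2 ⟨T, hT, hx⟩
  obtain ⟨T, hT, hs⟩ := hσ
  set s : Finset {x // x ∈ G} := σ.subtype fun x => x ∈ G with hsdef
  have hmap : s.map (Function.Embedding.subtype fun x => x ∈ G) = σ :=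
    map_subtype_self (hs.trans (hG T hT))
  have hscard : s.card = σ.card := by rw [← hmap, card_map]
  have hN : ∀ ρ ∈ onG G X, ρ.card = D + 1 := fun ρ hρ => by
    obtain ⟨T, hT, rfl⟩ := mem_image.1 hρ
    rw [← hX T hT]
    conv_rhs => rw [← map_subtype_self (hG T hT), card_map]
  have hl2 : lam * (2 * ((D : ℝ) + 1)) ≤ 1 :=
    (le_div_iff₀ (by positivity)).1 (min_le_right _ _)
  have hsmall : ((D + 1 : ℕ) : ℝ) * lam < 1 := by
    push_cast
    linarith
  have hpos : 0 < LG.cnt (onG G X) s := by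
    rw [cnt_onG hG, hmap]
    exact isFace_iff.1 ⟨T, hT, hs⟩
  have hall := gap_all hN hlam.le hsmall (fun τ hτ hc => ?_) (fun τ hτ hc => ?_)
    (D - 1 - σ.card) s hpos (by omega)
  · have hjD : ((D - 1 - σ.card : ℕ) : ℝ) ≤ D + 1 := by exact_mod_cast (show D - 1 - σ.card ≤ D + 1 by omega)
    have hden : 1 / 2 ≤ 1 - ((D - 1 - σ.card : ℕ) : ℝ) * lam := by
      have := mul_le_mul_of_nonneg_right hjD hlam.le
      linarith
    have hgap := (gap_iff hG hX hpos (c := D + 1 - σ.card) (by omega) (by omega) _).2 hall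
    rw [hmap] at hgap
    refine gap_to_mixing (div_nonneg hlam.le (by linarith)) ?_ hgap S
    rw [div_le_iff₀ (by linarith)]
    have hle : lam ≤ ε / 2 := min_le_left _ _
    nlinarith
  · refine (gap_iff hG hX hτ (c := 2) (by omega) le_rfl lam).1 (htop _ ?_ ?_)
    · exact isFace_iff.2 (by rwa [← cnt_onG hG])
    · rw [card_map]; omega
  · refine conn_onG hG (hconn _ (isFace_iff.2 (by rwa [← cnt_onG hG])) ?_)
    rw [card_map]; omega

end Vale.Agent.P067.KO
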