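import Vale.Agent.P067.KO.LatKey
import Vale.Agent.P067.KO.AcyB
import Vale.Agent.P067.KO.Pins

/-!
The lattice complex is acyclic in low degrees: lattices with a degree of two or more, and then
those with all degrees one, are removed from the short chains of lattices with nonnegative degrees.
-/

namespace Vale.Agent.P067.KO

open Finset Vale.Agent.P067.Sub

/-- a complex closed under adding one vertex is acyclic -/
theorem acy_of_insert {α : Type*} [DecidableEq α] {P : Finset α → Prop} (b : α)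
    (h : ∀ t, P t → P (insert b t)) (m : ℕ) : Acy P m := by
  intro c _ z hz hb
  refine ⟨cone b z, cone_On b (fun s hs hbs => ?_) hz, by simpa [hb] using bd_cone b z⟩
  exact ⟨h s hs.1, by rw [Finset.card_insert_of_notMem hbs, hs.2]⟩

variable {k : Type} [Field k] {n : ℕ}

/-- some degree is at least two -/
def HighDeg (L : Lat k n) : Prop := ∃ a, HasDeg L a ∧ ∃ i, 2 ≤ a i

variable (H : LatFacts k n)
include H

theorem LatFacts.keySep [DecidableEq (Lat k n)] :
    KeySep (K0 (k := k) (n := n)) HighDeg latKey := by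
  intro s hs u hu v hv _ _ he
  obtain ⟨a, -, ha⟩ := hs.1.1 u hu
  obtain ⟨b, -, hb⟩ := hs.1.1 v hv
  rw [H.latKey_eq ha, H.latKey_eq hb] at he
  have hse := key_eq_iff he
  by_contra hne
  rcases hs.1.2 u hu v hv with h | h
  · exact (H.sum_lt u v a b ha hb h hne).ne hse
  · exact (H.sum_lt v u b a hb ha h (Ne.symm hne)).ne hse.symm

/-- the link of a removed lattice is the complex of transversal chains -/
theorem LatFacts.acy_link [DecidableEq (Lat k n)] [Fintype k] (hS : SAcyStmt) {m : ℕ}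
    (hm : 3 * m ≤ n) (v : Lat k n) (hv : HighDeg v) (hv0 : P0 v) :
    Acy (LowLink (K0 (k := k) (n := n)) HighDeg latKey v) m := by
  classical
  obtain ⟨a, ha0, ha⟩ := hv0
  obtain ⟨a', ha', i', hi'⟩ := hv
  have hM2 : 2 ≤ mxDeg a := by
    have h1 := le_mxDeg a' i'
    have h2 := H.mxDeg_eq ha' ha
    omega
  have hM1 : 1 ≤ mxDeg a := by omega
  obtain ⟨g, hg⟩ := id ha
  set M : ℤ := (mxDeg a : ℤ) with hM
  have hMle : ∀ i, a i ≤ M := le_mxDeg a
  set A : Submodule k (Fin n → k) := Flt a (M - 1) with hA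
  set B : Submodule k (Fin n → k) := Flt a 1 with hB
  set C : Submodule k (Fin n → k) := Flt a M with hC
  have hCA : C ≤ A := fun w hw i hi => hw i (by omega)
  have hAB : A ≤ B := fun w hw i hi => hw i (by omega)
  have hC0 : C ≠ ⊥ := by
    obtain ⟨i₀, hi₀⟩ := exists_mxDeg hM1
    refine (Submodule.ne_bot_iff _).2 ⟨Pi.single i₀ 1, fun i hi => ?_, ?_⟩
    · exact Pi.single_eq_of_ne (fun e => by rw [e, hi₀] at hi; omega) _
    · simp
  let Q : Submodule k (Fin n → k) × Bool → Prop := fun p =>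
    cond p.2 (p.1 ⊔ B = ⊤ ∧ ¬ C ≤ p.1) (p.1 ≠ ⊥ ∧ p.1 ⊓ A = ⊥)
  let up : Submodule k (Fin n → k) → Lat k n := fun W => gamAct g (fibLat a W)
  let ψ : Submodule k (Fin n → k) × Bool → Lat k n := fun p =>
    cond p.2 (unshift (up p.1)) (up p.1)
  have hv_up : ∀ W, v ≤ up W := fun W => by
    rw [hg]
    exact (H.act_le g _ _).2 (H.fib_mem a W).1
  have hup_v : ∀ W, up W ≤ shift v := fun W => by
    rw [hg, ← H.act_shift]
    exact (H.act_le g _ _).2 (H.fib_mem a W).2
  have hup_le : ∀ W W', up W ≤ up W' ↔ W ≤ W' := fun W W' =>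
    (H.act_le g _ _).trans (H.fib_le a W W')
  have hup_bot : up ⊥ = v := by simp only [up, H.fib_bot]; exact hg.symm
  have hup_top : up ⊤ = shift v := by simp only [up, H.fib_top, H.act_shift]; rw [hg]
  have hup_inj : ∀ W W', up W = up W' → W = W' := fun W W' h =>
    le_antisymm ((hup_le W W').1 h.le) ((hup_le W' W).1 h.ge)
  have hlo_v : ∀ W, unshift (up W) ≤ v := fun W => le_shift_iff.1 (hup_v W)
  have hup_surj : ∀ u, v ≤ u → u ≤ shift v → ∃ W, u = up W := fun u h1 h2 => by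
    obtain ⟨W, hW⟩ := H.fib_surj a (gamAct g⁻¹ u)
      (by rw [← H.act_le g, H.act_inv', ← hg]; exact h1)
      (by rw [← H.act_le g, H.act_inv', H.act_shift, ← hg]; exact h2)
    exact ⟨W, by simp only [up, ← hW, H.act_inv']⟩
  -- neighbours above
  have hup_key : ∀ W, W ≠ ⊥ → P0 (up W) ∧
      ((HighDeg (up W) → latKey (up W) < latKey v) ↔ W ⊓ A = ⊥) := by
    intro W hW
    obtain ⟨S, hd, hcard, hlt, -, -⟩ := H.fib_deg a W
    have hne : S.Nonempty := by
      rw [← Finset.card_pos, hcard, Nat.pos_iff_ne_zero]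
      exact fun h => hW (Submodule.finrank_eq_zero.1 h)
    have hd' := H.hasDeg_act hd g
    have hb : ∀ i, a i ≤ (a + bump S) i := fun i => by
      simp only [Pi.add_apply, bump]
      split_ifs <;> omega
    refine ⟨⟨_, fun i => (ha0 i).trans (hb i), hd'⟩, ?_⟩
    have hh : HighDeg (up W) := by
      obtain ⟨i, hi⟩ := exists_mxDeg hM1
      exact ⟨_, hd', i, le_trans (by omega) (hb i)⟩
    rw [imp_iff_right hh, H.latKey_eq hd', H.latKey_eq ha, keyDeg_up hne hM1, hA]
    exact hlt (M - 1)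
  -- neighbours below
  have hlo_key : ∀ W, (P0 (unshift (up W)) ↔ W ⊔ B = ⊤) ∧
      (P0 (unshift (up W)) →
        ((HighDeg (unshift (up W)) → latKey (unshift (up W)) < latKey v) ↔ ¬ C ≤ W)) := by
    intro W
    obtain ⟨S, hd, -, -, htop, hmax⟩ := H.fib_deg a W
    have hd' := H.hasDeg_unshift (H.hasDeg_act hd g)
    set b : Fin n → ℤ := fun i => (a + bump S) i - 1 with hb'
    have hb : ∀ i, b i = a i + (if i ∈ S then 1 else 0) - 1 := fun i => rfl
    have hP0 : P0 (unshift (up W)) ↔ ∀ i, i ∉ S → 1 ≤ a i := by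
      constructor
      · rintro ⟨c, hc0, hc⟩ i hi
        have h1 := H.deg_ge hc hd' le_rfl hc0 i
        rw [hb, if_neg hi] at h1
        omega
      · intro h
        refine ⟨b, fun i => ?_, hd'⟩
        have := ha0 i
        rw [hb]
        split_ifs with hi
        · omega
        · have := h i hi
          omega
    refine ⟨hP0.trans (htop 1), fun _ => ?_⟩
    rw [hC, ← hmax M hMle, H.latKey_eq hd', H.latKey_eq ha, keyDeg_down hM1]
    push Not
    refine ⟨fun h => ?_, fun h _ => h⟩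
    by_contra hno
    push Not at hno
    obtain ⟨i, hi⟩ := exists_mxDeg hM1
    have hhigh : HighDeg (unshift (up W)) := ⟨b, hd', i, by
      rw [hb, if_pos (hno i hi)]
      omega⟩
    obtain ⟨j, hj, hjS⟩ := h hhigh
    exact hjS (hno j hj)
  have hP0v : P0 v := ⟨a, ha0, ha⟩
  have hψP : ∀ p, Q p → P0 (ψ p) ∧ (HighDeg (ψ p) → latKey (ψ p) < latKey v) ∧ ψ p ≠ v := by
    rintro ⟨W, _ | _⟩ hq
    · refine ⟨(hup_key W hq.1).1, (hup_key W hq.1).2.2 hq.2, fun h => hq.1 (hup_inj W ⊥ ?_)⟩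
      rw [hup_bot]
      exact h
    · have hP := (hlo_key W).1.2 hq.1
      refine ⟨hP, ((hlo_key W).2 hP).2 hq.2, fun h => hq.2 ?_⟩
      have h2 : up W = up ⊤ := by
        rw [hup_top, ← shift_unshift (up W)]
        exact congrArg shift h
      rw [hup_inj W ⊤ h2]
      exact le_top
  have hpair : ∀ p q, (p ≤ q ∨ q ≤ p) → Q p → Q q →
      (ψ p ≤ ψ q ∨ ψ q ≤ ψ p) ∧ ψ q ≤ shift (ψ p) := by
    rintro ⟨W, _ | _⟩ ⟨W', _ | _⟩ hpq - -
    · refine ⟨hpq.imp (fun h => (hup_le W W').2 h.1) (fun h => (hup_le W' W).2 h.1), ?_⟩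
      exact (hup_v W').trans (shift_mono (hv_up W))
    · exact ⟨Or.inr ((hlo_v W').trans (hv_up W)),
        ((hlo_v W').trans (hv_up W)).trans (le_shift_self _)⟩
    · refine ⟨Or.inl ((hlo_v W).trans (hv_up W')), ?_⟩
      change up W' ≤ shift (unshift (up W))
      rw [shift_unshift]
      rcases hpq with h | h
      · exact absurd (show true ≤ false from h.2) (by decide)
      · exact (hup_le W' W).2 h.1
    · refine ⟨hpq.imp (fun h => unshift_mono ((hup_le W W').2 h.1))
        (fun h => unshift_mono ((hup_le W' W).2 h.1)), ?_⟩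
      change unshift (up W') ≤ shift (unshift (up W))
      rw [shift_unshift]
      exact (hlo_v W').trans (hv_up W)
  have hψv : ∀ p, (ψ p ≤ v ∨ v ≤ ψ p) ∧ ψ p ≤ shift v ∧ v ≤ shift (ψ p) := by
    rintro ⟨W, _ | _⟩
    · exact ⟨Or.inr (hv_up W), hup_v W, (hv_up W).trans (le_shift_self _)⟩
    · refine ⟨Or.inl (hlo_v W), (hlo_v W).trans (le_shift_self _), ?_⟩
      change v ≤ shift (unshift (up W))
      rw [shift_unshift]
      exact hv_up W
  have hback : ∀ u, u ≠ v → P0 u → (u ≤ v ∨ v ≤ u) → u ≤ shift v → v ≤ shift u →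
      (HighDeg u → latKey u < latKey v) → ∃ p, Q p ∧ ψ p = u := by
    intro u hne hu hcmp h1 h2 hk
    rcases hcmp with h | h
    · obtain ⟨W, hW⟩ := hup_surj (shift u) h2 (shift_mono h)
      have he : unshift (up W) = u := by rw [← hW, unshift_shift]
      rw [← he] at hu hk
      exact ⟨(W, true), ⟨(hlo_key W).1.1 hu, ((hlo_key W).2 hu).1 hk⟩, he⟩
    · obtain ⟨W, rfl⟩ := hup_surj u h h1
      have hW : W ≠ ⊥ := fun e => hne (e ▸ hup_bot)
      exact ⟨(W, false), ⟨hW, (hup_key W hW).2.1 hk⟩, rfl⟩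
  have hcomp : ∀ p q, Q p → Q q → (ψ p ≤ ψ q ∨ ψ q ≤ ψ p) → ψ q ≤ shift (ψ p) →
      ψ p ≤ shift (ψ q) → p ≤ q ∨ q ≤ p := by
    rintro ⟨W, _ | _⟩ ⟨W', _ | _⟩ - - h h1 h2
    · exact h.imp (fun h => ⟨(hup_le W W').1 h, le_rfl⟩) (fun h => ⟨(hup_le W' W).1 h, le_rfl⟩)
    · change up W ≤ shift (unshift (up W')) at h2
      rw [shift_unshift] at h2
      exact Or.inl ⟨(hup_le W W').1 h2, Bool.false_le _⟩
    · change up W' ≤ shift (unshift (up W)) at h1
      rw [shift_unshift] at h1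
      exact Or.inr ⟨(hup_le W' W).1 h1, Bool.false_le _⟩
    · refine h.imp (fun h => ⟨(hup_le W W').1 ?_, le_rfl⟩) (fun h => ⟨(hup_le W' W).1 ?_, le_rfl⟩)
      · simpa [ψ, shift_unshift] using shift_mono h
      · simpa [ψ, shift_unshift] using shift_mono h
  have hinj : Set.InjOn ψ {p | Q p} := by
    rintro ⟨W, _ | _⟩ hp ⟨W', _ | _⟩ hq h
    · rw [hup_inj W W' h]
    · refine ((hψP (W, false) hp).2.2 (le_antisymm ?_ (hv_up W))).elim
      exact h.le.trans (hlo_v W')
    · refine ((hψP (W', false) hq).2.2 (le_antisymm ?_ (hv_up W'))).elim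
      exact h.ge.trans (hlo_v W)
    · rw [hup_inj W W' (by simpa [ψ, shift_unshift] using congrArg shift h)]
  let : Fintype (Submodule k (Fin n → k)) := Fintype.ofFinite _
  let S : Submodule k (Fin n → k) → Prop := fun W =>
    (W ≠ ⊥ ∧ W ⊓ A = ⊥) ∨ (W ≠ ⊤ ∧ W ⊔ B = ⊤ ∧ ¬ C ≤ W)
  have h1 : Acy (OrdC S) m :=
    hS k (Fin n → k) A B C m hCA hAB hC0 (by simpa using hm)
  have h2 : Acy (OrdC Q) m := by
    refine Acy.of_map (Q := Q) Prod.fst ?_ (fun x y _ _ (h : x ≤ y) => (Prod.le_def.1 h).1)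
      (fun W => if W ≠ ⊤ ∧ W ⊔ B = ⊤ ∧ ¬ C ≤ W then (W, true) else (W, false)) ?_ ?_ (⊥, false) h1
    · rintro ⟨W, _ | _⟩ hq
      · exact Or.inl hq
      · exact Or.inr ⟨fun e => hq.2 (le_top.trans e.ge), hq⟩
    · intro W hW
      split_ifs with hL
      · exact ⟨hL.2, le_rfl⟩
      · exact ⟨hW.resolve_right hL, le_rfl⟩
    · rintro W ⟨W', b⟩ hW hq hle
      split_ifs with hL
      · exact ⟨hle, Bool.le_true _⟩
      · cases b
        · exact ⟨hle, le_rfl⟩
        · exfalso
          have hT := hW.resolve_right hL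
          have hq' : W' ⊔ B = ⊤ ∧ ¬ C ≤ W' := hq
          have htop : W ⊔ B = ⊤ := top_le_iff.1 (hq'.1.ge.trans (sup_le_sup_right hle B))
          have hCW : C ≤ W := by
            by_contra hC'
            exact hL ⟨fun e => hC' (le_top.trans e.ge), htop, hC'⟩
          exact hC0 (le_bot_iff.1 ((le_inf hCW hCA).trans_eq hT.2))
  refine h2.image (f := ψ) (hinj.mono fun p hp => ?_) fun t => ⟨fun ht => ?_, ?_⟩
  · obtain ⟨s, hs, hps⟩ := hp
    exact hs.1 p hps
  · obtain ⟨hvt, hK, hkey⟩ := ht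
    refine ⟨Finset.univ.filter fun p => Q p ∧ ψ p ∈ t, ⟨fun p hp => (Finset.mem_filter.1 hp).2.1,
      fun p hp q hq => ?_⟩, ?_⟩
    · obtain ⟨-, hQp, hpt⟩ := Finset.mem_filter.1 hp
      obtain ⟨-, hQq, hqt⟩ := Finset.mem_filter.1 hq
      have hp' := Finset.mem_insert_of_mem (b := v) hpt
      have hq' := Finset.mem_insert_of_mem (b := v) hqt
      exact hcomp p q hQp hQq (hK.1.2 _ hp' _ hq') (hK.2 _ hp' _ hq') (hK.2 _ hq' _ hp')
    · ext u
      simp only [Finset.mem_image, Finset.mem_filter, Finset.mem_univ, true_and]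
      constructor
      · intro hu
        have hu' := Finset.mem_insert_of_mem (b := v) hu
        have hv' := Finset.mem_insert_self v t
        obtain ⟨p, hp, rfl⟩ := hback u (fun e => hvt (e ▸ hu)) (hK.1.1 u hu')
          (hK.1.2 u hu' v hv') (hK.2 v hv' u hu') (hK.2 u hu' v hv') (hkey u hu)
        exact ⟨p, ⟨hp, hu⟩, rfl⟩
      · rintro ⟨p, ⟨-, hpt⟩, rfl⟩
        exact hpt
  · rintro ⟨s, hs, rfl⟩
    refine ⟨fun hmem => ?_, ⟨⟨?_, ?_⟩, ?_⟩, ?_⟩
    · obtain ⟨p, hp, he⟩ := Finset.mem_image.1 hmem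
      exact (hψP p (hs.1 p hp)).2.2 he
    · intro u hu
      rcases Finset.mem_insert.1 hu with rfl | hu'
      · exact hP0v
      · obtain ⟨p, hp, rfl⟩ := Finset.mem_image.1 hu'
        exact (hψP p (hs.1 p hp)).1
    · intro u hu w hw
      rcases Finset.mem_insert.1 hu with e | hu' <;> rcases Finset.mem_insert.1 hw with e' | hw'
      · exact Or.inl (e.trans e'.symm).le
      · obtain ⟨q, -, rfl⟩ := Finset.mem_image.1 hw'
        exact e ▸ (hψv q).1.symm
      · obtain ⟨p, -, rfl⟩ := Finset.mem_image.1 hu'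
        exact e' ▸ (hψv p).1
      · obtain ⟨p, hp, rfl⟩ := Finset.mem_image.1 hu'
        obtain ⟨q, hq, rfl⟩ := Finset.mem_image.1 hw'
        exact (hpair p q (hs.2 p hp q hq) (hs.1 p hp) (hs.1 q hq)).1
    · intro u hu w hw
      rcases Finset.mem_insert.1 hu with e | hu' <;> rcases Finset.mem_insert.1 hw with e' | hw'
      · rw [e, e']
        exact le_shift_self v
      · obtain ⟨q, -, rfl⟩ := Finset.mem_image.1 hw'
        exact e ▸ (hψv q).2.1
      · obtain ⟨p, -, rfl⟩ := Finset.mem_image.1 hu'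
        exact e' ▸ (hψv p).2.2
      · obtain ⟨p, hp, rfl⟩ := Finset.mem_image.1 hu'
        obtain ⟨q, hq, rfl⟩ := Finset.mem_image.1 hw'
        exact (hpair p q (hs.2 p hp q hq) (hs.1 p hp) (hs.1 q hq)).2
    · intro u hu hX
      obtain ⟨p, hp, rfl⟩ := Finset.mem_image.1 hu
      exact (hψP p (hs.1 p hp)).2.1 hX

/-- what is left after both removals -/
theorem LatFacts.xInf_iff [DecidableEq (Lat k n)] (s : Finset (Lat k n)) :
    ((K0 s ∧ ∀ u ∈ s, ¬ HighDeg u) ∧ ∀ u ∈ s, ¬ HasDeg u fun _ => 1) ↔ XInf s := by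
  constructor
  · rintro ⟨⟨⟨hch, hsh⟩, hlow⟩, hone⟩
    refine ⟨fun L hL => ?_, fun L hL L' hL' => ⟨hch.2 L hL L' hL', hsh L hL L' hL'⟩⟩
    obtain ⟨a, ha0, ha⟩ := hch.1 L hL
    have ha1 : ∀ i, a i ≤ 1 := fun i => by
      by_contra h
      exact hlow L hL ⟨a, ha, i, by omega⟩
    refine ⟨a, fun i => ?_, ?_, ha⟩
    · have := ha0 i
      have := ha1 i
      omega
    · by_contra hno
      push Not at hno
      refine hone L hL ?_
      have e : a = fun _ => 1 := funext fun i => by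
        have := ha0 i
        have := ha1 i
        have := hno i
        omega
      exact e ▸ ha
  · rintro ⟨hwin, hch⟩
    refine ⟨⟨⟨⟨fun L hL => ?_, fun L hL L' hL' => (hch L hL L' hL').1⟩,
      fun L hL L' hL' => (hch L hL L' hL').2⟩, fun L hL hhigh => ?_⟩, fun L hL hone => ?_⟩
    · obtain ⟨a, ha01, -, ha⟩ := hwin L hL
      exact ⟨a, fun i => by have := ha01 i; omega, ha⟩
    · obtain ⟨a, ha01, -, ha⟩ := hwin L hL
      obtain ⟨b, hb, i, hi⟩ := hhigh
      have h1 := H.count_eq hb ha 2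
      have h2 : 0 < (Finset.univ.filter fun j => (2 : ℤ) ≤ b j).card :=
        Finset.card_pos.2 ⟨i, by simp [hi]⟩
      rw [h1, Finset.card_pos] at h2
      obtain ⟨j, hj⟩ := h2
      have := (Finset.mem_filter.1 hj).2
      have := ha01 j
      omega
    · obtain ⟨a, -, ⟨i, hi⟩, ha⟩ := hwin L hL
      have := H.deg_ge hone ha le_rfl (fun _ => le_rfl) i
      omega

omit H in
/-- the lattice complex is acyclic in low degrees -/
theorem xInfAcy : SAcyStmt → LatFactsStmt → XInfAcyStmt := by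
  intro hS hF k _ _ n m _ hn
  have H : LatFacts k n := hF.facts
  have hK1 : Acy (fun s => K0 (k := k) (n := n) s ∧ ∀ u ∈ s, ¬ HighDeg u) m := by
    refine Acy.remove (key := latKey) (fun s t hs hts => ⟨ordC_down P0 s t hs.1 hts,
      fun L hL L' hL' => hs.2 L (hts hL) L' (hts hL')⟩) H.keySep (fun v hv hPv => ?_) (H.acy_K0 m)
    exact H.acy_link hS (by omega) v hv (hPv.1.1 v (Finset.mem_singleton_self v))
  have hsum : ∀ (L : Lat k n) (a : Fin n → ℤ), HasDeg L a → ¬ HighDeg L → ∀ i, a i ≤ 1 :=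
    fun L a ha hlow i => by
      by_contra h
      exact hlow ⟨a, ha, i, by omega⟩
  have hone : ∀ s : Finset (Lat k n), (K0 s ∧ ∀ u ∈ s, ¬ HighDeg u) → ∀ u ∈ s, ∀ v ∈ s,
      HasDeg v (fun _ => 1) → u ≤ v := by
    intro s hs u hu v hv hv1
    rcases hs.1.1.2 u hu v hv with h | h
    · exact h
    · by_cases he : v = u
      · exact he.ge
      obtain ⟨a, -, ha⟩ := hs.1.1.1 u hu
      have h1 := H.sum_lt v u _ a hv1 ha h he
      have h2 : ∑ i, a i ≤ ∑ _i : Fin n, (1 : ℤ) :=
        Finset.sum_le_sum fun i _ => hsum u a ha (hs.2 u hu) i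
      omega
  have hK2 := Acy.remove (key := fun _ : Lat k n => (0 : ℕ))
    (X := fun L : Lat k n => HasDeg L fun _ => 1)
    (fun s t hs hts => ⟨⟨ordC_down P0 s t hs.1.1 hts, fun L hL L' hL' =>
      hs.1.2 L (hts hL) L' (hts hL')⟩, fun u hu => hs.2 u (hts hu)⟩)
    (fun s hs u hu v hv hu1 hv1 _ =>
      le_antisymm (hone s hs u hu v hv hv1) (hone s hs v hv u hu hu1)) (fun v hv1 hPv => ?_) hK1
  · exact (show (fun s => (K0 (k := k) (n := n) s ∧ ∀ u ∈ s, ¬ HighDeg u) ∧
      ∀ u ∈ s, ¬ HasDeg u fun _ => 1) = XInf from funext fun s => propext (H.xInf_iff s)) ▸ hK2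
  · have hd : HasDeg (unshift v) fun _ => (0 : ℤ) := by simpa using H.hasDeg_unshift hv1
    have hne : unshift v ≠ v := fun e => by
      have h1 := H.sum_eq (e ▸ hd) hv1
      simp at h1
      omega
    have hd0 : ¬ HighDeg (unshift v) := fun ⟨b, hb, i, hi⟩ => by
      have h1 := H.count_eq hb hd 2
      have h2 : 0 < (Finset.univ.filter fun j => (2 : ℤ) ≤ b j).card :=
        Finset.card_pos.2 ⟨i, by simp [hi]⟩
      rw [h1] at h2
      simp at h2
    refine acy_of_insert (unshift v) (fun t ht => ⟨?_, ⟨⟨⟨?_, ?_⟩, ?_⟩, ?_⟩, ?_⟩) m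
    · simp only [Finset.mem_insert, not_or]
      exact ⟨hne.symm, ht.1⟩
    all_goals have hv' := Finset.mem_insert_self v t
    all_goals have hle : ∀ u ∈ insert v t, u ≤ v := fun u hu => hone _ ht.2.1 u hu v hv' hv1
    all_goals have hge : ∀ u ∈ insert v t, unshift v ≤ u := fun u hu =>
      le_shift_iff.1 (ht.2.1.1.2 u hu v hv')
    all_goals have hsplit : ∀ u ∈ insert v (insert (unshift v) t),
        u = unshift v ∨ u ∈ insert v t := fun u hu =>
          Finset.mem_insert.1 (Finset.insert_comm v (unshift v) t ▸ hu)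
    · intro u hu
      rcases hsplit u hu with rfl | h
      · exact ⟨_, fun _ => le_rfl, hd⟩
      · exact ht.2.1.1.1.1 u h
    · intro u hu w hw
      rcases hsplit u hu with e | h <;> rcases hsplit w hw with e' | h'
      · exact Or.inl (e.trans e'.symm).le
      · exact Or.inl (e ▸ hge w h')
      · exact Or.inr (e' ▸ hge u h)
      · exact ht.2.1.1.1.2 u h w h'
    · intro u hu w hw
      rcases hsplit u hu with e | h <;> rcases hsplit w hw with e' | h'
      · rw [e, e']
        exact le_shift_self _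
      · rw [e, shift_unshift]
        exact hle w h'
      · exact e' ▸ (hge u h).trans (le_shift_self u)
      · exact ht.2.1.1.2 u h w h'
    · intro u hu
      rcases hsplit u hu with rfl | h
      · exact hd0
      · exact ht.2.1.2 u h
    · intro u hu hu1
      rcases Finset.mem_insert.1 hu with rfl | h
      · have h1 := H.sum_eq hd hu1
        simp at h1
        omega
      · exact ht.2.2 u h hu1

end Vale.Agent.P067.KO
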