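import Vale.Agent.P067.KO.Main
import Vale.Agent.P067.KO.Trickle
import Vale.Agent.P067.KO.OppExp
import Vale.Agent.P067.KO.SubspaceOpp
import Vale.Agent.P067.KO.GamActProof
import Vale.Agent.P067.KO.XInfAcy
import Vale.Agent.P067.KO.LatFacts
import Vale.Agent.P067.KO.Rigid
import Vale.Agent.P067.KO.Quotient
import Vale.Agent.P067.KO.FirstQuotient
import Vale.Agent.P067.KO.LinkModel
import Vale.Agent.P067.KO.OppSpec

/-!
All modules but vanishing, put together.
-/

namespace Vale.Agent.P067.KO

theorem mainStmt_rest (hVan : VanishStmt) : MainStmt :=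
  mainStmt_of trickle (oppSpec oppPure) (oppExp oppAcy oppPure) gamAct_xInf (xInfAcy sAcy latFacts) rigid
    (quotient gamAct_xInf rigid linkModel oppPure) (firstQuotient gamAct_xInf) hVan

end Vale.Agent.P067.KO

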