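import Vale.Agent.P067.KO.CoAcy

/-!
Comparison of complexes with free actions: equivariant maps and homotopies modulo a submodule of
the target, and their effect on the cycles and boundaries of coinvariants.
-/

namespace Vale.Agent.P067.KO

open Finset Vale.Agent.P067.Sub

variable {G α β : Type*} [DecidableEq α] [DecidableEq β]

/-- the linear map with prescribed values on sets, between different vertex types -/
noncomputable def liftC {M : Type*} [AddCommGroup M] [Module (ZMod 2) M] (h : Finset α → M) :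
    Ch α →ₗ[ZMod 2] M :=
  Finsupp.linearCombination (ZMod 2) h

omit [DecidableEq α] in
theorem liftC_sg {M : Type*} [AddCommGroup M] [Module (ZMod 2) M] (h : Finset α → M)
    (s : Finset α) : liftC h (sg s) = h s := by
  simp [liftC, sg, Finsupp.linearCombination_single]

omit [DecidableEq α] in
/-- a linear map sends chains on `P` to a submodule if it does so for single sets -/
theorem mapC_On {M : Type*} [AddCommGroup M] [Module (ZMod 2) M] {P : Finset α → Prop}
    {S : Submodule (ZMod 2) M} (A : Ch α →ₗ[ZMod 2] M) (h : ∀ s, P s → A (sg s) ∈ S) {z : Ch α}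
    (hz : z ∈ On P) : A z ∈ S := by
  rw [← Finsupp.sum_single z, Finsupp.sum, map_sum]
  refine Submodule.sum_mem _ fun s hs => ?_
  have e : Finsupp.single s (z s) = z s • sg s := by simp [sg]
  rw [e, map_smul]
  exact Submodule.smul_mem _ _ (h s (hz hs))

/-- the translate of a chain -/
noncomputable def tr (act : G → α → α) (g : G) : Ch α →ₗ[ZMod 2] Ch α :=
  lift fun s => sg (s.image (act g))

theorem tr_sg (act : G → α → α) (g : G) (s : Finset α) :
    tr act g (sg s) = sg (s.image (act g)) := lift_sg _ _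

theorem bd_tr {act : G → α → α} {g : G} (hg : Function.Injective (act g)) (z : Ch α) :
    bd (tr act g z) = tr act g (bd z) := by
  have h : bd.comp (tr act g) = (tr act g).comp bd := by
    refine ext_sg fun s => ?_
    simp only [LinearMap.comp_apply, tr_sg, bd_sg, map_sum]
    rw [Finset.sum_image fun x _ y _ h => hg h]
    exact Finset.sum_congr rfl fun x _ => by rw [Finset.image_erase hg]
  exact LinearMap.congr_fun h z

theorem tr_comp {act : G → α → α} {g h k : G} (hk : ∀ a, act g (act h a) = act k a) (z : Ch α) :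
    tr act g (tr act h z) = tr act k z := by
  have e : (tr act g).comp (tr act h) = tr act k := by
    refine ext_sg fun s => ?_
    simp only [LinearMap.comp_apply, tr_sg, Finset.image_image]
    congr 2
    exact funext hk
  exact LinearMap.congr_fun e z

theorem bd_Sz {P : Finset α → Prop} (hd : Down P) {c : ℕ} {z : Ch α}
    (hz : z ∈ On (Sz P (c + 1))) : bd z ∈ On (Sz P c) := by
  refine map_On bd (fun s hs => ?_) hz
  rw [bd_sg]
  refine Submodule.sum_mem _ fun x hx => sg_mem ⟨hd s _ hs.1 (Finset.erase_subset _ _), ?_⟩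
  rw [Finset.card_erase_of_mem hx, hs.2]
  rfl

theorem bd_zero_card {P : Finset α → Prop} {z : Ch α} (hz : z ∈ On (Sz P 0)) : bd z = 0 := by
  have : bd z ∈ (⊥ : Submodule (ZMod 2) (Ch α)) :=
    map_On bd (fun s hs => by simp [bd_sg, Finset.card_eq_zero.mp hs.2]) hz
  simpa using this

theorem mem_rel_add {act : G → α → α} {H : Set G} {P : Finset α → Prop} {c : ℕ} {g : G}
    (hg : g ∈ H) {z : Ch α} (hz : z ∈ On (Sz P c)) : z + tr act g z ∈ Rel act H P c := by
  refine map_On (LinearMap.id + tr act g) (fun s hs => ?_) hz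
  rw [LinearMap.add_apply, LinearMap.id_apply, tr_sg]
  exact Submodule.subset_span ⟨g, hg, s, hs, rfl⟩

theorem Rel_mono {act : G → α → α} {H H' : Set G} {P : Finset α → Prop} (h : H ⊆ H') (c : ℕ) :
    Rel act H P c ≤ Rel act H' P c := by
  refine Submodule.span_mono ?_
  rintro x ⟨g, hg, s, hs, rfl⟩
  exact ⟨g, h hg, s, hs, rfl⟩

theorem add_eq_iff {M : Type*} [AddCommGroup M] [Module (ZMod 2) M] {S : Submodule (ZMod 2) M}
    {a b : M} (h : a + b ∈ S) (hb : b ∈ S) : a ∈ S := by
  have := Submodule.sub_mem S h hb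
  simpa using this

theorem add_trans_mem {M : Type*} [AddCommGroup M] [Module (ZMod 2) M]
    {S : Submodule (ZMod 2) M} {a b c : M} (h : a + b ∈ S) (h' : b + c ∈ S) : a + c ∈ S := by
  have := Submodule.add_mem S h h'
  rwa [show a + b + (b + c) = a + c + (b + b) by abel, ZModModule.add_self, add_zero] at this

variable [Group G]

/-- an action, as a function -/
structure IsAct (act : G → α → α) : Prop where
  one : ∀ a, act 1 a = a
  mul : ∀ g h a, act (g * h) a = act g (act h a)

namespace IsAct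

variable {act : G → α → α} (hA : IsAct act)

include hA

omit [DecidableEq α] in
theorem inj (g : G) : Function.Injective (act g) := fun a b h => by
  have := congrArg (act g⁻¹) h
  rwa [← hA.mul, ← hA.mul, inv_mul_cancel, hA.one, hA.one] at this

theorem image_one (s : Finset α) : s.image (act 1) = s := by
  conv_rhs => rw [← Finset.image_id (s := s)]
  exact Finset.image_congr fun a _ => hA.one a

theorem image_mul (g h : G) (s : Finset α) :
    s.image (act (g * h)) = (s.image (act h)).image (act g) := by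
  rw [Finset.image_image]
  exact Finset.image_congr fun a _ => hA.mul g h a

theorem tr_mul (g h : G) (z : Ch α) : tr act g (tr act h z) = tr act (g * h) z :=
  tr_comp (fun a => (hA.mul g h a).symm) z

theorem tr_one (z : Ch α) : tr act 1 z = z := by
  have e : tr act 1 = (LinearMap.id : Ch α →ₗ[ZMod 2] Ch α) :=
    ext_sg fun s => by rw [tr_sg, hA.image_one, LinearMap.id_apply]
  exact LinearMap.congr_fun e z

theorem bd_tr' (g : G) (z : Ch α) : bd (tr act g z) = tr act g (bd z) := bd_tr (hA.inj g) z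

omit [DecidableEq α] in
theorem comp {G' : Type*} [Group G'] (σ : G' →* G) : IsAct fun g a => act (σ g) a :=
  ⟨fun a => by rw [map_one, hA.one], fun g h a => by rw [map_mul, hA.mul]⟩

end IsAct

theorem tr_Sz {act : G → α → α} (hA : IsAct act) {P : Finset α → Prop} {g : G}
    (hg : ∀ s, P s → P (s.image (act g))) {c : ℕ} {z : Ch α} (hz : z ∈ On (Sz P c)) :
    tr act g z ∈ On (Sz P c) :=
  map_On _ (fun s hs => by
    rw [tr_sg]
    exact sg_mem ⟨hg s hs.1, (Finset.card_image_of_injective s (hA.inj g)).trans hs.2⟩) hz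

theorem FreeOn.act {act : G → α → α} {H : Subgroup G} {P : Finset α → Prop}
    (h : FreeOn act H P) : IsAct act := ⟨h.one, h.mul⟩

/-- a linear map defined on the faces with `c + a` vertices for `c < K`, with values in sizes
`c + b`, equivariant modulo `R` -/
structure Eqv (act : G → α → α) (H : Subgroup G) (P : Finset α → Prop) (act' : G → β → β)
    (Q : Finset β → Prop) (R : ℕ → Submodule (ZMod 2) (Ch β)) (a b K : ℕ)
    (h : Ch α →ₗ[ZMod 2] Ch β) : Prop where
  mem : ∀ c < K, ∀ s, Sz P (c + a) s → h (sg s) ∈ On (Sz Q (c + b))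
  eqv : ∀ c < K, ∀ s, Sz P (c + a) s → ∀ g ∈ H,
    h (sg (s.image (act g))) + tr act' g (h (sg s)) ∈ R (c + b)

/-- a target for equivariant maps: a submodule closed under boundary and action, modulo which
cycles of small size bound -/
structure Target (H : Subgroup G) (act' : G → β → β) (Q : Finset β → Prop)
    (R : ℕ → Submodule (ZMod 2) (Ch β)) (m : ℕ) : Prop where
  act : IsAct act'
  invariant : ∀ g ∈ H, ∀ s, Q s → Q (s.image (act' g))
  bd_mem : ∀ c, ∀ y ∈ R (c + 1), bd y ∈ R c
  tr_mem : ∀ g ∈ H, ∀ c, ∀ y ∈ R c, tr act' g y ∈ R c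
  fill : ∀ c < m, ∀ y ∈ On (Sz Q c), bd y ∈ R (c - 1) →
    ∃ w ∈ On (Sz Q (c + 1)), y + bd w ∈ R c

theorem Target.mono {H : Subgroup G} {act' : G → β → β} {Q : Finset β → Prop}
    {R : ℕ → Submodule (ZMod 2) (Ch β)} {m m' : ℕ} (hT : Target H act' Q R m) (h : m' ≤ m) :
    Target H act' Q R m' :=
  { hT with fill := fun c hc => hT.fill c (lt_of_lt_of_le hc h) }

/-- extension of an equivariant map over a free complex -/
theorem exists_ext {act : G → α → α} {H : Subgroup G} {P : Finset α → Prop}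
    (hP : FreeOn act H P) {act' : G → β → β} {Q : Finset β → Prop}
    {R : ℕ → Submodule (ZMod 2) (Ch β)} {δ : ℕ} :
    ∀ K : ℕ, Target H act' Q R (K + δ) → ∀ {Φ : Ch α →ₗ[ZMod 2] Ch β} {e : Ch β},
      Eqv act H P act' Q R 1 δ K Φ → e ∈ On (Sz Q δ) →
      (∀ g ∈ H, e + tr act' g e ∈ R δ) →
      (∀ v, P {v} → bd (Φ (sg {v})) + bd e ∈ R (δ - 1)) →
      (∀ c, c + 1 < K → ∀ s, Sz P (c + 2) s → bd (Φ (sg s)) + Φ (bd (sg s)) ∈ R (c + δ)) →
      ∃ h : Ch α →ₗ[ZMod 2] Ch β, h (sg ∅) = e ∧ Eqv act H P act' Q R 0 δ (K + 1) h ∧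
        ∀ c < K, ∀ s, Sz P (c + 1) s →
          bd (h (sg s)) + h (bd (sg s)) + Φ (sg s) ∈ R (c + δ) := by
  classical
  intro K
  induction K with
  | zero =>
    intro hT Φ e _ he hetr _ _
    refine ⟨liftC fun _ => e, liftC_sg _ _, ⟨fun c hc s _ => ?_, fun c hc s _ g hg => ?_⟩,
      fun c hc => absurd hc (Nat.not_lt_zero _)⟩
    · obtain rfl : c = 0 := by omega
      simpa [liftC_sg] using he
    · obtain rfl : c = 0 := by omega
      simpa [liftC_sg] using hetr g hg
  | succ K ih =>
    intro hT Φ e hΦ he hetr hb0 hb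
    obtain ⟨h, h0, hh, hhom⟩ := ih (hT.mono (by omega)) (Φ := Φ) (e := e)
      ⟨fun c hc => hΦ.mem c (by omega), fun c hc => hΦ.eqv c (by omega)⟩ he hetr hb0
      (fun c hc => hb c (by omega))
    let st : Setoid (Finset α) :=
      ⟨fun s t => ∃ g ∈ H, s.image (act g) = t, fun s => ⟨1, H.one_mem, hP.act.image_one s⟩,
        fun {s t} ⟨g, hg, hgs⟩ => ⟨g⁻¹, H.inv_mem hg, by
          rw [← hgs, ← hP.act.image_mul, inv_mul_cancel, hP.act.image_one]⟩,
        fun {s t u} ⟨g, hg, hgs⟩ ⟨g', hg', hgt⟩ => ⟨g' * g, H.mul_mem hg' hg, by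
          rw [hP.act.image_mul, hgs, hgt]⟩⟩
    let rep : Finset α → Finset α := fun s => (Quotient.mk st s).out
    have hrep : ∀ s, ∃ g ∈ H, (rep s).image (act g) = s := fun s =>
      Quotient.exact (Quotient.out_eq (Quotient.mk st s))
    choose gs hgs hgs' using hrep
    have hrepeq : ∀ g ∈ H, ∀ s, rep (s.image (act g)) = rep s := fun g hg s => by
      show (Quotient.mk st _).out = (Quotient.mk st s).out
      rw [Quotient.sound (s := st) (a := s) (b := s.image (act g)) ⟨g, hg, rfl⟩]
    have hrepSz : ∀ s, Sz P (K + 1) s → Sz P (K + 1) (rep s) := fun s hs => by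
      have h1 : rep s = s.image (act (gs s)⁻¹) := by
        conv_rhs => arg 2; rw [← hgs' s]
        rw [← hP.act.image_mul, inv_mul_cancel, hP.act.image_one]
      rw [h1]
      exact ⟨hP.invariant _ (H.inv_mem (hgs s)) _ hs.1,
        (Finset.card_image_of_injective _ (hP.act.inj _)).trans hs.2⟩
    have hfill : ∀ r, ∃ w : Ch β, Sz P (K + 1) r →
        w ∈ On (Sz Q (K + 1 + δ)) ∧ bd w + h (bd (sg r)) + Φ (sg r) ∈ R (K + δ) := by
      intro r
      by_cases hr : Sz P (K + 1) r
      swap
      · exact ⟨0, fun h => absurd h hr⟩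
      have hbr : bd (sg r) ∈ On (Sz P K) := bd_Sz hP.down (sg_mem hr)
      have hy : h (bd (sg r)) + Φ (sg r) ∈ On (Sz Q (K + δ)) :=
        Submodule.add_mem _ (mapC_On h (fun t ht => hh.mem K (by omega) t ht) hbr)
          (hΦ.mem K (by omega) r hr)
      have hcyc : bd (h (bd (sg r)) + Φ (sg r)) ∈ R (K + δ - 1) := by
        rw [map_add]
        rcases K with _ | K
        · obtain ⟨v, rfl⟩ := Finset.card_eq_one.mp hr.2
          rw [bd_sg {v}, Finset.sum_singleton, Finset.erase_singleton, h0, Nat.zero_add,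
            add_comm]
          exact hb0 v hr.1
        · have h1 : bd (h (bd (sg r))) + h (bd (bd (sg r))) + Φ (bd (sg r)) ∈ R (K + δ) := by
            have := mapC_On (bd.comp h + h.comp bd + Φ) (S := R (K + δ))
              (fun t ht => by simpa using hhom K (by omega) t ht) hbr
            simpa using this
          rw [bd_bd, map_zero, add_zero] at h1
          have h2 := hb K (by omega) r hr
          rw [add_comm (bd (Φ (sg r)))] at h2
          have h3 := add_trans_mem h1 h2
          rwa [show K + 1 + δ - 1 = K + δ by omega]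
      obtain ⟨w, hw, hwR⟩ := hT.fill (K + δ) (by omega) _ hy hcyc
      refine ⟨w, fun _ => ⟨by rwa [show K + 1 + δ = K + δ + 1 by omega], ?_⟩⟩
      rwa [add_comm (bd w) (h (bd (sg r))), add_right_comm]
    choose W hW using hfill
    let h' : Ch α →ₗ[ZMod 2] Ch β := liftC fun s =>
      if Sz P (K + 1) s then tr act' (gs s) (W (rep s)) else h (sg s)
    have hlow : ∀ c, c ≤ K → ∀ s, Sz P c s → h' (sg s) = h (sg s) := fun c hc s hs => by
      show liftC _ (sg s) = _
      rw [liftC_sg, if_neg fun hn => absurd (hn.2.symm.trans hs.2) (by omega)]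
    have hlowOn : ∀ c, c ≤ K → ∀ z ∈ On (Sz P c), h' z = h z := by
      intro c hc z hz
      have := mapC_On (h' + h) (S := ⊥) (fun s hs => by
        simp [hlow c hc s hs, add_self']) hz
      rw [Submodule.mem_bot, LinearMap.add_apply] at this
      exact (add_eq_zero_iff_eq_neg.mp this).trans (ZModModule.neg_eq_self _)
    have htop : ∀ s, Sz P (K + 1) s → h' (sg s) = tr act' (gs s) (W (rep s)) := fun s hs => by
      show liftC _ (sg s) = _
      rw [liftC_sg, if_pos hs]
    refine ⟨h', ?_, ⟨fun c hc s hs => ?_, fun c hc s hs g hg => ?_⟩, fun c hc s hs => ?_⟩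
    · show liftC _ (sg ∅) = e
      rw [liftC_sg, if_neg (fun hn => absurd hn.2 (by simp)), h0]
    · rw [add_zero] at hs
      rcases Nat.lt_succ_iff_lt_or_eq.mp hc with hc' | rfl
      · rw [hlow c (by omega) s hs]
        exact hh.mem c hc' s hs
      · rw [htop s hs]
        exact tr_Sz hT.act (hT.invariant _ (hgs s)) (hW _ (hrepSz s hs)).1
    · rw [add_zero] at hs
      have hs' : Sz P c (s.image (act g)) :=
        ⟨hP.invariant g hg s hs.1,
          (Finset.card_image_of_injective _ (hP.act.inj g)).trans hs.2⟩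
      rcases Nat.lt_succ_iff_lt_or_eq.mp hc with hc' | rfl
      · rw [hlow c (by omega) s hs, hlow c (by omega) _ hs']
        exact hh.eqv c hc' s hs g hg
      · rw [htop s hs, htop _ hs', hrepeq g hg s, hT.act.tr_mul]
        have hne : (rep s).Nonempty := Finset.card_pos.mp (by rw [(hrepSz s hs).2]; omega)
        have e1 : gs (s.image (act g)) = g * gs s := by
          have h1 : (rep s).image (act ((g * gs s)⁻¹ * gs (s.image (act g)))) = rep s := by
            have h2 := hgs' (s.image (act g))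
            rw [hrepeq g hg s] at h2
            rw [hP.act.image_mul, h2]
            have h3 : s.image (act g) = (rep s).image (act (g * gs s)) := by
              rw [hP.act.image_mul, hgs']
            rw [h3, ← hP.act.image_mul, inv_mul_cancel, hP.act.image_one]
          exact (inv_mul_eq_one.mp (hP.free _ (H.mul_mem (H.inv_mem (H.mul_mem hg (hgs s)))
            (hgs _)) _ (hrepSz s hs).1 hne h1)).symm
        rw [e1, ZModModule.add_self]
        exact Submodule.zero_mem _
    · rcases Nat.lt_succ_iff_lt_or_eq.mp hc with hc' | rfl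
      · rw [hlow (c + 1) (by omega) s hs, hlowOn c (by omega) _ (bd_Sz hP.down (sg_mem hs))]
        exact hhom c hc' s hs
      · rw [htop s hs, hlowOn c le_rfl _ (bd_Sz hP.down (sg_mem hs)), hT.act.bd_tr']
        have hr := hrepSz s hs
        have h1 := hT.tr_mem _ (hgs s) _ _ (hW _ hr).2
        rw [map_add, map_add] at h1
        have h2 : h (bd (sg s)) + tr act' (gs s) (h (bd (sg (rep s)))) ∈ R (c + δ) := by
          have := mapC_On (h.comp (tr act (gs s)) + (tr act' (gs s)).comp h) (S := R (c + δ))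
            (fun t ht => by simpa [tr_sg] using hh.eqv c (by omega) t ht (gs s) (hgs s))
            (bd_Sz hP.down (sg_mem hr))
          simpa [← hP.act.bd_tr', tr_sg, hgs'] using this
        have h3 := hΦ.eqv c (by omega) _ hr (gs s) (hgs s)
        rw [hgs'] at h3
        have h4 := Submodule.add_mem _ (Submodule.add_mem _ h1 h2) h3
        convert h4 using 1
        have key : ∀ a b b' c c' : Ch β,
            a + b + c = a + b' + c' + (b + b') + (c + c') := by
          intro a b b' c c'
          rw [show a + b' + c' + (b + b') + (c + c') = a + b + c + ((b' + b') + (c' + c')) by abel,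
            ZModModule.add_self, ZModModule.add_self, add_zero, add_zero]
        exact key _ _ _ _ _

/-- an equivariant chain map, up to size `K` -/
structure ChMap (act : G → α → α) (H : Subgroup G) (P : Finset α → Prop) (act' : G → β → β)
    (Q : Finset β → Prop) (R : ℕ → Submodule (ZMod 2) (Ch β)) (K : ℕ)
    (T : Ch α →ₗ[ZMod 2] Ch β) : Prop where
  empty : T (sg ∅) = sg ∅
  eqv : Eqv act H P act' Q R 0 0 (K + 1) T
  comm : ∀ c < K, ∀ s, Sz P (c + 1) s → bd (T (sg s)) + T (bd (sg s)) ∈ R c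

theorem exists_chMap {act : G → α → α} {H : Subgroup G} {P : Finset α → Prop}
    (hP : FreeOn act H P) {act' : G → β → β} {Q : Finset β → Prop}
    {R : ℕ → Submodule (ZMod 2) (Ch β)} {K : ℕ} (hT : Target H act' Q R K) (hQ : Q ∅) :
    ∃ T, ChMap act H P act' Q R K T := by
  have hz : Eqv act H P act' Q R 1 0 K (0 : Ch α →ₗ[ZMod 2] Ch β) :=
    ⟨fun c _ s _ => Submodule.zero_mem _, fun c _ s _ g _ => by simp⟩
  obtain ⟨T, h0, h1, h2⟩ := exists_ext hP (δ := 0) K hT (Φ := 0) (e := sg ∅) hz
    (sg_mem ⟨hQ, rfl⟩) (fun g _ => by simp [tr_sg, add_self'])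
    (fun v _ => by simp [bd_sg]) (fun c _ s _ => by simp)
  exact ⟨T, h0, h1, fun c hc s hs => by simpa using h2 c hc s hs⟩

/-- the cycles of coinvariants -/
noncomputable def cyc (act : G → α → α) (H : Set G) (P : Finset α → Prop) (c : ℕ) :
    Submodule (ZMod 2) (Ch α) :=
  On (Sz P c) ⊓ (Rel act H P (c - 1)).comap bd

/-- the boundaries of coinvariants -/
noncomputable def bnd (act : G → α → α) (H : Set G) (P : Finset α → Prop) (c : ℕ) :
    Submodule (ZMod 2) (Ch α) :=
  Rel act H P c ⊔ (On (Sz P (c + 1))).map bd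

omit [Group G] in
theorem mem_cyc {act : G → α → α} {H : Set G} {P : Finset α → Prop} {c : ℕ} {z : Ch α} :
    z ∈ cyc act H P c ↔ z ∈ On (Sz P c) ∧ bd z ∈ Rel act H P (c - 1) := Iff.rfl

omit [Group G] in
theorem mem_bnd {act : G → α → α} {H : Set G} {P : Finset α → Prop} {c : ℕ} {z : Ch α} :
    z ∈ bnd act H P c ↔ ∃ w ∈ On (Sz P (c + 1)), z + bd w ∈ Rel act H P c := by
  constructor
  · intro h
    obtain ⟨a, ha, b, hb, rfl⟩ := Submodule.mem_sup.mp h
    obtain ⟨w, hw, rfl⟩ := Submodule.mem_map.mp hb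
    exact ⟨w, hw, by rwa [add_assoc, add_self', add_zero]⟩
  · rintro ⟨w, hw, h⟩
    exact Submodule.mem_sup.mpr ⟨_, h, _, Submodule.mem_map_of_mem hw,
      by rw [add_assoc, add_self', add_zero]⟩

omit [Group G] in
theorem coAcy_iff {act : G → α → α} {H : Set G} {P : Finset α → Prop} {m : ℕ} :
    CoAcy act H P m ↔ ∀ c, 1 ≤ c → c < m → cyc act H P c ≤ bnd act H P c :=
  ⟨fun h c h1 h2 z hz => mem_bnd.mpr (h c h1 h2 z (mem_cyc.mp hz).1 (mem_cyc.mp hz).2),
    fun h c h1 h2 z hz hb => mem_bnd.mp (h c h1 h2 (mem_cyc.mpr ⟨hz, hb⟩))⟩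

omit [Group G] in
theorem cyc_mono {act : G → α → α} {H H' : Set G} {P : Finset α → Prop} (h : H ⊆ H') (c : ℕ) :
    cyc act H P c ≤ cyc act H' P c :=
  inf_le_inf le_rfl (Submodule.comap_mono (Rel_mono h _))

omit [Group G] in
theorem bnd_mono {act : G → α → α} {H H' : Set G} {P : Finset α → Prop} (h : H ⊆ H') (c : ℕ) :
    bnd act H P c ≤ bnd act H' P c :=
  sup_le_sup (Rel_mono h c) le_rfl

variable {G' : Type*}

theorem Eqv.map_Sz {act : G → α → α} {H : Subgroup G} {P : Finset α → Prop} {act' : G → β → β}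
    {Q : Finset β → Prop} {R : ℕ → Submodule (ZMod 2) (Ch β)} {a b K : ℕ}
    {h : Ch α →ₗ[ZMod 2] Ch β} (he : Eqv act H P act' Q R a b K h) {c : ℕ} (hc : c < K)
    {z : Ch α} (hz : z ∈ On (Sz P (c + a))) : h z ∈ On (Sz Q (c + b)) :=
  mapC_On h (he.mem c hc) hz

/-- equivariant maps take relations to relations -/
theorem Eqv.map_Rel {act : G → α → α} {H : Subgroup G} {P : Finset α → Prop}
    {actB : G' → β → β} {σ : G → G'} {H' : Set G'}
    {Q : Finset β → Prop} {R : ℕ → Submodule (ZMod 2) (Ch β)} {a b K : ℕ}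
    {h : Ch α →ₗ[ZMod 2] Ch β}
    (he : Eqv act H P (fun g x => actB (σ g) x) Q R a b K h) (hσ : ∀ g ∈ H, σ g ∈ H')
    {c : ℕ} (hc : c < K) (hR : R (c + b) ≤ Rel actB H' Q (c + b))
    {z : Ch α} (hz : z ∈ Rel act (H : Set G) P (c + a)) :
    h z ∈ Rel actB H' Q (c + b) := by
  refine (Submodule.span_le.mpr ?_ : Rel act (H : Set G) P (c + a) ≤
    (Rel actB H' Q (c + b)).comap h) hz
  rintro x ⟨g, hg, s, hs, rfl⟩
  rw [SetLike.mem_coe, Submodule.mem_comap, map_add]
  have h1 := mem_rel_add (act := actB) (hσ g hg) (he.mem c hc s hs)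
  have h2 := hR (he.eqv c hc s hs g hg)
  have e : tr actB (σ g) (h (sg s)) = tr (fun g x => actB (σ g) x) g (h (sg s)) := rfl
  rw [e] at h1
  rw [add_comm (h (sg (s.image (act g))))] at h2
  exact add_trans_mem h1 h2

variable {act : G → α → α} {H : Subgroup G} {P : Finset α → Prop}
  {actB : G' → β → β} {σ : G → G'} {H' : Set G'} {Q : Finset β → Prop}
  {R : ℕ → Submodule (ZMod 2) (Ch β)} {K : ℕ}

theorem ChMap.map_cyc {T : Ch α →ₗ[ZMod 2] Ch β}
    (hT : ChMap act H P (fun g x => actB (σ g) x) Q R K T) (hσ : ∀ g ∈ H, σ g ∈ H')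
    (hR : ∀ c, R c ≤ Rel actB H' Q c) {c : ℕ} (h1 : 1 ≤ c) (hc : c ≤ K) {z : Ch α}
    (hz : z ∈ cyc act (H : Set G) P c) : T z ∈ cyc actB H' Q c := by
  obtain ⟨hz, hb⟩ := mem_cyc.mp hz
  obtain ⟨c, rfl⟩ : ∃ d, c = d + 1 := ⟨c - 1, by omega⟩
  refine mem_cyc.mpr ⟨hT.eqv.map_Sz (by omega) hz, ?_⟩
  have h := mapC_On (bd.comp T + T.comp bd) (S := R c)
    (fun s hs => by simpa using hT.comm c (by omega) s hs) hz
  rw [LinearMap.add_apply, LinearMap.comp_apply, LinearMap.comp_apply] at h
  exact add_eq_iff (hR c h) (hT.eqv.map_Rel (a := 0) (b := 0) hσ (c := c) (by omega) (hR _) hb)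

theorem ChMap.map_bnd {T : Ch α →ₗ[ZMod 2] Ch β}
    (hT : ChMap act H P (fun g x => actB (σ g) x) Q R K T) (hσ : ∀ g ∈ H, σ g ∈ H')
    (hR : ∀ c, R c ≤ Rel actB H' Q c) {c : ℕ} (hc : c < K) {z : Ch α}
    (hz : z ∈ bnd act (H : Set G) P c) : T z ∈ bnd actB H' Q c := by
  obtain ⟨w, hw, hzw⟩ := mem_bnd.mp hz
  refine mem_bnd.mpr ⟨T w, hT.eqv.map_Sz (c := c + 1) (by omega) hw, ?_⟩
  have h := mapC_On (bd.comp T + T.comp bd) (S := R c)
    (fun s hs => by simpa using hT.comm c hc s hs) hw
  rw [LinearMap.add_apply, LinearMap.comp_apply, LinearMap.comp_apply, add_comm] at h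
  have h' := hT.eqv.map_Rel (a := 0) (b := 0) hσ (c := c) (by omega) (hR _) hzw
  rw [map_add] at h'
  exact add_trans_mem h' (hR c h)

/-- chain maps with the same twist agree on cycles modulo boundaries -/
theorem ChMap.homotopic {T T' : Ch α →ₗ[ZMod 2] Ch β} (hP : FreeOn act H P)
    (hQ : Target H (fun g x => actB (σ g) x) Q R (K + 1))
    (hT : ChMap act H P (fun g x => actB (σ g) x) Q R K T)
    (hT' : ChMap act H P (fun g x => actB (σ g) x) Q R K T')
    (hσ : ∀ g ∈ H, σ g ∈ H') (hR : ∀ c, R c ≤ Rel actB H' Q c)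
    {c : ℕ} (h1 : 1 ≤ c) (hc : c ≤ K) {z : Ch α} (hz : z ∈ cyc act (H : Set G) P c) :
    T z + T' z ∈ bnd actB H' Q c := by
  obtain ⟨hz, hb⟩ := mem_cyc.mp hz
  obtain ⟨d, rfl⟩ : ∃ d, c = d + 1 := ⟨c - 1, by omega⟩
  obtain ⟨h, -, he, hh⟩ := exists_ext hP (δ := 1) K hQ (Φ := T + T') (e := 0)
    ⟨fun c hc s hs => Submodule.add_mem _ (hT.eqv.mem (c + 1) (by omega) s hs)
      (hT'.eqv.mem (c + 1) (by omega) s hs), fun c hc s hs g hg => by
      have := Submodule.add_mem _ (hT.eqv.eqv (c + 1) (by omega) s hs g hg)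
        (hT'.eqv.eqv (c + 1) (by omega) s hs g hg)
      rwa [LinearMap.add_apply, LinearMap.add_apply, map_add,
        add_add_add_comm]⟩
    (Submodule.zero_mem _) (fun g _ => by simp) (fun v hv => by
      rcases Nat.eq_zero_or_pos K with hK | hK
      · omega
      have hs : Sz P (0 + 1) {v} := ⟨hv, Finset.card_singleton v⟩
      have h2 := Submodule.add_mem _ (hT.comm 0 hK {v} hs) (hT'.comm 0 hK {v} hs)
      rw [bd_sg {v}, Finset.sum_singleton, Finset.erase_singleton, hT.empty, hT'.empty,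
        add_add_add_comm, add_self', add_zero, ← map_add] at h2
      simpa using h2)
    (fun c hc s hs => by
      have h2 := Submodule.add_mem _ (hT.comm (c + 1) (by omega) s hs)
        (hT'.comm (c + 1) (by omega) s hs)
      rwa [LinearMap.add_apply, LinearMap.add_apply, map_add, add_add_add_comm])
  refine mem_bnd.mpr ⟨h z, he.map_Sz (by omega) hz, ?_⟩
  have h2 := mapC_On (bd.comp h + h.comp bd + (T + T')) (S := R (d + 1))
    (fun s hs => by simpa using hh d (by omega) s hs) hz
  simp only [LinearMap.add_apply, LinearMap.comp_apply] at h2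
  have h3 := he.map_Rel (a := 0) (b := 1) hσ (c := d) (by omega) (hR _) hb
  have h4 := add_eq_iff (show bd (h z) + (T z + T' z) + h (bd z) ∈ Rel actB H' Q (d + 1) by
    rw [show bd (h z) + (T z + T' z) + h (bd z) = bd (h z) + h (bd z) + (T z + T' z) by abel]
    exact hR _ h2) h3
  rwa [add_comm (T z + T' z)]

end Vale.Agent.P067.KO
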