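import Mathlib

/-!
Finite complexes given by their top faces, with the weights induced by a uniform top face, their
links, coboundaries, link expansion, and spectral gaps of their graphs. Everything is indexed by
the number of vertices of a face.
-/

namespace Vale.Agent.P067.KO

open Finset

variable {V : Type*} [DecidableEq V]

/-- the faces: subsets of top faces -/
def IsFace (X : Finset (Finset V)) (s : Finset V) : Prop := ∃ T ∈ X, s ⊆ T

/-- the faces with `k` vertices -/
def kf (X : Finset (Finset V)) (k : ℕ) : Finset (Finset V) :=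
  X.biUnion fun T => T.powersetCard k

/-- all top faces have `c` vertices -/
def TopCard (c : ℕ) (X : Finset (Finset V)) : Prop := ∀ T ∈ X, T.card = c

/-- every vertex is in at most `D` top faces -/
def DegLE (D : ℕ) (X : Finset (Finset V)) : Prop := ∀ v, (X.filter fun T => v ∈ T).card ≤ D

/-- the top faces of the link of `σ` -/
def link (X : Finset (Finset V)) (σ : Finset V) : Finset (Finset V) :=
  (X.filter fun T => σ ⊆ T).image fun T => T \ σ

/-- the weight of a face: a uniform top face, then a uniform face of it of the same size -/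
noncomputable def wt (X : Finset (Finset V)) (s : Finset V) : ℝ :=
  ∑ T ∈ X.filter (fun T => s ⊆ T), (((T.card).choose s.card : ℝ) * (X.card : ℝ))⁻¹

/-- the norm of a cochain on faces with `k` vertices -/
noncomputable def nrm (X : Finset (Finset V)) (k : ℕ) (f : Finset V → ZMod 2) : ℝ :=
  ∑ s ∈ (kf X k).filter (fun s => f s ≠ 0), wt X s

/-- the coboundary, augmented by the empty face -/
def dl (f : Finset V → ZMod 2) (t : Finset V) : ZMod 2 := ∑ x ∈ t, f (t.erase x)

/-- coboundary expansion of all links of nonempty faces in the degrees needed up to `d` -/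
def LinkExp (d : ℕ) (β : ℝ) (X : Finset (Finset V)) : Prop :=
  ∀ σ : Finset V, IsFace X σ → σ.Nonempty → ∀ k, 1 ≤ k → σ.card + k ≤ d + 1 →
    ∀ f : Finset V → ZMod 2, ∃ h : Finset V → ZMod 2,
      β * nrm (link X σ) k (f + dl h) ≤ nrm (link X σ) (k + 1) (dl f)

/-- the second eigenvalue of the graph of `X` is at most `lam`, as a quadratic form -/
def Gap (lam : ℝ) (X : Finset (Finset V)) : Prop :=
  ∀ φ : V → ℝ,
    ∑ e ∈ kf X 2, wt X e * ∏ x ∈ e, φ x ≤
      (∑ e ∈ kf X 1, wt X e * ∏ x ∈ e, φ x) ^ 2 +
        lam * (∑ e ∈ kf X 1, wt X e * ∏ x ∈ e, φ x ^ 2 -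
          (∑ e ∈ kf X 1, wt X e * ∏ x ∈ e, φ x) ^ 2)

/-- the graph of `X` is connected -/
def Conn (X : Finset (Finset V)) : Prop :=
  ∀ u v, IsFace X {u} → IsFace X {v} →
    Relation.ReflTransGen (fun a b => IsFace X {a, b}) u v

/-- small sets span few edges, in every link of a face with at most `d` vertices -/
def MixLinks (d : ℕ) (lam : ℝ) (X : Finset (Finset V)) : Prop :=
  ∀ σ : Finset V, IsFace X σ → σ.card ≤ d → ∀ S : Finset V,
    ∑ e ∈ (kf (link X σ) 2).filter (fun e => e ⊆ S), wt (link X σ) e ≤
      (∑ e ∈ (kf (link X σ) 1).filter (fun e => e ⊆ S), wt (link X σ) e) *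
        (∑ e ∈ (kf (link X σ) 1).filter (fun e => e ⊆ S), wt (link X σ) e + lam)

/-- the image of a complex under a map of vertices -/
def mapC {W : Type*} [DecidableEq W] (g : V → W) (X : Finset (Finset V)) : Finset (Finset W) :=
  X.image fun T => T.image g

end Vale.Agent.P067.KO
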