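import Vale.Agent.P067.KO.Pins

/-!
Matrices of determinant one over the truncated polynomial ring are products of transvections,
also relative to a set of fixed basis vectors; hence a subgroup containing a congruence subgroup
and all transvections is everything.
-/

namespace Vale.Agent.P067.KO

open Polynomial

section Trunc

variable (k : Type*) [Field k] (m : ℕ)

/-- polynomials truncated at the `m`-th power of the variable -/
abbrev Trunc : Type _ := Polynomial k ⧸ Ideal.span {(X : Polynomial k) ^ m}

/-- reduction -/
noncomputable abbrev red : Polynomial k →+* Trunc k m :=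
  Ideal.Quotient.mk (Ideal.span {(X : Polynomial k) ^ m})

variable {k m}

/-- the constant term of a truncated polynomial -/
noncomputable def tEval (hm : 1 ≤ m) : Trunc k m →+* k :=
  Ideal.Quotient.lift _ (evalRingHom 0) fun a ha => by
    obtain ⟨b, rfl⟩ := Ideal.mem_span_singleton.mp ha
    simp [show m ≠ 0 by omega]

theorem tEval_red (hm : 1 ≤ m) (a : Polynomial k) : tEval hm (red k m a) = a.eval 0 :=
  Ideal.Quotient.lift_mk _ _ _

theorem isUnit_trunc (hm : 1 ≤ m) (x : Trunc k m) : IsUnit x ↔ tEval hm x ≠ 0 := by
  refine ⟨fun h => (h.map (tEval hm)).ne_zero, fun h => ?_⟩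
  obtain ⟨a, rfl⟩ := Ideal.Quotient.mk_surjective x
  rw [tEval_red hm] at h
  have hX : ¬ (X : Polynomial k) ∣ a := fun hd => h (by
    obtain ⟨b, rfl⟩ := hd
    simp)
  have hco : IsCoprime ((X : Polynomial k) ^ m) a :=
    ((Polynomial.prime_X.irreducible.coprime_iff_not_dvd).mpr hX).pow_left
  obtain ⟨u, v, huv⟩ := hco
  refine .of_mul_eq_one (red k m v) ?_
  have h0 : red k m ((X : Polynomial k) ^ m) = 0 :=
    Ideal.Quotient.eq_zero_iff_mem.mpr (Ideal.mem_span_singleton_self _)
  rw [← map_mul]
  have := congrArg (red k m) huv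
  rw [map_add, map_mul, map_mul, h0, mul_zero, zero_add, map_one] at this
  rw [mul_comm, map_mul, this]

theorem nontrivial_trunc (hm : 1 ≤ m) : Nontrivial (Trunc k m) :=
  ⟨⟨0, 1, fun h => zero_ne_one (α := k) (by simpa using congrArg (tEval hm) h)⟩⟩

theorem red_det {n : ℕ} (M : Matrix (Fin n) (Fin n) (Polynomial k)) :
    red k m M.det = (M.map (red k m)).det :=
  RingHom.map_det _ _

end Trunc

variable {k : Type*} [Field k] {n m : ℕ}

/-- the transvections of the group -/
def transvSet (k : Type*) [Field k] (n : ℕ) : Set (Gam n k) :=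
  {g | ∃ (i j : Fin n) (a : Polynomial k), i ≠ j ∧
    (g : Matrix (Fin n) (Fin n) (Polynomial k)) = Matrix.transvection i j a}

/-- the columns of the index set are those of the identity -/
def Fixes {R : Type*} [CommRing R] (I : Finset (Fin n)) (M : Matrix (Fin n) (Fin n) R) : Prop :=
  ∀ i ∈ I, ∀ r, M r i = (1 : Matrix (Fin n) (Fin n) R) r i

theorem Fixes.mul {R : Type*} [CommRing R] {I : Finset (Fin n)}
    {A B : Matrix (Fin n) (Fin n) R} (hA : Fixes I A) (hB : Fixes I B) : Fixes I (A * B) := by
  intro i hi r
  rw [Matrix.mul_apply, Finset.sum_eq_single i]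
  · rw [hB i hi i, Matrix.one_apply_eq, mul_one, hA i hi r]
  · intro s _ hs
    rw [hB i hi s, Matrix.one_apply_ne hs, mul_zero]
  · simp

theorem Fixes.transvection {R : Type*} [CommRing R] {I : Finset (Fin n)} {i j : Fin n} (a : R)
    (hj : j ∉ I) : Fixes I (Matrix.transvection i j a) := by
  intro l hl r
  have hlj : j ≠ l := fun h => hj (h ▸ hl)
  simp [Matrix.transvection, hlj]

theorem Fixes.det_eq {R : Type*} [CommRing R] {I : Finset (Fin n)} {j : Fin n}
    (hI : ∀ i, i ≠ j → i ∈ I) {M : Matrix (Fin n) (Fin n) R} (hM : Fixes I M) :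
    M.det = M j j := by
  have h : M = Matrix.updateCol 1 j (fun r => M r j) := by
    ext r i
    rw [Matrix.updateCol_apply]
    split_ifs with h
    · rw [h]
    · exact hM i (hI i h) r
  conv_lhs => rw [h, ← Matrix.cramer_apply, Matrix.cramer_one]
  rfl

/-- the matrix has a preimage among products of transvections fixing the index set -/
def Lifts (k : Type*) [Field k] (m : ℕ) (I : Finset (Fin n))
    (N : Matrix (Fin n) (Fin n) (Trunc k m)) : Prop :=
  ∃ M : Gam n k, M ∈ Subgroup.closure (transvSet k n) ∧
    Fixes I (M : Matrix (Fin n) (Fin n) (Polynomial k)) ∧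
    (M : Matrix (Fin n) (Fin n) (Polynomial k)).map (red k m) = N

theorem Lifts.one {I : Finset (Fin n)} : Lifts k m I 1 :=
  ⟨1, Subgroup.one_mem _, fun i _ r => by simp, by simp⟩

theorem Lifts.mul {I : Finset (Fin n)} {A B : Matrix (Fin n) (Fin n) (Trunc k m)}
    (hA : Lifts k m I A) (hB : Lifts k m I B) : Lifts k m I (A * B) := by
  obtain ⟨a, ha, hfa, rfl⟩ := hA
  obtain ⟨b, hb, hfb, rfl⟩ := hB
  refine ⟨a * b, Subgroup.mul_mem _ ha hb, ?_, ?_⟩
  · rw [Matrix.SpecialLinearGroup.coe_mul]
    exact hfa.mul hfb
  · rw [Matrix.SpecialLinearGroup.coe_mul, Matrix.map_mul]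

theorem Lifts.transvection {I : Finset (Fin n)} {i j : Fin n} (hij : i ≠ j) (hj : j ∉ I)
    (a : Trunc k m) : Lifts k m I (Matrix.transvection i j a) := by
  obtain ⟨a, rfl⟩ := Ideal.Quotient.mk_surjective a
  refine ⟨⟨Matrix.transvection i j a, Matrix.det_transvection_of_ne i j hij a⟩,
    Subgroup.subset_closure ⟨i, j, a, hij, rfl⟩, Fixes.transvection a hj, ?_⟩
  simp [Matrix.transvection, Matrix.map_add, Matrix.map_single]

/-- a determinant one matrix with fixed columns lifts to a product of transvections fixing them -/
theorem lifts_of_det_one (hm : 1 ≤ m) (I : Finset (Fin n))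
    (N : Matrix (Fin n) (Fin n) (Trunc k m)) (hN : N.det = 1) (hI : Fixes I N) :
    Lifts k m I N := by
  induction hc : Iᶜ.card using Nat.strong_induction_on generalizing I N with
  | _ c ih =>
    by_cases hall : ∀ i, i ∈ I
    · have : N = 1 := by
        ext r i
        exact hI i (hall i) r
      rw [this]
      exact Lifts.one
    push Not at hall
    obtain ⟨j, hj⟩ := hall
    -- step: left multiplication by a transvection
    have step : ∀ (i l : Fin n) (a : Trunc k m) (N : Matrix (Fin n) (Fin n) (Trunc k m)),
        i ≠ l → l ∉ I → N.det = 1 → Fixes I N →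
        ((Matrix.transvection i l a * N).det = 1 ∧ Fixes I (Matrix.transvection i l a * N)) ∧
        (Lifts k m I (Matrix.transvection i l a * N) → Lifts k m I N) := by
      intro i l a N hil hl hN hI
      refine ⟨⟨by rw [Matrix.det_mul, Matrix.det_transvection_of_ne i l hil, hN, one_mul],
        (Fixes.transvection a hl).mul hI⟩, fun h => ?_⟩
      have := (Lifts.transvection hil hl (-a)).mul h
      rwa [← Matrix.mul_assoc, Matrix.transvection_mul_transvection_same _ _ hil, neg_add_cancel,
        Matrix.transvection_zero, Matrix.one_mul] at this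
    -- the last step: column `j` has a one on the diagonal and entries to clear in `S`
    have clear : ∀ (S : Finset (Fin n)) (N : Matrix (Fin n) (Fin n) (Trunc k m)),
        N.det = 1 → Fixes I N → N j j = 1 → j ∉ S → (∀ r, r ∉ S → r ≠ j → N r j = 0) →
        Lifts k m I N := by
      intro S
      induction S using Finset.induction_on with
      | empty =>
        intro N hN hI hjj _ h0
        have hI' : Fixes (insert j I) N := by
          intro i hi r
          rcases Finset.mem_insert.mp hi with rfl | hi
          · by_cases hr : r = i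
            · rw [hr, hjj, Matrix.one_apply_eq]
            · rw [h0 r (Finset.notMem_empty _) hr, Matrix.one_apply_ne hr]
          · exact hI i hi r
        obtain ⟨M, h1, h2, h3⟩ := ih _ (by
          rw [← hc]
          exact Finset.card_lt_card (Finset.compl_ssubset_compl.mpr (Finset.ssubset_insert hj)))
          (insert j I) N hN hI' rfl
        exact ⟨M, h1, fun i hi => h2 i (Finset.mem_insert_of_mem hi), h3⟩
      | @insert s S hs ihS =>
        intro N hN hI hjj hjS h0
        have hsj : s ≠ j := fun h => hjS (h ▸ Finset.mem_insert_self s S)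
        obtain ⟨⟨h1, h2⟩, h3⟩ := step s j (-(N s j)) N hsj hj hN hI
        refine h3 (ihS _ h1 h2 ?_ (fun h => hjS (Finset.mem_insert_of_mem h)) fun r hr hrj => ?_)
        · rw [Matrix.transvection_mul_apply_of_ne _ _ _ _ hsj.symm, hjj]
        · by_cases hrs : r = s
          · subst hrs
            rw [Matrix.transvection_mul_apply_same, hjj, mul_one, add_neg_cancel]
          · rw [Matrix.transvection_mul_apply_of_ne _ _ _ _ hrs]
            exact h0 r (fun h => (Finset.mem_insert.mp h).elim hrs hr) hrj
    have fin : ∀ N : Matrix (Fin n) (Fin n) (Trunc k m),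
        N.det = 1 → Fixes I N → N j j = 1 → Lifts k m I N := fun N hN hI hjj =>
      clear (Finset.univ.erase j) N hN hI hjj (Finset.notMem_erase _ _) fun r hr hrj =>
        absurd (Finset.mem_erase.mpr ⟨hrj, Finset.mem_univ r⟩) hr
    by_cases hone : ∀ i, i ≠ j → i ∈ I
    · exact fin N hN hI (by rw [← hI.det_eq hone, hN])
    push Not at hone
    obtain ⟨l, hlj, hl⟩ := hone
    have mid : ∀ N : Matrix (Fin n) (Fin n) (Trunc k m),
        N.det = 1 → Fixes I N → IsUnit (N l j) → Lifts k m I N := by
      intro N hN hI hu
      obtain ⟨u, hu⟩ := hu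
      obtain ⟨⟨h1, h2⟩, h3⟩ := step j l ((1 - N j j) * ↑u⁻¹) N hlj.symm hl hN hI
      refine h3 (fin _ h1 h2 ?_)
      rw [Matrix.transvection_mul_apply_same, ← hu, mul_assoc, Units.inv_mul, mul_one,
        add_sub_cancel]
    by_cases hlu : IsUnit (N l j)
    · exact mid N hN hI hlu
    obtain ⟨u, hu, huI⟩ : ∃ u, IsUnit (N u j) ∧ u ∉ I := by
      by_contra hno
      push Not at hno
      let N₀ := N.map (tEval hm)
      have hdet : N₀.det = 1 := by
        show (N.map (tEval hm)).det = 1
        rw [← RingHom.mapMatrix_apply, ← RingHom.map_det, hN, map_one]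
      have hfix : N₀.mulVec (fun r => N₀ r j) = fun r => N₀ r j := by
        funext r
        show ∑ i, N₀ r i * N₀ i j = N₀ r j
        rw [Finset.sum_eq_single r]
        · by_cases hr : r ∈ I
          · show tEval hm (N r r) * _ = _
            rw [hI r hr r, Matrix.one_apply_eq, map_one, one_mul]
          · have : N₀ r j = 0 := by
              by_contra h
              exact hr (hno r ((isUnit_trunc hm _).mpr h))
            rw [this, mul_zero]
        · intro i _ hir
          by_cases hi : i ∈ I
          · have : N₀ r i = 0 := by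
              show tEval hm (N r i) = 0
              rw [hI i hi r, Matrix.one_apply_ne (Ne.symm hir), map_zero]
            rw [this, zero_mul]
          · have : N₀ i j = 0 := by
              by_contra h
              exact hi (hno i ((isUnit_trunc hm _).mpr h))
            rw [this, mul_zero]
        · simp
      have hinj : Function.Injective N₀.mulVec := Matrix.mulVec_injective_iff_isUnit.mpr
        ((Matrix.isUnit_iff_isUnit_det _).mpr (by rw [hdet]; exact isUnit_one))
      have hcol : N₀.mulVec (Pi.single j 1) = fun r => N₀ r j := by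
        rw [Matrix.mulVec_single_one]
        rfl
      have := congrFun (hinj (hfix.trans hcol.symm)) j
      rw [Pi.single_eq_same] at this
      refine hj (hno j ((isUnit_trunc hm _).mpr ?_))
      change N₀ j j ≠ 0
      rw [this]
      exact one_ne_zero
    have hul : l ≠ u := fun h => hlu (h ▸ hu)
    obtain ⟨⟨h1, h2⟩, h3⟩ := step l u 1 N hul huI hN hI
    refine h3 (mid _ h1 h2 ?_)
    rw [Matrix.transvection_mul_apply_same, one_mul, isUnit_trunc hm, map_add,
      show tEval hm (N l j) = 0 by by_contra h; exact hlu ((isUnit_trunc hm _).mpr h), zero_add]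
    exact (isUnit_trunc hm _).mp hu

theorem elementary : ElementaryStmt := by
  intro k _ n m H hm hcong htr
  rw [eq_top_iff]
  intro g _
  obtain ⟨M, hM, -, hmap⟩ := lifts_of_det_one hm ∅
    ((g : Matrix (Fin n) (Fin n) (Polynomial k)).map (red k m))
    (by rw [← red_det, g.det_coe, map_one]) (fun i hi => absurd hi (Finset.notMem_empty i))
  have hMH : M ∈ H := (Subgroup.closure_le H).mpr htr hM
  have hmem : M⁻¹ * g ∈ cong k n m := by
    rw [cong, MonoidHom.mem_ker, map_mul, map_inv, inv_mul_eq_one]
    exact Subtype.ext (by simpa [Matrix.SpecialLinearGroup.map_apply_coe] using hmap)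
  simpa using H.mul_mem hMH (hcong hmem)

end Vale.Agent.P067.KO
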