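import Vale.Agent.P067.KO.PartialBasisAux
import Vale.Agent.P067.PB.Inst

/-!
Partial bases as sets of columns of invertible matrices and as sets with dual functionals agree;
the pinned statement on partial bases follows.
-/

namespace Vale.Agent.P067.KO

open Finset Polynomial Vale.Agent.P067.Sub

section Bridge

variable {R : Type*} [CommRing R] [Nontrivial R] {n : ℕ} [DecidableEq (Fin n → R)]

theorem isPB_of_pb {s : Finset (Fin n → R)} (h : PB R n s) : PB.IsPB R s := by
  classical
  obtain ⟨g, hg, hcols⟩ := h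
  choose ι hι using hcols
  refine ⟨fun v => if hv : v ∈ s then (LinearMap.proj (ι v hv)).comp (Matrix.mulVecLin g⁻¹)
    else 0, fun v hv w hw => ?_⟩
  have h1 : g⁻¹.mulVec w = Pi.single (ι w hw) 1 := by
    have : w = g.mulVec (Pi.single (ι w hw) 1) := by
      rw [Matrix.mulVec_single_one]
      exact hι w hw
    conv_lhs => rw [this]
    rw [Matrix.mulVec_mulVec, Matrix.nonsing_inv_mul _ hg, Matrix.one_mulVec]
  simp only [dif_pos hv]
  show g⁻¹.mulVec w (ι v hv) = _
  rw [h1, Pi.single_apply]
  have hiff : ι v hv = ι w hw ↔ v = w :=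
    ⟨fun h => by rw [hι v hv, h, ← hι w hw], fun h => by subst h; rfl⟩
  simp only [hiff]

theorem pb_of_isPB
    (hext : ∀ U : Finset (Fin n → R), PB.IsPB R U → U.card < n →
      ∃ e : Fin n → R, ∃ l : (Fin n → R) →ₗ[R] R, (∀ u ∈ U, l u = 0) ∧ l e = 1)
    {s : Finset (Fin n → R)} (h : PB.IsPB R s) : PB R n s := by
  classical
  -- extend to `n` vectors
  have grow : ∀ j, ∀ s : Finset (Fin n → R), PB.IsPB R s → n = s.card + j →
      PB R n s := by
    intro j
    induction j with
    | zero =>
      intro s hs hc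
      obtain ⟨f, hf⟩ := hs
      have hc' : Fintype.card (Fin n) = Fintype.card s := by
        simpa using hc
      let e : Fin n ≃ s := Fintype.equivOfCardEq hc'
      let g : Matrix (Fin n) (Fin n) R := Matrix.of fun r i => (e i).1 r
      let g' : Matrix (Fin n) (Fin n) R := Matrix.of fun i r => f (e i).1 (Pi.single r 1)
      have hg : g' * g = 1 := by
        ext i i'
        rw [Matrix.mul_apply]
        show ∑ r, f (e i).1 (Pi.single r 1) * (e i').1 r = _
        have : f (e i).1 (e i').1 = ∑ r, f (e i).1 (Pi.single r 1) * (e i').1 r := by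
          conv_lhs => rw [pi_eq_sum_univ' (e i').1, map_sum]
          refine Finset.sum_congr rfl fun r _ => ?_
          rw [map_smul, smul_eq_mul, mul_comm]
        rw [← this, hf _ (e i).2 _ (e i').2, Matrix.one_apply]
        simp only [Subtype.coe_inj, e.apply_eq_iff_eq]
      refine ⟨g, Matrix.isUnit_det_of_left_inverse hg, fun v hv => ⟨e.symm ⟨v, hv⟩, ?_⟩⟩
      funext r
      show v r = (e (e.symm ⟨v, hv⟩)).1 r
      rw [e.apply_symm_apply]
    | succ j ih =>
      intro s hs hc
      obtain ⟨x, l, hl, hlx⟩ := hext s hs (by omega)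
      have hxs : x ∉ s := fun hx => zero_ne_one ((hl x hx).symm.trans hlx)
      obtain ⟨f, hf⟩ := hs
      refine pb_mono (ih (insert x s) ⟨fun v => if v = x then l else f v - f v x • l, ?_⟩
        (by rw [Finset.card_insert_of_notMem hxs]; omega)) (Finset.subset_insert x s)
      intro v hv w hw
      rcases Finset.mem_insert.mp hv with rfl | hv' <;>
        rcases Finset.mem_insert.mp hw with rfl | hw'
      · simp [hlx]
      · have : v ≠ w := fun h => hxs (h ▸ hw')
        simp [this, hl w hw']
      · have : v ≠ w := fun h => hxs (h ▸ hv')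
        simp [this, hlx]
      · have : v ≠ x := fun h => hxs (h ▸ hv')
        simp [this, hl w hw', hf v hv' w hw']
  rcases le_or_gt s.card n with hle | hlt
  · exact grow (n - s.card) s h (by omega)
  · exfalso
    obtain ⟨t, hts, htc⟩ := Finset.exists_subset_card_eq hlt.le
    obtain ⟨u, hu, hut⟩ := Finset.exists_mem_notMem_of_card_lt_card (s := t) (t := s) (by omega)
    obtain ⟨g, hg, hcols⟩ := grow 0 t (h.mono hts) (by omega)
    obtain ⟨f, hf⟩ := h
    obtain ⟨I, hI, hIc⟩ := exists_index hg hcols
    have hall : ∀ i, (fun r => g r i) ∈ t := fun i => by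
      have hIu : I = Finset.univ := Finset.eq_univ_of_card I (by rw [hIc, htc, Fintype.card_fin])
      rw [hI, hIu]
      exact Finset.mem_image_of_mem _ (Finset.mem_univ i)
    have hz : ∀ y, f u (g.mulVec y) = 0 := by
      intro y
      have : g.mulVec y = ∑ i, y i • (fun r => g r i) := by
        funext r
        simp [Matrix.mulVec, dotProduct, mul_comm]
      rw [this, map_sum]
      refine Finset.sum_eq_zero fun i _ => ?_
      rw [map_smul, hf u hu _ (hts (hall i)), if_neg (fun h => hut (by rw [h]; exact hall i)),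
        smul_zero]
    have := hz (g⁻¹.mulVec u)
    rw [Matrix.mulVec_mulVec, Matrix.mul_nonsing_inv _ hg, Matrix.one_mulVec, hf u hu u hu,
      if_pos rfl] at this
    exact one_ne_zero this

theorem acy_pb
    (hext : ∀ U : Finset (Fin n → R), PB.IsPB R U → U.card < n →
      ∃ e : Fin n → R, ∃ l : (Fin n → R) →ₗ[R] R, (∀ u ∈ U, l u = 0) ∧ l e = 1)
    (S : PB.Size R) : Acy (PB R n) n := by
  classical
  intro c hc z hz hbz
  have hempty : PB.IsPB R (∅ : Finset (Fin n → R)) :=
    ⟨fun _ => 0, fun v hv => absurd hv (Finset.notMem_empty v)⟩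
  have hiff : ∀ t, PB.Lk R (∅ : Finset (Fin n → R)) t ↔ PB R n t := fun t => by
    simp only [PB.Lk, Finset.empty_union, Finset.disjoint_empty_left, true_and]
    exact ⟨pb_of_isPB hext, isPB_of_pb⟩
  obtain ⟨y, hy, hyz⟩ := PB.acyc_link S n hext c ∅ hempty (by simpa using hc) z
    (On_mono (fun t ht => ⟨(hiff t).mpr ht.1, ht.2⟩) hz) hbz
  exact ⟨y, On_mono (fun t ht => ⟨(hiff t).mp ht.1, ht.2⟩) hy, hyz⟩

end Bridge

theorem partialBasis : PartialBasisStmt := by
  intro k _ _ _ n m hm
  classical
  have : IsLocalRing (Trunc k m) := by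
    have := nontrivial_trunc (k := k) hm
    refine IsLocalRing.of_isUnit_or_isUnit_one_sub_self fun a => ?_
    by_cases h : tEval hm a = 0
    · exact Or.inr ((isUnit_trunc hm _).mpr (by simp [h]))
    · exact Or.inl ((isUnit_trunc hm _).mpr h)
  exact ⟨acy_pb (fun _ hU hc => PB.ext_pid hU hc) (PB.polySize k),
    coAcy_of_acy hm (acy_pb (fun _ hU hc => PB.ext_local hU hc) (PB.localSize (Trunc k m)))⟩

end Vale.Agent.P067.KO
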