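import Vale.Agent.P067.KO.VanishKey

/-!
Vanishing of the homology of congruence subgroups in low degrees: descent to the first congruence
subgroup by the transfer.
-/

namespace Vale.Agent.P067.KO

open Finset Polynomial Vale.Agent.P067.Sub

variable {k : Type} [Field k] {n m : ℕ}

/-- an element of the first congruence subgroup whose square is deep is deep -/
theorem sq_mem_cong (h2 : (2 : k) ≠ 0) {g : Gam n k} (hg : g ∈ cong k n 1)
    (hg2 : g * g ∈ cong k n m) : g ∈ cong k n m := by
  have hdvd : ∀ {l : ℕ} {h : Gam n k}, h ∈ cong k n l ↔ ∀ i j, (X : Polynomial k) ^ l ∣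
      (h : Matrix (Fin n) (Fin n) (Polynomial k)) i j -
        (1 : Matrix (Fin n) (Fin n) (Polynomial k)) i j := by
    intro l h
    rw [mem_cong_iff]
    refine forall_congr' fun i => forall_congr' fun j => ?_
    have e : (1 : Matrix (Fin n) (Fin n) (Trunc k l)) i j =
        red k l ((1 : Matrix (Fin n) (Fin n) (Polynomial k)) i j) := by
      rw [Matrix.one_apply, Matrix.one_apply]
      split_ifs <;> simp
    rw [e, ← sub_eq_zero, ← map_sub, Ideal.Quotient.eq_zero_iff_mem, Ideal.mem_span_singleton]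
  set C : Matrix (Fin n) (Fin n) (Polynomial k) :=
    (g : Matrix (Fin n) (Fin n) (Polynomial k)) - 1 with hC
  have h1 : ∀ i j, X ∣ C i j := fun i j => by
    have := (hdvd.mp hg) i j
    rwa [pow_one] at this
  have h3 : ∀ i j, X ^ m ∣ (C * C + (C + C)) i j := fun i j => by
    have := (hdvd.mp hg2) i j
    have e : C * C + (C + C) = (g : Matrix (Fin n) (Fin n) (Polynomial k)) *
        (g : Matrix (Fin n) (Fin n) (Polynomial k)) - 1 := by
      rw [hC]
      noncomm_ring
    rw [e, Matrix.sub_apply]
    rwa [Matrix.SpecialLinearGroup.coe_mul] at this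
  have key : ∀ l, l ≤ m → ∀ i j, X ^ l ∣ C i j := by
    intro l
    induction l with
    | zero => intro _ i j; simp
    | succ l ih =>
      intro hl i j
      have hCC : X ^ (l + 1) ∣ (C * C) i j := by
        rw [Matrix.mul_apply]
        exact Finset.dvd_sum fun t _ => by
          rw [pow_succ]
          exact mul_dvd_mul (ih (by omega) i t) (h1 t j)
      have h4 : X ^ (l + 1) ∣ C i j + C i j := by
        have := dvd_sub ((pow_dvd_pow X hl).trans (h3 i j)) hCC
        simpa [Matrix.add_apply] using this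
      have hu : IsUnit (2 : Polynomial k) := by
        rw [← map_ofNat Polynomial.C 2]
        exact (Ne.isUnit h2).map Polynomial.C
      rw [← two_mul] at h4
      exact (hu.dvd_mul_left).mp h4
  exact hdvd.mpr fun i j => key m le_rfl i j

section Transfer

variable {α : Type} [DecidableEq α] [DecidableEq k] [Fintype k]

/-- if the whole group fixes every class, the transfer kills them -/
theorem bnd_of_fixed (h2 : (2 : k) ≠ 0) (hm : 1 ≤ m) {act : Gam n k → α → α} (hA : IsAct act)
    {P : Finset α → Prop} (hi : ∀ g s, P s → P (s.image (act g))) {c : ℕ} (hc : 1 ≤ c)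
    (h1 : CoAcy act (cong k n 1 : Set (Gam n k)) P (c + 1))
    (hfix : ∀ g : Gam n k, ∀ z ∈ cyc act (cong k n m : Set (Gam n k)) P c,
      tr act g z + z ∈ bnd act (cong k n m : Set (Gam n k)) P c) :
    cyc act (cong k n m : Set (Gam n k)) P c ≤ bnd act (cong k n m : Set (Gam n k)) P c := by
  classical
  have hle : cong k n m ≤ cong k n 1 := by
    intro g hg
    rw [mem_cong_iff] at hg ⊢
    intro i j
    have h := hg i j
    have e : ∀ (l : ℕ) (i j : Fin n), (1 : Matrix (Fin n) (Fin n) (Trunc k l)) i j =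
        red k l ((1 : Matrix (Fin n) (Fin n) (Polynomial k)) i j) := by
      intro l i j
      rw [Matrix.one_apply, Matrix.one_apply]
      split_ifs <;> simp
    rw [e] at h ⊢
    rw [Ideal.Quotient.eq, Ideal.mem_span_singleton] at h ⊢
    exact (pow_dvd_pow X hm).trans h
  let f : Gam n k →* Matrix.SpecialLinearGroup (Fin n) (Trunc k m) :=
    Matrix.SpecialLinearGroup.map (red k m)
  have hfN : ∀ g, f g = 1 ↔ g ∈ cong k n m := fun g => Iff.rfl
  haveI : Module.Finite k (Trunc k m) := (Polynomial.monic_X_pow m).finite_quotient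
  haveI : Finite (Trunc k m) := Module.finite_of_finite k
  let Q : Subgroup (Matrix.SpecialLinearGroup (Fin n) (Trunc k m)) := (cong k n 1).map f
  haveI : Fintype Q := Fintype.ofFinite Q
  have hodd : Odd (Fintype.card Q) := by
    by_contra hne
    obtain ⟨x, hx⟩ := exists_prime_orderOf_dvd_card 2 (Nat.not_odd_iff_even.mp hne).two_dvd
    obtain ⟨g, hg, hgx⟩ := x.2
    have hxx : x * x = 1 := by
      rw [← pow_two, ← hx]
      exact pow_orderOf_eq_one x
    have hg2 : g * g ∈ cong k n m := (hfN _).mp (by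
      rw [map_mul, hgx]
      exact congrArg Subtype.val hxx)
    have h0 : x = 1 := Subtype.ext (hgx.symm.trans ((hfN g).mpr (sq_mem_cong h2 hg hg2)))
    rw [h0, orderOf_one] at hx
    omega
  have hpre : ∀ x : Q, ∃ g ∈ cong k n 1, f g = x.1 := fun x => x.2
  choose pre hpre hpre' using hpre
  let Tr : Ch α →ₗ[ZMod 2] Ch α := ∑ x : Q, tr act (pre x)
  intro z hz
  obtain ⟨hzS, hzb⟩ := mem_cyc.mp hz
  have hrel : ∀ {d} {y : Ch α}, y ∈ Rel act (cong k n 1 : Set (Gam n k)) P d →
      Tr y ∈ Rel act (cong k n m : Set (Gam n k)) P d := by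
    intro d y hy
    refine (Submodule.span_le.mpr ?_ : Rel act (cong k n 1 : Set (Gam n k)) P d ≤
      (Rel act (cong k n m : Set (Gam n k)) P d).comap Tr) hy
    rintro _ ⟨h, hh, s, hs, rfl⟩
    rw [SetLike.mem_coe, Submodule.mem_comap, map_add, ← tr_sg]
    simp only [Tr, LinearMap.sum_apply, hA.tr_mul]
    let fh : Q := ⟨f h, h, hh, rfl⟩
    have e : ∑ x : Q, tr act (pre x) (sg s) = ∑ x : Q, tr act (pre (x * fh)) (sg s) :=
      (Equiv.sum_comp (Equiv.mulRight fh) fun x => tr act (pre x) (sg s)).symm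
    rw [e, ← Finset.sum_add_distrib]
    refine Submodule.sum_mem _ fun x _ => ?_
    have hn : pre x * h * (pre (x * fh))⁻¹ ∈ cong k n m := (hfN _).mp (by
      rw [map_mul, map_mul, map_inv, hpre', hpre']
      exact mul_inv_cancel (x.1 * f h))
    have := mem_rel_add (act := act) (H := (cong k n m : Set (Gam n k))) hn
      (tr_Sz hA (hi (pre (x * fh))) (sg_mem (P := Sz P d) hs))
    rwa [hA.tr_mul, inv_mul_cancel_right] at this
  obtain ⟨w, hw, hzw⟩ := mem_bnd.mp (coAcy_iff.mp h1 c hc (by omega) (cyc_mono hle c hz))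
  have h3 : Tr z ∈ bnd act (cong k n m : Set (Gam n k)) P c := by
    refine mem_bnd.mpr ⟨Tr w, ?_, ?_⟩
    · simp only [Tr, LinearMap.sum_apply]
      exact Submodule.sum_mem _ fun x _ => tr_Sz hA (hi _) hw
    · have hbd : bd (Tr w) = Tr (bd w) := by
        simp only [Tr, LinearMap.sum_apply, map_sum, hA.bd_tr']
      rw [hbd, ← map_add]
      exact hrel hzw
  have h4 : z + Tr z ∈ bnd act (cong k n m : Set (Gam n k)) P c := by
    have e : z + Tr z = ∑ x : Q, (z + tr act (pre x) z) := by
      rw [Finset.sum_add_distrib, Finset.sum_const, Finset.card_univ]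
      simp only [Tr, LinearMap.sum_apply]
      congr 1
      obtain ⟨r, hr⟩ := hodd
      rw [hr, add_nsmul, mul_nsmul, two_nsmul, add_self', smul_zero, zero_add, one_nsmul]
    rw [e]
    refine Submodule.sum_mem _ fun x _ => ?_
    rw [add_comm]
    exact hfix _ z hz
  exact add_eq_iff h4 h3

end Transfer

variable {α : Type} [DecidableEq α]

/-- fixing every class passes between free acyclic complexes, and so does vanishing -/
theorem compare [DecidableEq (Gam n k)] {act : Gam n k → α → α} {P : Finset α → Prop}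
    (hP : FreeOn act (cong k n m) P) (hi : ∀ g s, P s → P (s.image (act g))) {c : ℕ} (hc : 1 ≤ c)
    (hAcy : Acy P (c + 1)) (hPe : P ∅) :
    ((∀ g : Gam n k, ∀ z ∈ cyc milnorAct (cong k n m : Set (Gam n k)) MilnorFace c,
        tr milnorAct g z + z ∈ bnd milnorAct (cong k n m : Set (Gam n k)) MilnorFace c) →
      ∀ g : Gam n k, ∀ z ∈ cyc act (cong k n m : Set (Gam n k)) P c,
        tr act g z + z ∈ bnd act (cong k n m : Set (Gam n k)) P c) ∧
    (cyc act (cong k n m : Set (Gam n k)) P c ≤ bnd act (cong k n m : Set (Gam n k)) P c →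
      cyc milnorAct (cong k n m : Set (Gam n k)) MilnorFace c ≤
        bnd milnorAct (cong k n m : Set (Gam n k)) MilnorFace c) := by
  have hN : (cong k n m).Normal := normal_cong
  set N := cong k n m with hNdef
  have hA := hP.act
  obtain ⟨φ, hφ⟩ := exists_chMap (K := c + 1) hP (act' := milnorAct)
    (Target.exact milnorAct_isAct (fun g _ s hs => milnor_invariant g hs)
      (milnor_acy (G := Gam n k) (c + 1))) (by intro x hx; simp at hx)
  obtain ⟨ψ, hψ⟩ := exists_chMap (K := c + 1) (milnor_freeOn N) (act' := act)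
    (Target.exact hA (fun g _ s hs => hi g s hs) hAcy) hPe
  have hψeq : ∀ g ∈ N, ∀ d ≤ c + 1, ∀ y ∈ On (Sz MilnorFace d),
      ψ (tr milnorAct g y) = tr act g (ψ y) := by
    intro g hg d hd y hy
    have := mapC_On (ψ.comp (tr milnorAct g) + (tr act g).comp ψ) (S := ⊥)
      (fun s hs => by
        have := hψ.eqv.eqv d (by omega) s hs g hg
        simpa [tr_sg] using this) hy
    rw [Submodule.mem_bot, LinearMap.add_apply] at this
    exact (add_eq_zero_iff_eq_neg.mp this).trans (ZModModule.neg_eq_self _)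
  have hφeq : ∀ g ∈ N, ∀ d ≤ c + 1, ∀ y ∈ On (Sz P d),
      φ (tr act g y) = tr milnorAct g (φ y) := by
    intro g hg d hd y hy
    have := mapC_On (φ.comp (tr act g) + (tr milnorAct g).comp φ) (S := ⊥)
      (fun s hs => by
        have := hφ.eqv.eqv d (by omega) s hs g hg
        simpa [tr_sg] using this) hy
    rw [Submodule.mem_bot, LinearMap.add_apply] at this
    exact (add_eq_zero_iff_eq_neg.mp this).trans (ZModModule.neg_eq_self _)
  have hbdφ : ∀ d < c + 1, ∀ y ∈ On (Sz P (d + 1)), bd (φ y) = φ (bd y) := by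
    intro d hd y hy
    have := mapC_On (bd.comp φ + φ.comp bd) (S := ⊥)
      (fun s hs => by simpa using hφ.comm d hd s hs) hy
    rw [Submodule.mem_bot, LinearMap.add_apply] at this
    exact (add_eq_zero_iff_eq_neg.mp this).trans (ZModModule.neg_eq_self _)
  have hbdψ : ∀ d < c + 1, ∀ y ∈ On (Sz MilnorFace (d + 1)), bd (ψ y) = ψ (bd y) := by
    intro d hd y hy
    have := mapC_On (bd.comp ψ + ψ.comp bd) (S := ⊥)
      (fun s hs => by simpa using hψ.comm d hd s hs) hy
    rw [Submodule.mem_bot, LinearMap.add_apply] at this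
    exact (add_eq_zero_iff_eq_neg.mp this).trans (ZModModule.neg_eq_self _)
  refine ⟨fun hfix g z hz => ?_, fun hle z hz => ?_⟩
  · have hconj : ∀ g : Gam n k, ∀ h ∈ N, g * h * g⁻¹ ∈ (N : Set (Gam n k)) :=
      fun g h hh => hN.conj_mem h hh g
    have key : ∀ g : Gam n k, tr act g z + ψ (tr milnorAct g (φ z)) ∈
        bnd act (N : Set (Gam n k)) P c := by
      intro g
      refine ChMap.homotopic (actB := act) (σ := fun h => g * h * g⁻¹)
        (H' := (N : Set (Gam n k))) (K := c) (T := tr act g)
        (T' := ψ.comp ((tr milnorAct g).comp φ)) hP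
        (Target.exact (hA.comp (MulAut.conj g).toMonoidHom) (fun h _ s hs => hi _ s hs) hAcy)
        ?_ ?_ (hconj g) (fun _ => bot_le) hc le_rfl hz
      · refine ⟨by simp [tr_sg], ⟨fun d _ s hs => tr_Sz hA (hi g) (sg_mem hs),
          fun d _ s hs h hh => ?_⟩, fun d _ s _ => by simp [hA.bd_tr', add_self']⟩
        have e : tr act g (tr act h (sg s)) = tr act (g * h * g⁻¹) (tr act g (sg s)) := by
          rw [hA.tr_mul, hA.tr_mul, inv_mul_cancel_right]
        rw [← tr_sg, e]
        exact (Submodule.mem_bot _).mpr (ZModModule.add_self _)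
      · refine ⟨?_, ⟨fun d hd s hs => ?_, fun d hd s hs h hh => ?_⟩, fun d hd s hs => ?_⟩
        · simp only [LinearMap.comp_apply, hφ.empty, tr_sg, Finset.image_empty, hψ.empty]
        · exact hψ.eqv.map_Sz (a := 0) (b := 0) (c := d) (by omega)
            (tr_Sz milnorAct_isAct (fun s hs => milnor_invariant g hs)
              (hφ.eqv.mem d (by omega) s hs))
        · have hy := hφ.eqv.mem d (by omega) s hs
          have e1 : φ (sg (s.image (act h))) = tr milnorAct h (φ (sg s)) := by
            rw [← tr_sg]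
            exact hφeq h hh d (by omega) _ (sg_mem (P := Sz P d) hs)
          have e2 : tr milnorAct g (tr milnorAct h (φ (sg s))) =
              tr milnorAct (g * h * g⁻¹) (tr milnorAct g (φ (sg s))) := by
            rw [milnorAct_isAct.tr_mul, milnorAct_isAct.tr_mul, inv_mul_cancel_right]
          simp only [LinearMap.comp_apply]
          rw [e1, e2, hψeq _ (hconj g h hh) d (by omega) _
            (tr_Sz milnorAct_isAct (fun s hs => milnor_invariant g hs) hy)]
          exact (Submodule.mem_bot _).mpr (ZModModule.add_self _)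
        · simp only [LinearMap.comp_apply]
          rw [hbdψ d (by omega) _ (tr_Sz milnorAct_isAct (fun s hs => milnor_invariant g hs)
              (hφ.eqv.mem (d + 1) (by omega) s hs)), milnorAct_isAct.bd_tr',
            hbdφ d (by omega) _ (sg_mem (P := Sz P (d + 1)) hs)]
          exact (Submodule.mem_bot _).mpr (ZModModule.add_self _)
    have k1 := key 1
    rw [hA.tr_one, milnorAct_isAct.tr_one] at k1
    have hφz := hφ.map_cyc (σ := fun h : Gam n k => h) (actB := milnorAct)
      (H' := (N : Set (Gam n k))) (fun g hg => hg) (fun _ => bot_le) hc (by omega) hz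
    have h2 := hψ.map_bnd (σ := fun h : Gam n k => h) (actB := act)
      (H' := (N : Set (Gam n k))) (fun g hg => hg) (fun _ => bot_le) (by omega)
      (hfix g _ hφz)
    rw [map_add] at h2
    refine add_trans_mem (add_trans_mem (key g) h2) ?_
    rw [add_comm]
    exact k1
  · have hid : ChMap milnorAct N MilnorFace milnorAct MilnorFace (fun _ => ⊥) c
        (LinearMap.id : Ch (Gam n k × ℕ) →ₗ[ZMod 2] Ch (Gam n k × ℕ)) :=
      ⟨rfl, ⟨fun d _ s hs => sg_mem hs, fun d _ s _ g _ => by simp [tr_sg, add_self']⟩,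
        fun d _ s _ => by simp [add_self']⟩
    have hcomp : ChMap milnorAct N MilnorFace milnorAct MilnorFace (fun _ => ⊥) c
        (φ.comp ψ) := by
      refine ⟨by rw [LinearMap.comp_apply, hψ.empty, hφ.empty],
        ⟨fun d hd s hs => hφ.eqv.map_Sz (a := 0) (b := 0) (c := d) (by omega)
          (hψ.eqv.mem d (by omega) s hs), fun d hd s hs h hh => ?_⟩, fun d hd s hs => ?_⟩
      · simp only [LinearMap.comp_apply]
        rw [← tr_sg, hψeq h hh d (by omega) _ (sg_mem (P := Sz MilnorFace d) hs),
          hφeq h hh d (by omega) _ (hψ.eqv.mem d (by omega) s hs)]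
        exact (Submodule.mem_bot _).mpr (ZModModule.add_self _)
      · simp only [LinearMap.comp_apply]
        rw [hbdφ d (by omega) _ (hψ.eqv.mem (d + 1) (by omega) s hs),
          hbdψ d (by omega) _ (sg_mem (P := Sz MilnorFace (d + 1)) hs)]
        exact (Submodule.mem_bot _).mpr (ZModModule.add_self _)
    have h1 : z + φ (ψ z) ∈ bnd milnorAct (N : Set (Gam n k)) MilnorFace c :=
      ChMap.homotopic (σ := fun h : Gam n k => h) (actB := milnorAct) (H' := (N : Set (Gam n k)))
        (milnor_freeOn N)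
        (Target.exact milnorAct_isAct (fun g _ s hs => milnor_invariant g hs) (milnor_acy (c + 1)))
        hid hcomp (fun g hg => hg) (fun _ => bot_le) hc le_rfl hz
    have h2 := hψ.map_cyc (σ := fun h : Gam n k => h) (actB := act) (H' := (N : Set (Gam n k)))
      (fun g hg => hg) (fun _ => bot_le) hc (by omega) hz
    exact add_eq_iff h1 (hφ.map_bnd (σ := fun h : Gam n k => h) (actB := milnorAct)
      (H' := (N : Set (Gam n k))) (fun g hg => hg) (fun _ => bot_le) (by omega) (hle h2))

theorem cyc_stab_le' [DecidableEq k] {j a b q : ℕ} [DecidableEq (Gam j k)] [DecidableEq (Gam b k)]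
    (e : a + b = j) (hm : 1 ≤ m) (hq : Odd q) (hqk : (q : k) = 0) (hb : 1 ≤ b) {c : ℕ}
    (hc : 1 ≤ c) {r : Finset (Fin j → Polynomial k)}
    (hr : PB (Polynomial k) j r) (hra : r.card = a)
    (hQ : cyc milnorAct (cong k b m : Set (Gam b k)) MilnorFace c ≤
      bnd milnorAct (cong k b m : Set (Gam b k)) MilnorFace c) :
    cyc milnorAct (stab colAct (cong k j m) r) MilnorFace c ≤
      bnd milnorAct (stab colAct (cong k j m) r) MilnorFace c := by
  subst e
  exact cyc_stab_le hm hq hqk hb hc hr hra hQ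

/-- H: from the first congruence subgroup to all of them -/
theorem vanish (hPB : PartialBasisStmt) (hEl : ElementaryStmt) : VanishStmt := by
  classical
  intro k _ _ h2 n M hnM α _ act P m hm hyp
  obtain ⟨q, hq, hqk⟩ : ∃ q : ℕ, Odd q ∧ (q : k) = 0 := by
    haveI hp : Fact (ringChar k).Prime := ⟨CharP.char_is_prime k (ringChar k)⟩
    refine ⟨ringChar k, hp.out.odd_of_ne_two fun h => h2 ?_, CharP.cast_eq_zero k _⟩
    have := CharP.cast_eq_zero k (ringChar k)
    rw [h] at this
    exact_mod_cast this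
  suffices H : ∀ c, 1 ≤ c → c + 1 ≤ M → ∀ j, j ≤ n → 3 * (c + 1) + 6 ≤ j →
      cyc milnorAct (cong k j m : Set (Gam j k)) MilnorFace c ≤
        bnd milnorAct (cong k j m : Set (Gam j k)) MilnorFace c ∧
      cyc (act j) (cong k j m : Set (Gam j k)) (P j) c ≤
        bnd (act j) (cong k j m : Set (Gam j k)) (P j) c from
    coAcy_iff.mpr fun c h1 h3 => (H c h1 h3 n le_rfl (by omega)).2
  intro c
  induction c using Nat.strong_induction_on with
  | _ c ih =>
    intro hc hcM j hjn hj
    obtain ⟨b, rfl⟩ : ∃ b, j = 1 + b := ⟨j - 1, by omega⟩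
    obtain ⟨hfree, ⟨hPe, hinv⟩, hac⟩ := hyp (1 + b) (by omega) hjn
    obtain ⟨hAcy, hCo1⟩ := hac (c + 1) hj hcM
    obtain ⟨hPA, hPC⟩ := hPB k (1 + b) m hm
    have hfixM : ∀ g : Gam (1 + b) k,
        ∀ z ∈ cyc milnorAct (cong k (1 + b) m : Set (Gam (1 + b) k)) MilnorFace c,
        tr milnorAct g z + z ∈
          bnd milnorAct (cong k (1 + b) m : Set (Gam (1 + b) k)) MilnorFace c := by
      intro g z hz
      refine tr_fixes hEl hm hq hqk (by omega) hc (by omega) hPA hPC ?_ g hz
      intro r c' hc' hr hrc hPr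
      obtain ⟨b', hb'⟩ : ∃ b', 1 + b = r.card + b' := ⟨1 + b - r.card, by omega⟩
      have hQ := (ih c' (by omega) hc' (by omega) b' (by omega) (by omega)).1
      exact cyc_stab_le' hb'.symm hm hq hqk (by omega) hc' hPr rfl hQ
    obtain ⟨hcmp, hback⟩ := compare hfree hinv hc (hAcy.mono (by omega)) hPe
    have hPcyc := bnd_of_fixed h2 hm hfree.act hinv hc hCo1 (hcmp hfixM)
    exact ⟨hback hPcyc, hPcyc⟩

end Vale.Agent.P067.KO
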