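import Vale.Agent.P067.KO.Assemble
import Vale.Agent.P067.KO.Elementary
import Vale.Agent.P067.KO.PartialBasis
import Vale.Agent.P067.KO.Vanish

/-!
The main theorem: bounded degree coboundary expanders in every dimension.
-/

namespace Vale.Agent.P067.KO

theorem mainStmt : MainStmt :=
  mainStmt_rest (vanish partialBasis elementary)

end Vale.Agent.P067.KO
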