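import Vale.Agent.P067.KO.LatticeStep

/-!
Degrees of rational functions at infinity, the action of the group on lattices, echelon bases of
subspaces with respect to a grading of the coordinates.
-/

namespace Vale.Agent.P067.KO

open Polynomial

variable {k : Type*} [Field k] {n : ℕ}

/-- the degree at infinity is at most `x` -/
def Dle (f : RatFunc k) (x : ℤ) : Prop := f = 0 ∨ f.intDegree ≤ x

theorem Dle.zero (x : ℤ) : Dle (0 : RatFunc k) x := Or.inl rfl

theorem Dle.mono {f : RatFunc k} {x y : ℤ} (h : Dle f x) (hxy : x ≤ y) : Dle f y :=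
  h.imp id fun h => h.trans hxy

theorem Dle.add {f g : RatFunc k} {x : ℤ} (hf : Dle f x) (hg : Dle g x) : Dle (f + g) x := by
  by_cases h2 : g = 0
  · simpa [h2] using hf
  by_cases h1 : f = 0
  · simpa [h1] using hg
  by_cases h3 : f + g = 0
  · exact Or.inl h3
  exact Or.inr ((RatFunc.intDegree_add_le h2 h3).trans
    (max_le (hf.resolve_left h1) (hg.resolve_left h2)))

theorem Dle.neg {f : RatFunc k} {x : ℤ} (hf : Dle f x) : Dle (-f) x := by
  rcases hf with h | h
  · exact Or.inl (by simp [h])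
  · exact Or.inr (by simpa [RatFunc.intDegree_neg] using h)

theorem Dle.sub {f g : RatFunc k} {x : ℤ} (hf : Dle f x) (hg : Dle g x) : Dle (f - g) x := by
  rw [sub_eq_add_neg]
  exact hf.add hg.neg

theorem Dle.mul {f g : RatFunc k} {x y : ℤ} (hf : Dle f x) (hg : Dle g y) :
    Dle (f * g) (x + y) := by
  by_cases h1 : f = 0
  · exact Or.inl (by simp [h1])
  by_cases h2 : g = 0
  · exact Or.inl (by simp [h2])
  refine Or.inr ?_
  rw [RatFunc.intDegree_mul h1 h2]
  exact add_le_add (hf.resolve_left h1) (hg.resolve_left h2)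

theorem Dle.sum {ι : Type*} {s : Finset ι} {f : ι → RatFunc k} {x : ℤ}
    (h : ∀ i ∈ s, Dle (f i) x) : Dle (∑ i ∈ s, f i) x :=
  Finset.sum_induction f (fun g => Dle g x) (fun _ _ => Dle.add) (Dle.zero x) h

theorem Dle.const (c : k) : Dle (RatFunc.C c) 0 := Or.inr (by simp)

theorem Dle.poly (p : Polynomial k) : Dle (algebraMap (Polynomial k) (RatFunc k) p) p.natDegree :=
  Or.inr (by rw [RatFunc.intDegree_polynomial])

theorem intDegree_zpow (z : ℤ) : (RatFunc.X ^ z : RatFunc k).intDegree = z := by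
  have hX : (RatFunc.X : RatFunc k) ≠ 0 := RatFunc.X_ne_zero
  have hn : ∀ j : ℕ, (RatFunc.X ^ j : RatFunc k).intDegree = j := by
    intro j
    induction j with
    | zero => simp
    | succ j ih =>
      rw [pow_succ, RatFunc.intDegree_mul (pow_ne_zero _ hX) hX, ih, RatFunc.intDegree_X]
      omega
  rcases z with j | j
  · simpa using hn j
  · simp [zpow_negSucc, hn]
    omega

theorem Dle.zpow (z : ℤ) : Dle (RatFunc.X ^ z : RatFunc k) z := Or.inr (intDegree_zpow z).le

theorem Dle.monomial (c : k) (z : ℤ) : Dle (RatFunc.C c * RatFunc.X ^ z) z := by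
  simpa using (Dle.const c).mul (Dle.zpow z)

theorem eq_zero_of_dle_monomial {c : k} {z x : ℤ} (h : Dle (RatFunc.C c * RatFunc.X ^ z) x)
    (hx : x < z) : c = 0 := by
  by_contra hc
  have h1 : RatFunc.C c ≠ 0 := fun h => hc (RatFunc.C_injective (h.trans (map_zero _).symm))
  have h2 : (RatFunc.X ^ z : RatFunc k) ≠ 0 := zpow_ne_zero _ RatFunc.X_ne_zero
  rcases h with h | h
  · exact (mul_ne_zero h1 h2) h
  · rw [RatFunc.intDegree_mul h1 h2, RatFunc.intDegree_C, intDegree_zpow] at h
    omega

theorem exists_top_coeff {f : RatFunc k} {x : ℤ} (hf : Dle f x) :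
    ∃ c : k, Dle (f - RatFunc.C c * RatFunc.X ^ x) (x - 1) := by
  have base : ∀ g : RatFunc k, Dle g 0 → ∃ c : k, Dle (g - RatFunc.C c) (-1) := by
    intro g hg
    by_cases h0 : g = 0
    · exact ⟨0, Or.inl (by simp [h0])⟩
    have hdeg : g.num.natDegree ≤ g.denom.natDegree := by
      have := hg.resolve_left h0
      rw [RatFunc.intDegree] at this
      omega
    refine ⟨g.num.coeff g.denom.natDegree, ?_⟩
    set c := g.num.coeff g.denom.natDegree
    set p := g.num - Polynomial.C c * g.denom
    have hd : algebraMap (Polynomial k) (RatFunc k) g.denom ≠ 0 :=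
      RatFunc.algebraMap_ne_zero g.denom_ne_zero
    have he : g - RatFunc.C c = algebraMap (Polynomial k) (RatFunc k) p /
        algebraMap (Polynomial k) (RatFunc k) g.denom := by
      rw [map_sub, map_mul, RatFunc.algebraMap_C, sub_div, RatFunc.num_div_denom,
        mul_div_assoc, div_self hd, mul_one]
    by_cases hp : p = 0
    · exact Or.inl (by rw [he, hp]; simp)
    refine Or.inr ?_
    rw [he, RatFunc.intDegree_div (RatFunc.algebraMap_ne_zero hp) hd,
      RatFunc.intDegree_polynomial, RatFunc.intDegree_polynomial]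
    have h1 : p.degree < (g.denom.natDegree : WithBot ℕ) := by
      rw [Polynomial.degree_lt_iff_coeff_zero]
      intro m hm
      rcases hm.eq_or_lt with h | h
      · subst h
        simp [p, c, (RatFunc.monic_denom g).coeff_natDegree]
      · simp [p, Polynomial.coeff_eq_zero_of_natDegree_lt (lt_of_le_of_lt hdeg h),
          Polynomial.coeff_eq_zero_of_natDegree_lt h]
    have h2 := (Polynomial.natDegree_lt_iff_degree_lt hp).mpr h1
    omega
  have hX : (RatFunc.X : RatFunc k) ≠ 0 := RatFunc.X_ne_zero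
  obtain ⟨c, hc⟩ := base (f * RatFunc.X ^ (-x)) (by simpa using hf.mul (Dle.zpow (-x)))
  refine ⟨c, ?_⟩
  have h := hc.mul (Dle.zpow x)
  rw [sub_mul, mul_assoc, ← zpow_add₀ hX, neg_add_cancel, zpow_zero, mul_one] at h
  exact h.mono (by omega)

theorem mem_stdLat {a : Fin n → ℤ} {v : Fin n → RatFunc k} :
    v ∈ stdLat a ↔ ∀ i, Dle (v i) (a i) := Iff.rfl

theorem inftyRing_dle (c : inftyRing k) : Dle (c : RatFunc k) 0 := Or.inr c.2

/-- the matrix of a group element over rational functions -/
noncomputable def gMat (g : Gam n k) : Matrix (Fin n) (Fin n) (RatFunc k) :=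
  (g : Matrix (Fin n) (Fin n) (Polynomial k)).map (algebraMap (Polynomial k) (RatFunc k))

theorem gMat_mul (g h : Gam n k) : gMat (g * h) = gMat g * gMat h := by
  simp [gMat, Matrix.map_mul]

theorem gMat_one : gMat (1 : Gam n k) = 1 := by simp [gMat]

theorem gamAct_one (L : Lat k n) : gamAct 1 L = L := by
  have : mulVecLat (gMat (1 : Gam n k)) = LinearMap.id := by
    ext v i
    simp [mulVecLat, gMat_one]
  rw [show gamAct 1 L = L.map (mulVecLat (gMat (1 : Gam n k))) from rfl, this, Submodule.map_id]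

theorem gamAct_mul (g h : Gam n k) (L : Lat k n) : gamAct (g * h) L = gamAct g (gamAct h L) := by
  have : mulVecLat (gMat (g * h)) = (mulVecLat (gMat g)).comp (mulVecLat (gMat h)) := by
    ext v i
    simp [mulVecLat, gMat_mul, Matrix.mulVec_mulVec]
  rw [show gamAct (g * h) L = L.map (mulVecLat (gMat (g * h))) from rfl, this, Submodule.map_comp]
  rfl

theorem gamAct_mono (g : Gam n k) {L L' : Lat k n} (h : L ≤ L') : gamAct g L ≤ gamAct g L' :=
  Submodule.map_mono h

theorem gamAct_le_iff (g : Gam n k) {L L' : Lat k n} : gamAct g L ≤ gamAct g L' ↔ L ≤ L' := by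
  refine ⟨fun h => ?_, gamAct_mono g⟩
  simpa [← gamAct_mul, gamAct_one] using gamAct_mono g⁻¹ h

theorem gamAct_inj (g : Gam n k) {L L' : Lat k n} : gamAct g L = gamAct g L' ↔ L = L' :=
  ⟨fun h => le_antisymm ((gamAct_le_iff g).mp h.le) ((gamAct_le_iff g).mp h.ge),
    fun h => by rw [h]⟩

theorem gamAct_shift (g : Gam n k) (L : Lat k n) : gamAct g (shift L) = shift (gamAct g L) := by
  simp only [gamAct, shift, ← Submodule.map_comp]
  congr 1
  ext v i
  simp [mulVecLat, Matrix.mulVec_smul, mul_left_comm]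

theorem mem_shift {L : Lat k n} {v : Fin n → RatFunc k} :
    v ∈ shift L ↔ (RatFunc.X : RatFunc k)⁻¹ • v ∈ L := by
  have hX : (RatFunc.X : RatFunc k) ≠ 0 := RatFunc.X_ne_zero
  constructor
  · rintro ⟨u, hu, rfl⟩
    simpa [smul_smul, hX] using hu
  · intro h
    exact ⟨_, h, by simp [smul_smul, hX]⟩

theorem shift_le_iff {L L' : Lat k n} : shift L ≤ shift L' ↔ L ≤ L' := by
  refine ⟨fun h v hv => ?_, fun h => Submodule.map_mono h⟩
  have hX : (RatFunc.X : RatFunc k) ≠ 0 := RatFunc.X_ne_zero
  have := mem_shift.mp (h (mem_shift.mpr (show (RatFunc.X : RatFunc k)⁻¹ •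
    ((RatFunc.X : RatFunc k) • v) ∈ L by simpa [smul_smul, hX] using hv)))
  simpa [smul_smul, hX] using this

theorem shift_stdLat (a : Fin n → ℤ) : shift (stdLat a) = stdLat (k := k) (fun i => a i + 1) := by
  have hX : (RatFunc.X : RatFunc k) ≠ 0 := RatFunc.X_ne_zero
  ext v
  simp only [mem_shift, mem_stdLat, Pi.smul_apply, smul_eq_mul]
  refine forall_congr' fun i => ⟨fun h => ?_, fun h => ?_⟩
  · have h2 := (Dle.zpow (k := k) 1).mul h
    rw [zpow_one, ← mul_assoc, mul_inv_cancel₀ hX, one_mul] at h2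
    exact h2.mono (by omega)
  · have h2 := (Dle.zpow (k := k) (-1)).mul h
    rw [zpow_neg_one] at h2
    exact h2.mono (by omega)

theorem mulVec_single_col (M : Matrix (Fin n) (Fin n) (RatFunc k)) (j i : Fin n) (x : RatFunc k) :
    (M.mulVec (Pi.single j x)) i = M i j * x := by
  simp [Matrix.mulVec_single]

/-- a matrix maps one standard lattice into another exactly when its entries have small degree -/
theorem mapsTo_iff {M : Matrix (Fin n) (Fin n) (RatFunc k)} {a b : Fin n → ℤ} :
    (∀ v ∈ stdLat (k := k) a, M.mulVec v ∈ stdLat b) ↔ ∀ i j, Dle (M i j) (b i - a j) := by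
  constructor
  · intro h i j
    have hm : Pi.single j ((RatFunc.X : RatFunc k) ^ a j) ∈ stdLat a := by
      intro l
      rcases eq_or_ne l j with rfl | hl
      · rw [Pi.single_eq_same]
        exact Dle.zpow (k := k) (a l)
      · exact Or.inl (by simp [hl])
    have h2 := (mem_stdLat.mp (h _ hm) i)
    rw [mulVec_single_col] at h2
    have h3 := h2.mul (Dle.zpow (k := k) (-a j))
    rw [mul_assoc, ← zpow_add₀ RatFunc.X_ne_zero, add_neg_cancel, zpow_zero, mul_one] at h3
    exact h3.mono (by omega)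
  · intro h v hv i
    show Dle (∑ j, M i j * v j) (b i)
    exact Dle.sum fun j _ => ((h i j).mul (mem_stdLat.mp hv j)).mono (sub_add_cancel (b i) (a j)).le

theorem gamAct_std_le_iff {g : Gam n k} {a b : Fin n → ℤ} :
    gamAct g (stdLat a) ≤ stdLat b ↔ ∀ i j, Dle (gMat g i j) (b i - a j) := by
  rw [← mapsTo_iff]
  constructor
  · exact fun h v hv => h ⟨v, hv, rfl⟩
  · rintro h _ ⟨v, hv, rfl⟩
    exact h v hv

/-- echelon bases of a subspace with respect to the grading of the coordinates -/
theorem exists_echelon (a : Fin n → ℤ) (W : Submodule k (Fin n → k)) :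
    ∃ (S : Finset (Fin n)) (w : Fin n → Fin n → k),
      (∀ s ∈ S, w s ∈ W ∧ w s s = 1 ∧ (∀ t ∈ S, t ≠ s → w s t = 0) ∧
        ∀ i, w s i ≠ 0 → a s ≤ a i) ∧
      ∀ v ∈ W, v = ∑ s ∈ S, v s • w s := by
  classical
  induction hd : Module.finrank k W using Nat.strong_induction_on generalizing W with
  | _ d ih =>
    by_cases hW : W = ⊥
    · exact ⟨∅, 0, by simp, fun v hv => by simpa [hW] using hv⟩
    let supp := Finset.univ.filter fun i : Fin n => ∃ v ∈ W, v i ≠ 0
    have hne : supp.Nonempty := by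
      obtain ⟨v, hv, hv0⟩ := W.exists_mem_ne_zero_of_ne_bot hW
      obtain ⟨i, hi⟩ := Function.ne_iff.mp hv0
      exact ⟨i, Finset.mem_filter.mpr ⟨Finset.mem_univ _, v, hv, hi⟩⟩
    obtain ⟨s, hs, hmin⟩ := supp.exists_min_image a hne
    obtain ⟨v₀, hv₀, hv₀s⟩ := (Finset.mem_filter.mp hs).2
    let W' := W ⊓ LinearMap.ker (LinearMap.proj (R := k) (φ := fun _ : Fin n => k) s)
    have hlt : W' < W := by
      refine lt_of_le_of_ne inf_le_left fun h => hv₀s ?_
      have := h.ge hv₀
      exact this.2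
    obtain ⟨S, w, hw, hspan⟩ :=
      ih _ (hd ▸ Submodule.finrank_lt_finrank_of_lt hlt) W' rfl
    have hsS : s ∉ S := fun h => by
      have h1 : w s s = 0 := (hw s h).1.2
      rw [(hw s h).2.1] at h1
      exact one_ne_zero h1
    let v₁ := (v₀ s)⁻¹ • v₀
    let v₂ := v₁ - ∑ t ∈ S, v₁ t • w t
    have hv₁ : v₁ ∈ W := W.smul_mem _ hv₀
    have hv₂ : v₂ ∈ W := W.sub_mem hv₁ (W.sum_mem fun t ht => W.smul_mem _ (hw t ht).1.1)
    have hws : ∀ t ∈ S, w t s = 0 := fun t ht => (hw t ht).1.2
    have hv₂s : v₂ s = 1 := by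
      have h0 : (∑ t ∈ S, v₁ t • w t) s = 0 := by
        simp only [Finset.sum_apply, Pi.smul_apply]
        exact Finset.sum_eq_zero fun t ht => by simp [hws t ht]
      show (v₁ - ∑ t ∈ S, v₁ t • w t) s = 1
      rw [Pi.sub_apply, h0, sub_zero]
      simp [v₁, hv₀s]
    have hv₂t : ∀ u ∈ S, v₂ u = 0 := by
      intro u hu
      have h0 : (∑ t ∈ S, v₁ t • w t) u = v₁ u := by
        simp only [Finset.sum_apply, Pi.smul_apply]
        rw [Finset.sum_eq_single u (fun t ht htu => by simp [(hw t ht).2.2.1 u hu (Ne.symm htu)])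
          (fun h => absurd hu h)]
        simp [(hw u hu).2.1]
      simp [v₂, h0]
    refine ⟨insert s S, Function.update w s v₂, ?_, ?_⟩
    · intro t ht
      rcases Finset.mem_insert.mp ht with hts | htS
      · subst hts
        rw [Function.update_self]
        refine ⟨hv₂, hv₂s, fun u hu hus => hv₂t u ((Finset.mem_insert.mp hu).resolve_left hus),
          fun i hi => hmin i (Finset.mem_filter.mpr ⟨Finset.mem_univ _, v₂, hv₂, hi⟩)⟩
      · have hne' : t ≠ s := fun h => hsS (h ▸ htS)
        rw [Function.update_of_ne hne']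
        refine ⟨(hw t htS).1.1, (hw t htS).2.1, fun u hu hut => ?_, (hw t htS).2.2.2⟩
        rcases Finset.mem_insert.mp hu with hus | huS
        · rw [hus]
          exact hws t htS
        · exact (hw t htS).2.2.1 u huS hut
    · intro v hv
      have h1 : v - v s • v₂ ∈ W' := ⟨W.sub_mem hv (W.smul_mem _ hv₂), by
        show (v - v s • v₂) s = 0
        simp [hv₂s]⟩
      have h2 := hspan _ h1
      rw [Finset.sum_insert hsS, Function.update_self]
      have h3 : ∑ t ∈ S, v t • Function.update w s v₂ t = ∑ t ∈ S, (v - v s • v₂) t • w t :=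
        Finset.sum_congr rfl fun t ht => by
          rw [Function.update_of_ne fun h : t = s => hsS (h ▸ ht)]
          simp [hv₂t t ht]
      rw [h3, ← h2]
      abel

theorem finrank_echelon {W : Submodule k (Fin n → k)} {S : Finset (Fin n)}
    {w : Fin n → Fin n → k}
    (hw : ∀ s ∈ S, w s ∈ W ∧ w s s = 1 ∧ ∀ t ∈ S, t ≠ s → w s t = 0)
    (hspan : ∀ v ∈ W, v = ∑ s ∈ S, v s • w s) : S.card = Module.finrank k W := by
  classical
  let f : W →ₗ[k] (S → k) :=
    (LinearMap.funLeft k k (fun s : S => (s : Fin n))).comp W.subtype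
  have hinj : Function.Injective f := by
    intro u v h
    apply Subtype.ext
    rw [hspan _ u.2, hspan _ v.2]
    exact Finset.sum_congr rfl fun s hs => by
      rw [show (u : Fin n → k) s = (v : Fin n → k) s from congrFun h ⟨s, hs⟩]
  have hsurj : Function.Surjective f := by
    intro c
    refine ⟨⟨∑ s : S, c s • w s, W.sum_mem fun s _ => W.smul_mem _ (hw s s.2).1⟩, ?_⟩
    funext t
    show (∑ s : S, c s • w s) (t : Fin n) = c t
    simp only [Finset.sum_apply, Pi.smul_apply]
    rw [Finset.sum_eq_single t (fun s _ hst => by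
      simp [(hw s s.2).2.2 t t.2 fun h => hst (Subtype.ext h.symm)])
      (fun h => absurd (Finset.mem_univ t) h)]
    simp [(hw t t.2).2.1]
  rw [(LinearEquiv.ofBijective f ⟨hinj, hsurj⟩).finrank_eq]
  simp

end Vale.Agent.P067.KO
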