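import Vale.Agent.P067.KO.LatShort

/-!
The key by which lattices with a degree of two or more are removed, and how it changes at the
neighbours of a lattice.
-/

namespace Vale.Agent.P067.KO

open Finset

variable {k : Type} [Field k] {n : ℕ}

/-- the largest degree -/
def mxDeg (b : Fin n → ℤ) : ℕ := Finset.univ.sup fun i => (b i).toNat

/-- the key of a vector of degrees -/
def keyDeg (b : Fin n → ℤ) : ℕ ×ₗ (ℕ ×ₗ ℕ) :=
  toLex (mxDeg b, toLex ((Finset.univ.filter fun i => (mxDeg b : ℤ) ≤ b i).card,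
    ((n : ℤ) * (mxDeg b : ℤ) - ∑ i, b i).toNat))

theorem le_mxDeg (b : Fin n → ℤ) (i : Fin n) : b i ≤ (mxDeg b : ℤ) := by
  have h : (b i).toNat ≤ mxDeg b := Finset.le_sup (f := fun i => (b i).toNat) (Finset.mem_univ i)
  omega

theorem sum_le_mxDeg (b : Fin n → ℤ) : ∑ i, b i ≤ (n : ℤ) * (mxDeg b : ℤ) :=
  (Finset.sum_le_sum fun i _ => le_mxDeg b i).trans_eq (by simp)

theorem mxDeg_le {b : Fin n → ℤ} {M : ℕ} (h : ∀ i, b i ≤ (M : ℤ)) : mxDeg b ≤ M :=
  Finset.sup_le fun i _ => by have := h i; omega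

theorem exists_mxDeg {b : Fin n → ℤ} (h : 1 ≤ mxDeg b) : ∃ i, b i = (mxDeg b : ℤ) := by
  have hne : (Finset.univ : Finset (Fin n)).Nonempty := by
    rw [Finset.nonempty_iff_ne_empty]
    intro he
    simp [mxDeg, he] at h
  obtain ⟨i, -, hi⟩ := Finset.exists_mem_eq_sup _ hne fun i => (b i).toNat
  refine ⟨i, ?_⟩
  have : mxDeg b = (b i).toNat := hi
  omega

theorem key_lt_iff {b a : Fin n → ℤ} : keyDeg b < keyDeg a ↔ mxDeg b < mxDeg a ∨
    mxDeg b = mxDeg a ∧
      ((Finset.univ.filter fun i => (mxDeg b : ℤ) ≤ b i).card <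
          (Finset.univ.filter fun i => (mxDeg a : ℤ) ≤ a i).card ∨
        (Finset.univ.filter fun i => (mxDeg b : ℤ) ≤ b i).card =
            (Finset.univ.filter fun i => (mxDeg a : ℤ) ≤ a i).card ∧
          ((n : ℤ) * (mxDeg b : ℤ) - ∑ i, b i).toNat <
            ((n : ℤ) * (mxDeg a : ℤ) - ∑ i, a i).toNat) := by
  simp only [keyDeg, Prod.Lex.toLex_lt_toLex]

theorem key_eq_iff {b a : Fin n → ℤ} (h : keyDeg b = keyDeg a) :
    ∑ i, b i = ∑ i, a i := by
  simp only [keyDeg, toLex_inj, Prod.mk.injEq] at h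
  obtain ⟨h1, -, h3⟩ := h
  have := sum_le_mxDeg a
  have := sum_le_mxDeg b
  rw [h1] at h3 this
  omega

/-- at a neighbour above, the key is smaller exactly if the raised degrees were small -/
theorem keyDeg_up {a : Fin n → ℤ} {S : Finset (Fin n)} (hS : S.Nonempty) (hM : 1 ≤ mxDeg a) :
    keyDeg (a + bump S) < keyDeg a ↔ ∀ s ∈ S, a s < (mxDeg a : ℤ) - 1 := by
  have hb : ∀ i, (a + bump S) i = a i + if i ∈ S then 1 else 0 := fun i => rfl
  obtain ⟨i₀, hi₀⟩ := exists_mxDeg hM
  have hge : mxDeg a ≤ mxDeg (a + bump S) := by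
    have h1 := le_mxDeg (a + bump S) i₀
    rw [hb] at h1
    split_ifs at h1 <;> omega
  rw [key_lt_iff]
  constructor
  · intro h s hs
    by_contra hlt
    obtain ⟨heq, h⟩ := h.resolve_left (not_lt.2 hge)
    rw [heq] at h
    have h1 := le_mxDeg (a + bump S) s
    have h2 := le_mxDeg a s
    rw [hb, if_pos hs, heq] at h1
    have hss : (Finset.univ.filter fun i => (mxDeg a : ℤ) ≤ a i) ⊂
        Finset.univ.filter fun i => (mxDeg a : ℤ) ≤ (a + bump S) i := by
      refine (Finset.ssubset_iff_of_subset fun i hi => ?_).2 ⟨s, ?_, ?_⟩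
      · simp only [Finset.mem_filter, Finset.mem_univ, true_and, hb] at hi ⊢
        split_ifs <;> omega
      · simp only [Finset.mem_filter, Finset.mem_univ, true_and, hb, if_pos hs]
        omega
      · simp only [Finset.mem_filter, Finset.mem_univ, true_and]
        omega
    have := Finset.card_lt_card hss
    omega
  · intro h
    have heq : mxDeg (a + bump S) = mxDeg a := le_antisymm (mxDeg_le fun i => by
      have := le_mxDeg a i
      rw [hb]
      split_ifs with hi
      · have := h i hi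
        omega
      · omega) hge
    refine Or.inr ⟨heq, Or.inr ⟨?_, ?_⟩⟩
    · rw [heq]
      congr 1
      ext i
      simp only [Finset.mem_filter, Finset.mem_univ, true_and, hb]
      split_ifs with hi
      · have := h i hi
        omega
      · omega
    · have h1 : ∑ i, a i < ∑ i, (a + bump S) i := by
        obtain ⟨s, hs⟩ := hS
        refine Finset.sum_lt_sum (fun i _ => ?_) ⟨s, Finset.mem_univ s, ?_⟩
        · rw [hb]
          split_ifs <;> omega
        · rw [hb, if_pos hs]
          omega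
      have := sum_le_mxDeg (a + bump S)
      rw [heq] at this ⊢
      omega

/-- at a neighbour below, the key is smaller exactly if some largest degree was lowered -/
theorem keyDeg_down {a : Fin n → ℤ} {S : Finset (Fin n)} (hM : 1 ≤ mxDeg a) :
    keyDeg (fun i => (a + bump S) i - 1) < keyDeg a ↔ ∃ i, a i = (mxDeg a : ℤ) ∧ i ∉ S := by
  set b : Fin n → ℤ := fun i => (a + bump S) i - 1 with hb'
  have hb : ∀ i, b i = a i + (if i ∈ S then 1 else 0) - 1 := fun i => rfl
  have hle : mxDeg b ≤ mxDeg a := mxDeg_le fun i => by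
    have := le_mxDeg a i
    rw [hb]
    split_ifs <;> omega
  rw [key_lt_iff]
  constructor
  · intro h
    by_contra hne
    push Not at hne
    obtain ⟨i₀, hi₀⟩ := exists_mxDeg hM
    have heq : mxDeg b = mxDeg a := by
      refine le_antisymm hle ?_
      have h1 := le_mxDeg b i₀
      rw [hb, if_pos (hne i₀ hi₀)] at h1
      omega
    obtain ⟨-, h⟩ := h.resolve_left (not_lt.2 heq.ge)
    rw [heq] at h
    have hfe : (Finset.univ.filter fun i => (mxDeg a : ℤ) ≤ b i) =
        Finset.univ.filter fun i => (mxDeg a : ℤ) ≤ a i := by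
      ext i
      simp only [Finset.mem_filter, Finset.mem_univ, true_and, hb]
      constructor
      · intro hi
        split_ifs at hi <;> omega
      · intro hi
        rw [if_pos (hne i (le_antisymm (le_mxDeg a i) hi))]
        omega
    rw [hfe] at h
    have h1 : ∑ i, b i ≤ ∑ i, a i := Finset.sum_le_sum fun i _ => by
      rw [hb]
      split_ifs <;> omega
    omega
  · rintro ⟨i, hi, hiS⟩
    rcases hle.lt_or_eq with h | h
    · exact Or.inl h
    refine Or.inr ⟨h, Or.inl ?_⟩
    rw [h]
    refine Finset.card_lt_card ((Finset.ssubset_iff_of_subset fun j hj => ?_).2 ⟨i, ?_, ?_⟩)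
    · simp only [Finset.mem_filter, Finset.mem_univ, true_and, hb] at hj ⊢
      split_ifs at hj <;> omega
    · simp only [Finset.mem_filter, Finset.mem_univ, true_and]
      omega
    · simp only [Finset.mem_filter, Finset.mem_univ, true_and, hb, if_neg hiS]
      omega

open scoped Classical in
/-- some degrees of a lattice, if it has any -/
noncomputable def someDeg (L : Lat k n) : Fin n → ℤ :=
  if h : ∃ a, HasDeg L a then h.choose else 0

/-- the key of a lattice -/
noncomputable def latKey (L : Lat k n) : ℕ ×ₗ (ℕ ×ₗ ℕ) := keyDeg (someDeg L)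

theorem LatFacts.mxDeg_eq (H : LatFacts k n) {L : Lat k n} {a b : Fin n → ℤ}
    (ha : HasDeg L a) (hb : HasDeg L b) : mxDeg a ≤ mxDeg b := by
  refine mxDeg_le fun i => ?_
  have h1 := H.count_eq ha hb (a i)
  have h2 : 0 < (Finset.univ.filter fun j => a i ≤ a j).card :=
    Finset.card_pos.2 ⟨i, by simp⟩
  rw [h1, Finset.card_pos] at h2
  obtain ⟨j, hj⟩ := h2
  exact (Finset.mem_filter.1 hj).2.trans (le_mxDeg b j)

theorem LatFacts.latKey_eq (H : LatFacts k n) {L : Lat k n} {a : Fin n → ℤ} (ha : HasDeg L a) :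
    latKey L = keyDeg a := by
  have h : ∃ a, HasDeg L a := ⟨a, ha⟩
  have hd : HasDeg L (someDeg L) := by
    rw [someDeg, dif_pos h]
    exact h.choose_spec
  have h1 : mxDeg (someDeg L) = mxDeg a := le_antisymm (H.mxDeg_eq hd ha) (H.mxDeg_eq ha hd)
  rw [latKey, keyDeg, keyDeg, h1, H.sum_eq hd ha, H.count_eq hd ha (mxDeg a : ℤ)]

end Vale.Agent.P067.KO
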