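import Vale.Agent.P067.KO.Acy

/-!
Order complexes: contractions from a monotone choice of upper bounds (directed posets, cones,
closure operators), with bounded fillings, and pulling acyclicity back along maps of posets whose
lower fibres have largest elements.
-/

namespace Vale.Agent.P067.KO

open Finset Vale.Agent.P067.Sub

variable {β : Type*} [PartialOrder β] [DecidableEq β]

/-- finite chains in `S` -/
def OrdC (S : β → Prop) (s : Finset β) : Prop :=
  (∀ x ∈ s, S x) ∧ ∀ x ∈ s, ∀ y ∈ s, x ≤ y ∨ y ≤ x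

omit [DecidableEq β] in
theorem ordC_down (S : β → Prop) : Down (OrdC S) :=
  fun _ _ hs hts => ⟨fun x hx => hs.1 x (hts hx), fun x hx y hy => hs.2 x (hts hx) y (hts hy)⟩

omit [DecidableEq β] in
theorem OrdC.exists_max {S : β → Prop} {s : Finset β} (hs : OrdC S s) (hne : s.Nonempty) :
    ∃ m ∈ s, ∀ x ∈ s, x ≤ m := by
  obtain ⟨m, hm⟩ := s.exists_maximal hne
  refine ⟨m, hm.1, fun x hx => ?_⟩
  rcases hs.2 x hx m hm.1 with h | h
  · exact h
  · exact hm.2 hx h

theorem OrdC.insert_top {S : β → Prop} {s : Finset β} (hs : OrdC S s) {u : β} (hu : S u)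
    (hle : ∀ x ∈ s, x ≤ u) : OrdC S (insert u s) := by
  refine ⟨fun x hx => ?_, fun x hx y hy => ?_⟩
  · rcases Finset.mem_insert.mp hx with rfl | h
    · exact hu
    · exact hs.1 x h
  · rcases Finset.mem_insert.mp hx with hxu | hx'
    · rcases Finset.mem_insert.mp hy with hyu | hy'
      · exact Or.inl (hxu.trans hyu.symm).le
      · exact Or.inr (hxu ▸ hle y hy')
    · rcases Finset.mem_insert.mp hy with hyu | hy'
      · exact Or.inl (hyu ▸ hle x hx')
      · exact hs.2 x hx' y hy'

/-- the contraction from a choice of upper bounds -/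
noncomputable def topHom (u : Finset β → β) : Ch β →ₗ[ZMod 2] Ch β :=
  recMap (fun s => cone (u s)) (LinearMap.id : Ch β →ₗ[ZMod 2] Ch β) (sg {u ∅})

theorem bd_topHom (u : Finset β → β) (z : Ch β) :
    bd (topHom u z) + topHom u (bd z) = z :=
  recMap_homotopy (S := fun s => cone (u s)) (Φ := LinearMap.id) (e := sg {u ∅})
    (fun _ => cone_filler _) (fun _ => rfl) (by simp [bd_sg]) z

theorem topHom_On {S : β → Prop} (u : Finset β → β) (hu : ∀ s, OrdC S s → S (u s))
    (hle : ∀ s, OrdC S s → ∀ x ∈ s, x ≤ u s)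
    (hmono : ∀ s, OrdC S s → ∀ x ∈ s, u (s.erase x) ≤ u s) (s : Finset β) :
    topHom u (sg s) ∈ On (fun t => OrdC S s →
      OrdC S t ∧ t.card = s.card + 1 ∧ ∀ x ∈ t, x ≤ u s) := by
  refine recMap_On (fun s t => OrdC S s → OrdC S t ∧ t.card = s.card + 1 ∧ ∀ x ∈ t, x ≤ u s)
    (sg_mem fun h => ?_) (fun s hne ih => ?_) s
  · have h0 : OrdC S (∅ : Finset β) := ⟨by simp, by simp⟩
    exact ⟨⟨by simpa using hu ∅ h0, by simp⟩, by simp, by simp⟩
  by_cases hs : OrdC S s
  swap
  · exact mem_On.mpr fun t _ h => absurd h hs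
  have hin : (LinearMap.id : Ch β →ₗ[ZMod 2] Ch β) (sg s) + recMap (fun s => cone (u s)) (LinearMap.id : Ch β →ₗ[ZMod 2] Ch β) (sg {u ∅}) (bd (sg s))
      ∈ On (fun t => OrdC S t ∧ t.card = s.card ∧ ∀ x ∈ t, x ≤ u s) := by
    refine Submodule.add_mem _ (sg_mem ⟨hs, rfl, hle s hs⟩) ?_
    rw [recMap_bd_sg]
    refine Submodule.sum_mem _ fun x hx => On_mono (fun t ht => ?_) (ih x hx)
    obtain ⟨h1, h2, h3⟩ := ht (ordC_down S s _ hs (Finset.erase_subset x s))
    exact ⟨h1, by rw [h2, Finset.card_erase_add_one hx],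
      fun y hy => (h3 y hy).trans (hmono s hs x hx)⟩
  refine On_mono (fun t ht _ => ht) (cone_On (u s) (fun t ht hut => ?_) hin)
  refine ⟨ht.1.insert_top (hu s hs) ht.2.2, ?_, fun x hx => ?_⟩
  · rw [Finset.card_insert_of_notMem hut, ht.2.1]
  · rcases Finset.mem_insert.mp hx with rfl | h
    · exact le_rfl
    · exact ht.2.2 x h

theorem card_support_cone (c : β) (z : Ch β) : (cone c z).support.card ≤ z.support.card := by
  refine (card_support_map_le (cone c) (L := 1) fun s _ => ?_).trans_eq (mul_one _)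
  rw [cone, lift_sg]
  split_ifs
  · simp
  · exact (Finset.card_le_card Finsupp.support_single_subset).trans_eq (Finset.card_singleton _)

theorem card_support_topHom (u : Finset β → β) :
    ∀ n, ∀ s : Finset β, s.card ≤ n → (topHom u (sg s)).support.card ≤ (n + 1).factorial * 2 := by
  intro n
  induction n with
  | zero =>
    intro s hs
    obtain rfl := Finset.card_eq_zero.mp (Nat.le_zero.mp hs)
    rw [topHom, recMap_empty]
    exact (Finset.card_le_card Finsupp.support_single_subset).trans (by simp)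
  | succ n ih =>
    intro s hs
    rcases eq_or_ne s ∅ with rfl | hne
    · exact (ih ∅ (by simp)).trans (Nat.mul_le_mul_right 2 (Nat.factorial_le (by omega)))
    rw [topHom, recMap_sg hne]
    refine (card_support_cone _ _).trans ((Finset.card_le_card Finsupp.support_add).trans
      ((Finset.card_union_le _ _).trans ?_))
    have h1 : ((LinearMap.id : Ch β →ₗ[ZMod 2] Ch β) (sg s)).support.card ≤ 1 :=
      (Finset.card_le_card Finsupp.support_single_subset).trans (by simp)
    have h2 : (recMap (fun s => cone (u s)) (LinearMap.id : Ch β →ₗ[ZMod 2] Ch β) (sg {u ∅}) (bd (sg s))).support.card ≤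
        s.card * ((n + 1).factorial * 2) := by
      rw [recMap_bd_sg]
      refine (Finset.card_le_card Finsupp.support_finsetSum).trans
        (Finset.card_biUnion_le_card_mul _ _ _ fun x hx => ?_)
      exact ih _ (by have := Finset.card_erase_lt_of_mem hx; omega)
    have h3 : (n + 1 + 1).factorial = (n + 1 + 1) * (n + 1).factorial := Nat.factorial_succ _
    have h4 : 1 ≤ (n + 1).factorial := Nat.factorial_pos _
    rw [h3]
    nlinarith [Nat.mul_le_mul_right ((n + 1).factorial * 2) hs]

/-- a poset with a monotone choice of upper bounds for its chains is acyclic, with small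
fillings -/
theorem acyB_of_top {S : β → Prop} (u : Finset β → β) (hu : ∀ s, OrdC S s → S (u s))
    (hle : ∀ s, OrdC S s → ∀ x ∈ s, x ≤ u s)
    (hmono : ∀ s, OrdC S s → ∀ x ∈ s, u (s.erase x) ≤ u s) (m : ℕ) :
    AcyB (fun s => s * (2 * (m + 1).factorial)) (OrdC S) m := by
  intro c hc z hz hb s hs
  refine ⟨topHom u z, ?_, ?_, ?_⟩
  · refine map_On (topHom u) (fun t ht => ?_) hz
    exact On_mono (fun t' ht' => by
      obtain ⟨h1, h2, _⟩ := ht' ht.1
      exact ⟨h1, by rw [h2, ht.2]⟩) (topHom_On u hu hle hmono t)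
  · simpa [hb] using bd_topHom u z
  · refine (card_support_map_le (topHom u) (L := 2 * (m + 1).factorial) fun t ht => ?_).trans
      (Nat.mul_le_mul_right _ hs)
    refine (card_support_topHom u t.card t le_rfl).trans ?_
    rw [mul_comm]
    exact Nat.mul_le_mul_left 2 (Nat.factorial_le (by have := (hz ht).2; omega))

omit [PartialOrder β] [DecidableEq β] in
/-- a linear map between chains on two types sends chains on `P` to a submodule if it does so for
single sets -/
theorem map_On' {α : Type*} {P : Finset α → Prop} {M : Submodule (ZMod 2) (Ch β)}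
    (A : Ch α →ₗ[ZMod 2] Ch β) (h : ∀ s, P s → A (sg s) ∈ M) {z : Ch α} (hz : z ∈ On P) :
    A z ∈ M := by
  rw [← Finsupp.sum_single z, Finsupp.sum, map_sum]
  refine Submodule.sum_mem _ fun s hs => ?_
  have e : Finsupp.single s (z s) = z s • sg s := by simp [sg]
  rw [e, map_smul]
  exact Submodule.smul_mem _ _ (h s (hz hs))

omit [PartialOrder β] in
theorem ext_sg' {α : Type*} {M : Type*} [AddCommMonoid M] [Module (ZMod 2) M]
    {A B : Ch α →ₗ[ZMod 2] M} (h : ∀ s, A (sg s) = B (sg s)) : A = B :=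
  Finsupp.lhom_ext fun s b => by
    have e : Finsupp.single s b = b • sg s := by simp [sg]
    rw [e, map_smul, map_smul, h]

variable {γ : Type*} [DecidableEq γ]

/-- recursion over fillers, between chains on different types -/
noncomputable def recFun' (S : Finset γ → Ch β →ₗ[ZMod 2] Ch β) (Φ : Ch γ →ₗ[ZMod 2] Ch β)
    (e : Ch β) (s : Finset γ) : Ch β :=
  if s = ∅ then e
  else S s (Φ (sg s) + ∑ x ∈ s.attach, recFun' S Φ e (s.erase x.1))
termination_by s.card
decreasing_by exact Finset.card_erase_lt_of_mem x.2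

/-- the linear map given by the recursion -/
noncomputable def recMap' (S : Finset γ → Ch β →ₗ[ZMod 2] Ch β) (Φ : Ch γ →ₗ[ZMod 2] Ch β)
    (e : Ch β) : Ch γ →ₗ[ZMod 2] Ch β :=
  Finsupp.linearCombination (ZMod 2) (recFun' S Φ e)

variable {F : Finset γ → Ch β →ₗ[ZMod 2] Ch β} {Φ : Ch γ →ₗ[ZMod 2] Ch β} {e : Ch β}

omit [PartialOrder β] in
theorem recMap'_sg (s : Finset γ) : recMap' F Φ e (sg s) = if s = ∅ then e
    else F s (Φ (sg s) + recMap' F Φ e (bd (sg s))) := by
  have h : ∀ t, recMap' F Φ e (sg t) = recFun' F Φ e t := fun t => by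
    simp [recMap', sg, Finsupp.linearCombination_single]
  rw [h, recFun', bd_sg, map_sum]
  simp only [h]
  rw [Finset.sum_attach s (fun x => recFun' F Φ e (s.erase x))]

omit [PartialOrder β] in
theorem recMap'_homotopy (hF : ∀ s, IsFiller (F s)) (hΦ : ∀ z, bd (Φ z) = Φ (bd z))
    (he : bd e = Φ (sg ∅)) (z : Ch γ) :
    bd (recMap' F Φ e z) + recMap' F Φ e (bd z) = Φ z := by
  have key : ∀ s : Finset γ,
      bd (recMap' F Φ e (sg s)) + recMap' F Φ e (bd (sg s)) = Φ (sg s) := by
    intro s
    induction s using Finset.strongInduction with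
    | H s ih =>
      rcases eq_or_ne s ∅ with rfl | hne
      · rw [recMap'_sg, if_pos rfl, bd_sg, Finset.sum_empty, map_zero, add_zero, he]
      have h2 : bd (recMap' F Φ e (bd (sg s))) + recMap' F Φ e (bd (bd (sg s)))
          = Φ (bd (sg s)) := by
        rw [bd_sg]
        simp only [map_sum, ← Finset.sum_add_distrib]
        exact Finset.sum_congr rfl fun x hx => ih _ (Finset.erase_ssubset hx)
      rw [bd_bd, map_zero, add_zero] at h2
      have h3 : bd (Φ (sg s) + recMap' F Φ e (bd (sg s))) = 0 := by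
        rw [map_add, h2, hΦ, add_self']
      rw [recMap'_sg, if_neg hne, (hF s).bd_eq h3, add_assoc, add_self', add_zero]
  have h : bd.comp (recMap' F Φ e) + (recMap' F Φ e).comp bd = Φ := ext_sg' key
  exact LinearMap.congr_fun h z

/-- pulling acyclicity back along a monotone map whose lower fibres have largest elements -/
theorem Acy.of_map [PartialOrder γ] {Q : β → Prop} {S : γ → Prop}
    (f : β → γ) (hf : ∀ x, Q x → S (f x)) (hmono : ∀ x y, Q x → Q y → x ≤ y → f x ≤ f y)
    (top : γ → β) (htop : ∀ x, S x → Q (top x) ∧ f (top x) ≤ x)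
    (hmax : ∀ x y, S x → Q y → f y ≤ x → y ≤ top x) (v : β) {m : ℕ} (h : Acy (OrdC S) m) :
    Acy (OrdC Q) m := by
  classical
  have topmono : ∀ x y, S x → S y → x ≤ y → top x ≤ top y := fun x y hx hy hxy =>
    hmax y (top x) hy (htop x hx).1 ((htop x hx).2.trans hxy)
  let mx : Finset γ → γ := fun s =>
    if h : ∃ m ∈ s, ∀ x ∈ s, x ≤ m then h.choose else f v
  have mxS : ∀ s, OrdC S s → s ≠ ∅ → mx s ∈ s ∧ ∀ x ∈ s, x ≤ mx s := by
    intro s hs hne
    have h := hs.exists_max (Finset.nonempty_iff_ne_empty.mpr hne)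
    simp only [mx, dif_pos h]
    exact h.choose_spec
  let mq : Finset β → β := fun s =>
    if h : ∃ m ∈ s, ∀ x ∈ s, x ≤ m then h.choose else v
  have mqQ : ∀ s, OrdC Q s → s ≠ ∅ → mq s ∈ s ∧ ∀ x ∈ s, x ≤ mq s := by
    intro s hs hne
    have h := hs.exists_max (Finset.nonempty_iff_ne_empty.mpr hne)
    simp only [mq, dif_pos h]
    exact h.choose_spec
  let pu : Ch β →ₗ[ZMod 2] Ch γ := recMap' (fun s => cone (f (mq s))) 0 (sg ∅)
  let gq : Ch γ →ₗ[ZMod 2] Ch β := recMap' (fun s => cone (top (mx s))) 0 (sg ∅)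
  have pu_bd : ∀ z, bd (pu z) = pu (bd z) := fun z => by
    have h := recMap'_homotopy (F := fun s => cone (f (mq s))) (Φ := (0 : Ch β →ₗ[ZMod 2] Ch γ))
      (e := sg ∅) (fun _ => cone_filler _) (fun _ => by simp) (by simp [bd_sg]) z
    simp only [LinearMap.zero_apply] at h
    exact (ZModModule.sub_eq_add _ _).trans h |> sub_eq_zero.mp
  have gq_bd : ∀ z, bd (gq z) = gq (bd z) := fun z => by
    have h := recMap'_homotopy (F := fun s => cone (top (mx s))) (Φ := (0 : Ch γ →ₗ[ZMod 2] Ch β))
      (e := sg ∅) (fun _ => cone_filler _) (fun _ => by simp) (by simp [bd_sg]) z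
    simp only [LinearMap.zero_apply] at h
    exact (ZModModule.sub_eq_add _ _).trans h |> sub_eq_zero.mp
  let hh : Ch β →ₗ[ZMod 2] Ch β :=
    recMap' (fun s => cone (top (f (mq s)))) (LinearMap.id + gq.comp pu) 0
  have pu_sg : ∀ s, OrdC Q s → pu (sg s) ∈
      On (fun t => OrdC S t ∧ t.card = s.card ∧ ∀ x ∈ t, ∃ y ∈ s, x ≤ f y) := by
    intro s
    induction s using Finset.strongInduction with
    | H s ih =>
      intro hs
      simp only [pu, recMap'_sg]
      split_ifs with hne
      · subst hne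
        exact sg_mem ⟨⟨by simp, by simp⟩, rfl, by simp⟩
      obtain ⟨hm, hle⟩ := mqQ s hs hne
      rw [LinearMap.zero_apply, zero_add, bd_sg, map_sum]
      refine cone_On _ (P := fun t => OrdC S t ∧ t.card + 1 = s.card ∧ ∀ x ∈ t, x ≤ f (mq s))
        ?_ ?_
      · intro t ht hn
        refine ⟨ht.1.insert_top (hf _ (hs.1 _ hm)) ht.2.2, ?_, ?_⟩
        · rw [Finset.card_insert_of_notMem hn, ht.2.1]
        · intro x hx
          rcases Finset.mem_insert.mp hx with hxe | hx'
          · exact ⟨mq s, hm, hxe.le⟩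
          · exact ⟨mq s, hm, ht.2.2 x hx'⟩
      · refine Submodule.sum_mem _ fun y hy => On_mono (fun t ht => ⟨ht.1, ?_, ?_⟩)
          (ih _ (Finset.erase_ssubset hy) (ordC_down Q s _ hs (Finset.erase_subset y s)))
        · rw [ht.2.1, Finset.card_erase_add_one hy]
        · intro x hx
          obtain ⟨w, hw, hxw⟩ := ht.2.2 x hx
          have hw' := Finset.mem_of_mem_erase hw
          exact hxw.trans (hmono _ _ (hs.1 w hw') (hs.1 _ hm) (hle w hw'))
  have gq_sg : ∀ s, OrdC S s → gq (sg s) ∈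
      On (fun t => OrdC Q t ∧ t.card = s.card ∧ ∀ x ∈ t, ∃ y ∈ s, x ≤ top y) := by
    intro s
    induction s using Finset.strongInduction with
    | H s ih =>
      intro hs
      simp only [gq, recMap'_sg]
      split_ifs with hne
      · subst hne
        exact sg_mem ⟨⟨by simp, by simp⟩, rfl, by simp⟩
      obtain ⟨hm, hle⟩ := mxS s hs hne
      rw [LinearMap.zero_apply, zero_add, bd_sg, map_sum]
      refine cone_On _ (P := fun t => OrdC Q t ∧ t.card + 1 = s.card ∧ ∀ x ∈ t, x ≤ top (mx s))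
        ?_ ?_
      · intro t ht hn
        refine ⟨ht.1.insert_top (htop _ (hs.1 _ hm)).1 ht.2.2, ?_, ?_⟩
        · rw [Finset.card_insert_of_notMem hn, ht.2.1]
        · intro x hx
          rcases Finset.mem_insert.mp hx with hxe | hx'
          · exact ⟨mx s, hm, hxe.le⟩
          · exact ⟨mx s, hm, ht.2.2 x hx'⟩
      · refine Submodule.sum_mem _ fun y hy => On_mono (fun t ht => ⟨ht.1, ?_, ?_⟩)
          (ih _ (Finset.erase_ssubset hy) (ordC_down S s _ hs (Finset.erase_subset y s)))
        · rw [ht.2.1, Finset.card_erase_add_one hy]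
        · intro x hx
          obtain ⟨w, hw, hxw⟩ := ht.2.2 x hx
          have hw' := Finset.mem_of_mem_erase hw
          exact hxw.trans (topmono _ _ (hs.1 w hw') (hs.1 _ hm) (hle w hw'))
  have hh_sg : ∀ s, OrdC Q s → hh (sg s) ∈
      On (fun t => OrdC Q t ∧ t.card = s.card + 1 ∧ ∀ x ∈ t, ∃ y ∈ s, x ≤ top (f y)) := by
    intro s
    induction s using Finset.strongInduction with
    | H s ih =>
      intro hs
      simp only [hh, recMap'_sg]
      split_ifs with hne
      · exact Submodule.zero_mem _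
      obtain ⟨hm, hle⟩ := mqQ s hs hne
      have hfm : ∀ y ∈ s, top (f y) ≤ top (f (mq s)) := fun y hy =>
        topmono _ _ (hf _ (hs.1 y hy)) (hf _ (hs.1 _ hm))
          (hmono _ _ (hs.1 y hy) (hs.1 _ hm) (hle y hy))
      refine cone_On _ (P := fun t => OrdC Q t ∧ t.card = s.card ∧ ∀ x ∈ t, x ≤ top (f (mq s)))
        ?_ ?_
      · intro t ht hn
        refine ⟨ht.1.insert_top (htop _ (hf _ (hs.1 _ hm))).1 ht.2.2, ?_, ?_⟩
        · rw [Finset.card_insert_of_notMem hn, ht.2.1]
        · intro x hx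
          rcases Finset.mem_insert.mp hx with hxe | hx'
          · exact ⟨mq s, hm, hxe.le⟩
          · exact ⟨mq s, hm, ht.2.2 x hx'⟩
      refine Submodule.add_mem _ ?_ ?_
      · rw [LinearMap.add_apply, LinearMap.id_apply, LinearMap.comp_apply]
        refine Submodule.add_mem _ (sg_mem ⟨hs, rfl, fun y hy =>
          (hmax _ _ (hf _ (hs.1 y hy)) (hs.1 y hy) le_rfl).trans (hfm y hy)⟩) ?_
        refine map_On' gq (fun t ht => On_mono (fun t' ht' => ⟨ht'.1, ?_, ?_⟩)
          (gq_sg t ht.1)) (pu_sg s hs)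
        · rw [ht'.2.1, ht.2.1]
        · intro x hx
          obtain ⟨w, hw, hxw⟩ := ht'.2.2 x hx
          obtain ⟨y, hy, hwy⟩ := ht.2.2 w hw
          exact hxw.trans ((topmono _ _ (ht.1.1 w hw) (hf _ (hs.1 y hy)) hwy).trans (hfm y hy))
      · rw [bd_sg, map_sum]
        refine Submodule.sum_mem _ fun y hy => On_mono (fun t ht => ⟨ht.1, ?_, ?_⟩)
          (ih _ (Finset.erase_ssubset hy) (ordC_down Q s _ hs (Finset.erase_subset y s)))
        · rw [ht.2.1, Finset.card_erase_add_one hy]
        · intro x hx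
          obtain ⟨w, hw, hxw⟩ := ht.2.2 x hx
          exact hxw.trans (hfm w (Finset.mem_of_mem_erase hw))
  intro c hc z hz hb
  have h1 : pu z ∈ On (Sz (OrdC S) c) := map_On' pu
    (fun t ht => On_mono (fun t' ht' => ⟨ht'.1, ht'.2.1.trans ht.2⟩) (pu_sg t ht.1)) hz
  obtain ⟨w, hw, hwz⟩ := h c hc (pu z) h1 (by rw [pu_bd, hb, map_zero])
  refine ⟨hh z + gq w, Submodule.add_mem _ ?_ ?_, ?_⟩
  · exact map_On' hh (fun t ht => On_mono
      (fun t' ht' => ⟨ht'.1, by rw [ht'.2.1, ht.2]⟩) (hh_sg t ht.1)) hz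
  · exact map_On' gq (fun t ht => On_mono
      (fun t' ht' => ⟨ht'.1, ht'.2.1.trans ht.2⟩) (gq_sg t ht.1)) hw
  · have he : (0 : Ch β) = (LinearMap.id + gq.comp pu : Ch β →ₗ[ZMod 2] Ch β) (sg ∅) := by
      have e1 : pu (sg ∅) = sg ∅ := by simp [pu, recMap'_sg]
      have e2 : gq (sg ∅) = sg ∅ := by simp [gq, recMap'_sg]
      rw [LinearMap.add_apply, LinearMap.id_apply, LinearMap.comp_apply, e1, e2, add_self']
    have h2 := recMap'_homotopy (F := fun s => cone (top (f (mq s))))
      (Φ := LinearMap.id + gq.comp pu) (e := 0) (fun _ => cone_filler _)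
      (fun z => by simp [pu_bd, gq_bd]) (by rw [map_zero]; exact he) z
    simp only [hb, map_zero, add_zero, LinearMap.add_apply, LinearMap.id_apply,
      LinearMap.comp_apply] at h2
    have h2' : bd (hh z) = z + gq (pu z) := h2
    rw [map_add, h2', gq_bd, hwz, add_assoc, add_self', add_zero]

end Vale.Agent.P067.KO
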