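import Vale.Agent.P067.KO.LatticeStep
import Vale.Agent.P067.KO.Poset

/-!
Lattices with nonnegative degrees: their chains are acyclic, and stay acyclic when pairs that are
further apart than one shift are removed.
-/

namespace Vale.Agent.P067.KO

open Finset Vale.Agent.P067.Sub

variable {k : Type} [Field k] {n : ℕ}

/-- multiplication of a lattice by the inverse of the variable -/
noncomputable def unshift (L : Lat k n) : Lat k n :=
  L.map ((LinearMap.lsmul (RatFunc k) (Fin n → RatFunc k) RatFunc.X⁻¹).restrictScalars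
    (inftyRing k))

theorem shift_unshift (L : Lat k n) : shift (unshift L) = L := by
  ext v
  simp only [shift, unshift, Submodule.mem_map, LinearMap.coe_restrictScalars,
    LinearMap.lsmul_apply]
  constructor
  · rintro ⟨_, ⟨w, hw, rfl⟩, rfl⟩
    rwa [smul_smul, mul_inv_cancel₀ RatFunc.X_ne_zero, one_smul]
  · exact fun hv => ⟨_, ⟨v, hv, rfl⟩,
      by rw [smul_smul, mul_inv_cancel₀ RatFunc.X_ne_zero, one_smul]⟩

theorem unshift_shift (L : Lat k n) : unshift (shift L) = L := by
  ext v
  simp only [shift, unshift, Submodule.mem_map, LinearMap.coe_restrictScalars,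
    LinearMap.lsmul_apply]
  constructor
  · rintro ⟨_, ⟨w, hw, rfl⟩, rfl⟩
    rwa [smul_smul, inv_mul_cancel₀ RatFunc.X_ne_zero, one_smul]
  · exact fun hv => ⟨_, ⟨v, hv, rfl⟩,
      by rw [smul_smul, inv_mul_cancel₀ RatFunc.X_ne_zero, one_smul]⟩

theorem X_inv_mem_inftyRing : (RatFunc.X : RatFunc k)⁻¹ ∈ inftyRing k := by
  change (RatFunc.X : RatFunc k)⁻¹.intDegree ≤ 0
  simp [RatFunc.intDegree_inv]

theorem unshift_le (L : Lat k n) : unshift L ≤ L := by
  rintro v ⟨w, hw, rfl⟩
  exact L.smul_mem (⟨RatFunc.X⁻¹, X_inv_mem_inftyRing⟩ : inftyRing k) hw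

theorem shift_mono {L L' : Lat k n} (h : L ≤ L') : shift L ≤ shift L' := Submodule.map_mono h

theorem unshift_mono {L L' : Lat k n} (h : L ≤ L') : unshift L ≤ unshift L' :=
  Submodule.map_mono h

theorem unshift_sup (L L' : Lat k n) : unshift (L ⊔ L') = unshift L ⊔ unshift L' :=
  Submodule.map_sup _ _ _

theorem le_shift_self (L : Lat k n) : L ≤ shift L :=
  calc L = shift (unshift L) := (shift_unshift L).symm
    _ ≤ shift L := shift_mono (unshift_le L)

theorem le_shift_iff {L L' : Lat k n} : L ≤ shift L' ↔ unshift L ≤ L' :=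
  ⟨fun h => unshift_shift L' ▸ unshift_mono h, fun h => shift_unshift L ▸ shift_mono h⟩

theorem stdLat_mono {a b : Fin n → ℤ} (h : ∀ i, a i ≤ b i) : stdLat (k := k) a ≤ stdLat b :=
  fun _ hv i => (hv i).imp_right fun h' => h'.trans (h i)

/-- the sublattices between a lattice and its shift cannot be filled by a proper sublattice -/
theorem le_of_le_sup_unshift {x y M : Lat k n} {j : ℕ} (hj : y ≤ shift^[j] x) (hxM : x ≤ M)
    (h : y ≤ M ⊔ unshift y) : y ≤ M := by
  have h1 : ∀ i, y ≤ M ⊔ unshift^[i] y := fun i => by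
    induction i with
    | zero => exact le_sup_right
    | succ i ih =>
      rw [Function.iterate_succ_apply']
      refine h.trans (sup_le le_sup_left ((unshift_mono ih).trans ?_))
      rw [unshift_sup]
      exact sup_le ((unshift_le M).trans le_sup_left) le_sup_right
  have h2 : unshift^[j] y ≤ x := by
    have hm : Monotone (unshift (k := k) (n := n))^[j] :=
      Monotone.iterate (fun _ _ h => unshift_mono h) j
    have h3 := Function.LeftInverse.iterate (unshift_shift (k := k) (n := n)) j x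
    exact h3 ▸ hm hj
  exact (h1 j).trans (sup_le le_rfl (h2.trans hxM))

variable (k n) in
/-- the facts on lattices, for one field and one rank -/
structure LatFacts : Prop where
  one : ∀ L : Lat k n, gamAct 1 L = L
  mul : ∀ (g h : Gam n k) (L : Lat k n), gamAct (g * h) L = gamAct g (gamAct h L)
  act_le : ∀ (g : Gam n k) (L L' : Lat k n), gamAct g L ≤ gamAct g L' ↔ L ≤ L'
  act_shift : ∀ (g : Gam n k) (L : Lat k n), gamAct g (shift L) = shift (gamAct g L)
  shift_std : ∀ a : Fin n → ℤ, shift (stdLat a) = stdLat (k := k) (fun i => a i + 1)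
  fib_mem : ∀ (a : Fin n → ℤ) (W : Submodule k (Fin n → k)),
    stdLat a ≤ fibLat a W ∧ fibLat a W ≤ shift (stdLat a)
  fib_le : ∀ (a : Fin n → ℤ) (W W' : Submodule k (Fin n → k)),
    fibLat a W ≤ fibLat a W' ↔ W ≤ W'
  fib_bot : ∀ a : Fin n → ℤ, fibLat a (⊥ : Submodule k (Fin n → k)) = stdLat a
  fib_top : ∀ a : Fin n → ℤ, fibLat a (⊤ : Submodule k (Fin n → k)) = shift (stdLat a)
  fib_surj : ∀ (a : Fin n → ℤ) (M : Lat k n),
    stdLat a ≤ M → M ≤ shift (stdLat a) → ∃ W, M = fibLat a W
  fib_deg : ∀ (a : Fin n → ℤ) (W : Submodule k (Fin n → k)), ∃ S : Finset (Fin n),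
    HasDeg (fibLat a W) (a + bump S) ∧ S.card = Module.finrank k W ∧
      (∀ x, (∀ s ∈ S, a s < x) ↔ W ⊓ Flt a x = ⊥) ∧
      (∀ x, (∀ i, i ∉ S → x ≤ a i) ↔ W ⊔ Flt a x = ⊤) ∧
      (∀ x, (∀ i, a i ≤ x) → ((∀ i, a i = x → i ∈ S) ↔ Flt a x ≤ W))
  count_le : ∀ (L L' : Lat k n) (a b : Fin n → ℤ), HasDeg L a → HasDeg L' b → L ≤ L' →
    ∀ x, (Finset.univ.filter fun i => x ≤ a i).card ≤ (Finset.univ.filter fun i => x ≤ b i).card
  sum_le : ∀ (L L' : Lat k n) (a b : Fin n → ℤ), HasDeg L a → HasDeg L' b → L ≤ L' →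
    ∑ i, a i ≤ ∑ i, b i
  sum_lt : ∀ (L L' : Lat k n) (a b : Fin n → ℤ), HasDeg L a → HasDeg L' b → L ≤ L' → L ≠ L' →
    ∑ i, a i < ∑ i, b i
  reach : ∀ (L L' : Lat k n) (a b : Fin n → ℤ), HasDeg L a → HasDeg L' b →
    ∃ j : ℕ, L' ≤ shift^[j] L
  convex : ∀ (L L' : Lat k n) (a b : Fin n → ℤ), HasDeg L a → HasDeg L' b →
    ∀ M : Lat k n, L ≤ M → M ≤ L' → ∃ c, HasDeg M c
  bounded : ∀ (L : Lat k n) (a : Fin n → ℤ), HasDeg L a →
    ∃ N : ℕ, L ≤ stdLat fun _ => (N : ℤ)

theorem LatFactsStmt.facts (h : LatFactsStmt) : LatFacts k n := by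
  obtain ⟨⟨h1, h2, h3, h4, -⟩, h5, h6, h7, h8, h9⟩ := h k n
  exact
    { one := h1
      mul := h2
      act_le := h3
      act_shift := h4
      shift_std := fun a => (h5 a).1
      fib_mem := fun a => (h5 a).2.1
      fib_le := fun a => (h5 a).2.2.1
      fib_bot := fun a => (h5 a).2.2.2.1
      fib_top := fun a => (h5 a).2.2.2.2.1
      fib_surj := fun a => (h5 a).2.2.2.2.2
      fib_deg := h6
      count_le := fun L L' a b ha hb h => (h7 L L' a b ha hb h).1
      sum_le := fun L L' a b ha hb h => (h7 L L' a b ha hb h).2.1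
      sum_lt := fun L L' a b ha hb h => (h7 L L' a b ha hb h).2.2
      reach := fun L L' a b ha hb => (h8 L L' a b ha hb).1
      convex := fun L L' a b ha hb => (h8 L L' a b ha hb).2
      bounded := h9 }

variable (H : LatFacts k n)
include H

theorem LatFacts.hasDeg_stdLat (a : Fin n → ℤ) : HasDeg (stdLat (k := k) a) a :=
  ⟨1, (H.one _).symm⟩

theorem LatFacts.act_inv (g : Gam n k) (L : Lat k n) : gamAct g⁻¹ (gamAct g L) = L := by
  rw [← H.mul, inv_mul_cancel, H.one]

theorem LatFacts.act_inv' (g : Gam n k) (L : Lat k n) : gamAct g (gamAct g⁻¹ L) = L := by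
  rw [← H.mul, mul_inv_cancel, H.one]

theorem LatFacts.act_unshift (g : Gam n k) (L : Lat k n) :
    gamAct g (unshift L) = unshift (gamAct g L) := by
  conv_rhs => rw [← shift_unshift L, H.act_shift, unshift_shift]

theorem LatFacts.hasDeg_act {L : Lat k n} {a : Fin n → ℤ} (h : HasDeg L a) (g : Gam n k) :
    HasDeg (gamAct g L) a := by
  obtain ⟨g', rfl⟩ := h
  exact ⟨g * g', (H.mul _ _ _).symm⟩

theorem LatFacts.hasDeg_unshift {L : Lat k n} {a : Fin n → ℤ} (h : HasDeg L a) :
    HasDeg (unshift L) (fun i => a i - 1) := by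
  obtain ⟨g, rfl⟩ := h
  refine ⟨g, ?_⟩
  have e : shift (stdLat (k := k) fun i => a i - 1) = stdLat a := by
    rw [H.shift_std]
    simp
  rw [← e, H.act_shift, unshift_shift]

theorem LatFacts.count_eq {L : Lat k n} {a b : Fin n → ℤ} (ha : HasDeg L a) (hb : HasDeg L b)
    (x : ℤ) : (Finset.univ.filter fun i => x ≤ a i).card =
      (Finset.univ.filter fun i => x ≤ b i).card :=
  le_antisymm (H.count_le L L a b ha hb le_rfl x) (H.count_le L L b a hb ha le_rfl x)

theorem LatFacts.sum_eq {L : Lat k n} {a b : Fin n → ℤ} (ha : HasDeg L a) (hb : HasDeg L b) :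
    ∑ i, a i = ∑ i, b i :=
  le_antisymm (H.sum_le L L a b ha hb le_rfl) (H.sum_le L L b a hb ha le_rfl)

omit H in
/-- lattices with nonnegative degrees -/
def P0 (L : Lat k n) : Prop := ∃ a, (∀ i, 0 ≤ a i) ∧ HasDeg L a

omit H in
/-- chains of such lattices within one shift -/
def K0 (s : Finset (Lat k n)) : Prop :=
  OrdC P0 s ∧ ∀ L ∈ s, ∀ L' ∈ s, L' ≤ shift L

theorem LatFacts.deg_ge {L L' : Lat k n} {a b : Fin n → ℤ} (ha : HasDeg L a) (hb : HasDeg L' b)
    (h : L ≤ L') {x : ℤ} (hx : ∀ i, x ≤ a i) (i : Fin n) : x ≤ b i := by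
  have h1 := H.count_le L L' a b ha hb h x
  rw [Finset.filter_true_of_mem fun i _ => hx i] at h1
  have h2 : (Finset.univ.filter fun i => x ≤ b i) = Finset.univ :=
    Finset.eq_of_subset_of_card_le (Finset.subset_univ _) h1
  exact (Finset.filter_eq_self.1 h2) i (Finset.mem_univ i)

theorem LatFacts.P0_between {L L' M : Lat k n} (hL : P0 L) (hL' : P0 L') (h : L ≤ M)
    (h' : M ≤ L') : P0 M := by
  obtain ⟨a, ha0, ha⟩ := hL
  obtain ⟨b, -, hb⟩ := hL'
  obtain ⟨c, hc⟩ := H.convex L L' a b ha hb M h h'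
  exact ⟨c, H.deg_ge ha hc h ha0, hc⟩

/-- the lattices with nonnegative degrees are directed -/
theorem LatFacts.acy_P0 [DecidableEq (Lat k n)] (m : ℕ) :
    Acy (OrdC (P0 (k := k) (n := n))) m := by
  classical
  let N : Lat k n → ℕ := fun L =>
    if h : ∃ N : ℕ, L ≤ stdLat fun _ => (N : ℤ) then h.choose else 0
  have hN : ∀ L, P0 L → L ≤ stdLat fun _ => (N L : ℤ) := fun L hL => by
    obtain ⟨a, -, ha⟩ := hL
    simp only [N, dif_pos (H.bounded L a ha)]
    exact (H.bounded L a ha).choose_spec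
  refine (acyB_of_top (fun s => stdLat fun _ => ((s.sup N : ℕ) : ℤ)) (fun s _ => ?_)
    (fun s hs x hx => (hN x (hs.1 x hx)).trans (stdLat_mono fun _ => ?_))
    (fun s _ x _ => stdLat_mono fun _ => ?_) m).acy
  · exact ⟨_, fun _ => Int.natCast_nonneg _, H.hasDeg_stdLat _⟩
  · exact_mod_cast Finset.le_sup hx
  · exact_mod_cast Finset.sup_mono (Finset.erase_subset x s)

omit H in
theorem mem_On_uncone' {α : Type*} [DecidableEq α] {P : Finset α → Prop} {v : α} {z : Ch α}
    (hz : z ∈ On P) : uncone v z ∈ On (fun t => v ∉ t ∧ P (insert v t)) := by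
  refine map_On (uncone v) (fun s hs => ?_) hz
  rw [uncone, lift_sg]
  split_ifs with hv
  · refine sg_mem ⟨Finset.notMem_erase v s, ?_⟩
    rwa [Finset.insert_erase hv]
  · exact Submodule.zero_mem _

/-- the lattices strictly between two lattices that are further apart than one shift are
acyclic -/
theorem LatFacts.acy_interval [DecidableEq (Lat k n)] {x y : Lat k n} (hx : P0 x) (hy : P0 y)
    (hxy : x ≤ y) (hbad : ¬ y ≤ shift x) (m : ℕ) :
    Acy (OrdC fun u : Lat k n => x < u ∧ u < y) m := by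
  obtain ⟨a, -, ha⟩ := hx
  obtain ⟨b, -, hb⟩ := hy
  obtain ⟨j, hj⟩ := H.reach x y a b ha hb
  have hxy' : x < y := lt_of_le_of_ne hxy fun h => hbad (h ▸ le_shift_self x)
  refine (acyB_of_top (fun s => s.sup id ⊔ (x ⊔ unshift y)) (fun s hs => ⟨?_, ?_⟩)
    (fun s _ u hu => (Finset.le_sup (f := id) hu).trans le_sup_left)
    (fun s _ u _ => sup_le_sup_right (Finset.sup_mono (Finset.erase_subset u s)) _) m).acy
  · refine lt_of_le_of_ne (le_sup_left.trans le_sup_right) fun h => hbad (le_shift_iff.2 ?_)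
    exact h ▸ le_sup_right.trans le_sup_right
  · refine lt_of_le_of_ne (sup_le (Finset.sup_le fun u hu => (hs.1 u hu).2.le)
      (sup_le hxy (unshift_le y))) fun h => ?_
    rcases s.eq_empty_or_nonempty with rfl | hne
    · refine hxy'.not_ge (le_of_le_sup_unshift hj le_rfl ?_)
      simpa using h.ge
    · obtain ⟨M, hM, hmax⟩ := hs.exists_max hne
      refine (hs.1 M hM).2.not_ge (le_of_le_sup_unshift hj (hs.1 M hM).1.le (h.ge.trans ?_))
      exact sup_le (Finset.sup_le fun u hu => (hmax u hu).trans le_sup_left)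
        (sup_le ((hs.1 M hM).1.le.trans le_sup_left) le_sup_right)

/-- pairs further apart than one shift can be removed -/
theorem LatFacts.acy_K0 [DecidableEq (Lat k n)] (m : ℕ) : Acy (K0 (k := k) (n := n)) m := by
  classical
  let sm : Lat k n → ℤ := fun L => if h : ∃ a, HasDeg L a then ∑ i, h.choose i else 0
  have hsm : ∀ L a, HasDeg L a → sm L = ∑ i, a i := fun L a ha => by
    have h : ∃ a, HasDeg L a := ⟨a, ha⟩
    simp only [sm, dif_pos h]
    exact H.sum_eq h.choose_spec ha
  have hlt : ∀ u v, P0 u → P0 v → u < v → sm u < sm v := fun u v ⟨a, _, ha⟩ ⟨b, _, hb⟩ h => by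
    rw [hsm u a ha, hsm v b hb]
    exact H.sum_lt u v a b ha hb h.le h.ne
  let wd : Lat k n × Lat k n → ℕ := fun p => (sm p.2 - sm p.1).toNat
  let bp : Ch (Lat k n) → Finset (Lat k n × Lat k n) := fun w =>
    w.support.biUnion fun s => (s ×ˢ s).filter fun p => p.1 ≤ p.2 ∧ ¬ p.2 ≤ shift p.1
  have mem_bp : ∀ (w : Ch (Lat k n)) (p : Lat k n × Lat k n), p ∈ bp w ↔
      ∃ s ∈ w.support, p.1 ∈ s ∧ p.2 ∈ s ∧ p.1 ≤ p.2 ∧ ¬ p.2 ≤ shift p.1 := fun w p => by
    simp [bp, and_assoc]
  intro c hc z hz hb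
  have hzP : z ∈ On (Sz (OrdC P0) c) := Sz_mono (fun s hs => hs.1) hz
  obtain ⟨w, hw, hwz⟩ := H.acy_P0 m c hc z hzP hb
  suffices h : ∀ (W N : ℕ) (w : Ch (Lat k n)), w ∈ On (Sz (OrdC P0) (c + 1)) → bd w = z →
      (∀ p ∈ bp w, wd p ≤ W) → ((bp w).filter fun p => wd p = W).card ≤ N →
      ∃ w' ∈ On (Sz (K0 (k := k) (n := n)) (c + 1)), bd w' = z from
    h ((bp w).sup wd) _ w hw hwz (fun p hp => Finset.le_sup hp) le_rfl
  intro W
  induction W using Nat.strong_induction_on with
  | _ W ihW =>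
  intro N
  induction N with
  | zero =>
    intro w hw hwz hle hcard
    rcases (bp w).eq_empty_or_nonempty with h0 | h0
    · refine ⟨w, mem_On.mpr fun s hs => ⟨⟨(hw hs).1, fun L hL L' hL' => ?_⟩, (hw hs).2⟩, hwz⟩
      rcases (hw hs).1.2 L hL L' hL' with h | h
      · by_contra hne
        have := (mem_bp w (L, L')).2 ⟨s, hs, hL, hL', h, hne⟩
        simp [h0] at this
      · exact h.trans (le_shift_self L)
    · refine ihW ((bp w).sup' h0 wd) ?_ _ w hw hwz (fun p hp => Finset.le_sup' wd hp) le_rfl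
      obtain ⟨p, hp, hpe⟩ := Finset.exists_mem_eq_sup' h0 wd
      rw [hpe]
      exact lt_of_le_of_ne (hle p hp) fun he => Finset.filter_eq_empty_iff.mp
        (Finset.card_eq_zero.mp (Nat.le_zero.mp hcard)) hp he
  | succ N ihN =>
    intro w hw hwz hle hcard
    by_cases hex : ∃ p ∈ bp w, wd p = W
    swap
    · exact ihN w hw hwz hle (le_of_eq_of_le (Finset.card_eq_zero.mpr
        (Finset.filter_eq_empty_iff.mpr fun p hp he => hex ⟨p, hp, he⟩)) (Nat.zero_le _))
    obtain ⟨⟨x, y⟩, hp, hpW⟩ := hex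
    obtain ⟨s₀, hs₀, hx₀, hy₀, hxy, hbad⟩ := (mem_bp w (x, y)).1 hp
    have hx : P0 x := (hw hs₀).1.1 x hx₀
    have hy : P0 y := (hw hs₀).1.1 y hy₀
    have hne : x ≠ y := fun h => hbad (h ▸ le_shift_self x)
    obtain ⟨c, rfl⟩ : ∃ c', c = c' + 1 := by
      refine ⟨c - 1, ?_⟩
      have h2 : ({x, y} : Finset (Lat k n)).card ≤ s₀.card := Finset.card_le_card (by
        simp [Finset.insert_subset_iff, hx₀, hy₀])
      rw [Finset.card_pair hne, (hw hs₀).2] at h2
      omega
    let I : Lat k n → Prop := fun u => x < u ∧ u < y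
    have hA : uncone y (uncone x w) ∈ On (Sz (OrdC I) c) := by
      have h1 := mem_On_uncone' (v := y) (mem_On_uncone' (v := x) (P := fun s =>
        Sz (OrdC P0) (c + 1 + 1) s ∧ s ∈ w.support) (z := w)
        (mem_On.mpr fun s hs => ⟨hw hs, hs⟩))
      refine On_mono (fun t ht => ?_) h1
      obtain ⟨hyt, hxt, ⟨hch, hcd⟩, hsup⟩ := ht
      set T := insert x (insert y t) with hT
      have hxT : x ∈ T := Finset.mem_insert_self _ _
      have hyT : y ∈ T := Finset.mem_insert_of_mem (Finset.mem_insert_self _ _)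
      refine ⟨⟨fun u hu => ?_, fun u hu v hv => hch.2 u ?_ v ?_⟩, ?_⟩
      · have huT : u ∈ T := Finset.mem_insert_of_mem (Finset.mem_insert_of_mem hu)
        have hux : u ≠ x := fun h => hxt (h ▸ Finset.mem_insert_of_mem hu)
        have huy : u ≠ y := fun h => hyt (h ▸ hu)
        constructor
        · refine lt_of_le_of_ne ((hch.2 x hxT u huT).resolve_right fun h => ?_) hux.symm
          have hb' : ¬ y ≤ shift u := fun h' => hbad (h'.trans (shift_mono h))
          have h3 := hle (u, y) ((mem_bp w _).2 ⟨T, hsup, huT, hyT, h.trans hxy, hb'⟩)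
          have h4 := hlt u x (hch.1 u huT) hx (lt_of_le_of_ne h hux)
          have h5 := hlt x y hx hy (lt_of_le_of_ne hxy hne)
          simp only [wd] at h3 hpW
          omega
        · refine lt_of_le_of_ne ((hch.2 u huT y hyT).resolve_right fun h => ?_) huy
          have hb' : ¬ u ≤ shift x := fun h' => hbad (h.trans h')
          have h3 := hle (x, u) ((mem_bp w _).2 ⟨T, hsup, hxT, huT, hxy.trans h, hb'⟩)
          have h4 := hlt y u hy (hch.1 u huT) (lt_of_le_of_ne h huy.symm)
          have h5 := hlt x y hx hy (lt_of_le_of_ne hxy hne)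
          simp only [wd] at h3 hpW
          omega
      · exact Finset.mem_insert_of_mem (Finset.mem_insert_of_mem hu)
      · exact Finset.mem_insert_of_mem (Finset.mem_insert_of_mem hv)
      · rw [Finset.card_insert_of_notMem hxt, Finset.card_insert_of_notMem hyt] at hcd
        omega
    have hA0 : bd (uncone y (uncone x w)) = 0 := by
      rw [← uncone_bd, ← uncone_bd, hwz]
      refine uncone_eq_zero fun t ht hyt => ?_
      have h1 := mem_On_uncone' (v := x) (z := z) (P := fun s => ¬ (x ∈ s ∧ y ∈ s))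
        (mem_On.mpr fun s hs ⟨h1, h2⟩ => hbad ((hz hs).1.2 x h1 y h2)) ht
      exact h1.2 ⟨Finset.mem_insert_self _ _, Finset.mem_insert_of_mem hyt⟩
    obtain ⟨e, he, heq⟩ := H.acy_interval hx hy hxy hbad (c + 1) c (Nat.lt_succ_self c) _ hA hA0
    have hIP : ∀ u, I u → P0 u := fun u hu => H.P0_between hx hy hu.1.le hu.2.le
    -- the two cones
    let T1 : Finset (Lat k n) → Prop := fun t =>
      Sz (OrdC fun u => x < u ∧ u ≤ y) (c + 1 + 1) t
    let T2 : Finset (Lat k n) → Prop := fun t =>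
      Sz (OrdC fun u => x ≤ u ∧ u < y) (c + 1 + 1) t
    have he1 : cone y e ∈ On T1 := by
      refine cone_On y (fun t ht hyt => ⟨?_, by rw [Finset.card_insert_of_notMem hyt, ht.2]⟩) he
      refine OrdC.insert_top ⟨fun u hu => ⟨(ht.1.1 u hu).1, (ht.1.1 u hu).2.le⟩, ht.1.2⟩
        ⟨lt_of_le_of_ne hxy hne, le_rfl⟩ fun u hu => (ht.1.1 u hu).2.le
    have he2 : cone x e ∈ On T2 := by
      refine cone_On x (fun t ht hxt => ⟨⟨fun u hu => ?_, fun u hu v hv => ?_⟩,
        by rw [Finset.card_insert_of_notMem hxt, ht.2]⟩) he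
      · rcases Finset.mem_insert.1 hu with rfl | hu
        · exact ⟨le_rfl, lt_of_le_of_ne hxy hne⟩
        · exact ⟨(ht.1.1 u hu).1.le, (ht.1.1 u hu).2⟩
      · rcases Finset.mem_insert.1 hu with rfl | hu'
        · rcases Finset.mem_insert.1 hv with rfl | hv'
          · exact Or.inl le_rfl
          · exact Or.inl (ht.1.1 v hv').1.le
        · rcases Finset.mem_insert.1 hv with rfl | hv'
          · exact Or.inr (ht.1.1 u hu').1.le
          · exact ht.1.2 u hu' v hv'
    set R := keep x w + cone x (keep y (uncone x w)) with hR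
    have hRw : R ∈ On (fun t => t ∈ w.support ∧ ¬ (x ∈ t ∧ y ∈ t)) := by
      refine Submodule.add_mem _ (On_mono (fun t ht => ⟨ht.2, fun h => ht.1 h.1⟩)
        (mem_On_keep (P := fun t => t ∈ w.support) (mem_On.mpr fun t ht => ht))) ?_
      refine cone_On x (fun t ht hxt => ⟨ht.2.2, fun h => ht.1 ?_⟩)
        (mem_On_keep (mem_On_uncone' (v := x) (P := fun t => t ∈ w.support)
          (mem_On.mpr fun t ht => ht)))
      exact (Finset.mem_insert.1 h.2).resolve_left hne.symm
    set w' := R + cone y e + cone x e with hw'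
    have hwe : w' = w + bd (cone x (cone y e)) := by
      have e1 : bd (cone y e) = e + cone y (uncone y (uncone x w)) := by
        have h1 := bd_cone y e
        rw [heq] at h1
        calc bd (cone y e) = bd (cone y e) + (cone y (uncone y (uncone x w)) +
              cone y (uncone y (uncone x w))) := by rw [add_self', add_zero]
          _ = _ := by rw [← add_assoc, h1]
      have e2 : bd (cone x (cone y e)) =
          cone y e + cone x (bd (cone y e)) := by
        have h1 := bd_cone x (cone y e)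
        calc bd (cone x (cone y e)) = bd (cone x (cone y e)) + (cone x (bd (cone y e)) +
              cone x (bd (cone y e))) := by rw [add_self', add_zero]
          _ = _ := by rw [← add_assoc, h1]
      conv_rhs => rw [e2, e1]; arg 1; rw [← cone_uncone_add_keep x w,
        ← cone_uncone_add_keep y (uncone x w)]
      simp only [hw', hR, map_add]
      have hd : ∀ p q r s t : Ch (Lat k n),
          q + r + s + t = p + r + q + (s + (t + p)) := fun p q r s t => by
        calc q + r + s + t = q + r + s + t + (p + p) := by rw [add_self', add_zero]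
          _ = _ := by abel
      exact hd _ _ _ _ _
    have hmem : w' ∈ On (Sz (OrdC P0) (c + 1 + 1)) := by
      refine Submodule.add_mem _ (Submodule.add_mem _ (On_mono (fun t ht => hw ht.1) hRw) ?_) ?_
      · refine Sz_mono (fun t ht => ⟨fun u hu => ?_, ht.2⟩) he1
        exact H.P0_between hx hy (ht.1 u hu).1.le (ht.1 u hu).2
      · refine Sz_mono (fun t ht => ⟨fun u hu => ?_, ht.2⟩) he2
        exact H.P0_between hx hy (ht.1 u hu).1 (ht.1 u hu).2.le
    have hsub : ∀ q ∈ bp w', q ≠ (x, y) ∧ q ∈ bp w ∨ wd q < W := by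
      intro q hq
      obtain ⟨t, ht, hq1, hq2, hqle, hqbad⟩ := (mem_bp w' q).1 hq
      have hqne : q.1 ≠ q.2 := fun h => hqbad (h ▸ le_shift_self q.1)
      rcases Finset.mem_union.mp (Finsupp.support_add ht) with h | h
      · rcases Finset.mem_union.mp (Finsupp.support_add h) with h | h
        · refine Or.inl ⟨fun h' => (hRw h).2 ?_, (mem_bp w q).2 ⟨t, (hRw h).1, hq1, hq2, hqle,
            hqbad⟩⟩
          subst h'
          exact ⟨hq1, hq2⟩
        · obtain ⟨ha1, ha2⟩ := (he1 h).1.1 _ hq1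
          obtain ⟨hb1, hb2⟩ := (he1 h).1.1 _ hq2
          have P1 : P0 q.1 := H.P0_between hx hy ha1.le ha2
          have h4 := hlt x q.1 hx P1 ha1
          have h5 : sm q.2 ≤ sm y := by
            rcases hb2.lt_or_eq with h' | h'
            · exact (hlt _ y (H.P0_between hx hy hb1.le hb2) hy h').le
            · rw [h']
          have h6 := hlt x y hx hy (lt_of_le_of_ne hxy hne)
          refine Or.inr ?_
          simp only [wd] at hpW ⊢
          omega
      · obtain ⟨ha1, ha2⟩ := (he2 h).1.1 _ hq1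
        obtain ⟨hb1, hb2⟩ := (he2 h).1.1 _ hq2
        have P2 : P0 q.2 := H.P0_between hx hy hb1 hb2.le
        have h4 := hlt q.2 y P2 hy hb2
        have h5 : sm x ≤ sm q.1 := by
          rcases ha1.lt_or_eq with h' | h'
          · exact (hlt x _ hx (H.P0_between hx hy ha1 ha2.le) h').le
          · rw [← h']
        have h6 := hlt x y hx hy (lt_of_le_of_ne hxy hne)
        refine Or.inr ?_
        simp only [wd] at hpW ⊢
        omega
    refine ihN w' hmem (by rw [hwe, map_add, bd_bd, add_zero, hwz]) (fun q hq => ?_) ?_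
    · rcases hsub q hq with h | h
      · exact hle q h.2
      · exact h.le
    · have hss : ((bp w').filter fun p => wd p = W) ⊆
          ((bp w).filter fun p => wd p = W).erase (x, y) := fun q hq => by
        obtain ⟨hq, hqW⟩ := Finset.mem_filter.mp hq
        rcases hsub q hq with h | h
        · exact Finset.mem_erase.mpr ⟨h.1, Finset.mem_filter.mpr ⟨h.2, hqW⟩⟩
        · exact absurd hqW h.ne
      refine (Finset.card_le_card hss).trans ?_
      rw [Finset.card_erase_of_mem (Finset.mem_filter.mpr ⟨hp, hpW⟩)]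
      omega

end Vale.Agent.P067.KO
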