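import Vale.Agent.P067.KO.Lattice

/-!
Neighbours of a lattice and their degrees: the interface of the lattice module.
-/

namespace Vale.Agent.P067.KO

open Polynomial

variable {k : Type*} [Field k] {n : ℕ}

/-- coordinate vectors supported where the degree is at least `x` -/
def Flt (a : Fin n → ℤ) (x : ℤ) : Submodule k (Fin n → k) where
  carrier := {w | ∀ i, a i < x → w i = 0}
  add_mem' := fun hu hv i hi => by rw [Pi.add_apply, hu i hi, hv i hi, add_zero]
  zero_mem' := fun _ _ => rfl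
  smul_mem' := fun c _ hv i hi => by rw [Pi.smul_apply, hv i hi, smul_zero]

/-- the vector with leading coefficients `w` one degree above `a` -/
noncomputable def lead (a : Fin n → ℤ) (w : Fin n → k) : Fin n → RatFunc k :=
  fun i => RatFunc.C (w i) * RatFunc.X ^ (a i + 1)

/-- the neighbour of a standard lattice given by a subspace of its fibre at infinity -/
noncomputable def fibLat (a : Fin n → ℤ) (W : Submodule k (Fin n → k)) : Lat k n :=
  stdLat a ⊔ Submodule.span (inftyRing k) (lead a '' (W : Set (Fin n → k)))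

/-- the indicator of a set of indices -/
def bump (S : Finset (Fin n)) (i : Fin n) : ℤ := if i ∈ S then 1 else 0

/-- D0: the facts about lattices used by the other lattice files -/
def LatFactsStmt : Prop :=
  ∀ (k : Type) [Field k] (n : ℕ),
    -- the action is by order automorphisms commuting with the shift
    ((∀ L : Lat k n, gamAct 1 L = L) ∧
      (∀ (g h : Gam n k) (L : Lat k n), gamAct (g * h) L = gamAct g (gamAct h L)) ∧
      (∀ (g : Gam n k) (L L' : Lat k n), gamAct g L ≤ gamAct g L' ↔ L ≤ L') ∧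
      (∀ (g : Gam n k) (L : Lat k n), gamAct g (shift L) = shift (gamAct g L)) ∧
      (∀ L L' : Lat k n, shift L ≤ shift L' ↔ L ≤ L')) ∧
    -- the interval up to the shift
    (∀ a : Fin n → ℤ, shift (stdLat a) = stdLat (k := k) (fun i => a i + 1) ∧
      (∀ W : Submodule k (Fin n → k), stdLat a ≤ fibLat a W ∧ fibLat a W ≤ shift (stdLat a)) ∧
      (∀ W W' : Submodule k (Fin n → k), fibLat a W ≤ fibLat a W' ↔ W ≤ W') ∧
      fibLat a (⊥ : Submodule k (Fin n → k)) = stdLat a ∧
      fibLat a (⊤ : Submodule k (Fin n → k)) = shift (stdLat a) ∧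
      (∀ M : Lat k n, stdLat a ≤ M → M ≤ shift (stdLat a) → ∃ W, M = fibLat a W)) ∧
    -- the degrees of a neighbour
    (∀ (a : Fin n → ℤ) (W : Submodule k (Fin n → k)), ∃ S : Finset (Fin n),
      HasDeg (fibLat a W) (a + bump S) ∧ S.card = Module.finrank k W ∧
      (∀ x, (∀ s ∈ S, a s < x) ↔ W ⊓ Flt a x = ⊥) ∧
      (∀ x, (∀ i, i ∉ S → x ≤ a i) ↔ W ⊔ Flt a x = ⊤) ∧
      (∀ x, (∀ i, a i ≤ x) → ((∀ i, a i = x → i ∈ S) ↔ Flt a x ≤ W))) ∧
    -- degrees are monotone
    (∀ (L L' : Lat k n) (a b : Fin n → ℤ), HasDeg L a → HasDeg L' b → L ≤ L' →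
      (∀ x, (Finset.univ.filter fun i => x ≤ a i).card ≤
        (Finset.univ.filter fun i => x ≤ b i).card) ∧
      ∑ i, a i ≤ ∑ i, b i ∧ (L ≠ L' → ∑ i, a i < ∑ i, b i)) ∧
    -- bundles
    (∀ (L L' : Lat k n) (a b : Fin n → ℤ), HasDeg L a → HasDeg L' b →
      (∃ j : ℕ, L' ≤ shift^[j] L) ∧
      ∀ M : Lat k n, L ≤ M → M ≤ L' → ∃ c, HasDeg M c) ∧
    (∀ (L : Lat k n) (a : Fin n → ℤ), HasDeg L a →
      ∃ N : ℕ, L ≤ stdLat fun _ => (N : ℤ))

end Vale.Agent.P067.KO
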