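import Vale.Agent.P067.KO.Cplx

/-!
Links of links, and transport of gaps, connectedness and link expansion along a map of vertices
which is injective on the vertices of a complex.
-/

namespace Vale.Agent.P067.KO

open Finset

variable {V W : Type*} [DecidableEq V] [DecidableEq W]

theorem link_empty (X : Finset (Finset V)) : link X ∅ = X := by
  simp [link]

theorem link_link_singleton (X : Finset (Finset V)) {v : V} {ρ : Finset V} (hv : v ∉ ρ) :
    link (link X {v}) ρ = link X (insert v ρ) := by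
  ext T
  simp only [link, mem_image, mem_filter]
  constructor
  · rintro ⟨A, ⟨⟨B, ⟨hB, hvB⟩, rfl⟩, hρ⟩, rfl⟩
    refine ⟨B, ⟨hB, insert_subset (singleton_subset_iff.1 hvB) (hρ.trans sdiff_subset)⟩, ?_⟩
    ext x
    simp only [mem_sdiff, mem_insert, mem_singleton]
    tauto
  · rintro ⟨B, ⟨hB, hsub⟩, rfl⟩
    refine ⟨B \ {v}, ⟨⟨B, ⟨hB, singleton_subset_iff.2 (hsub (mem_insert_self v ρ))⟩, rfl⟩,
      fun x hx => mem_sdiff.2 ⟨hsub (mem_insert_of_mem hx), fun h => hv ?_⟩⟩, ?_⟩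
    · rwa [← mem_singleton.1 h]
    ext x
    simp only [mem_sdiff, mem_insert, mem_singleton]
    tauto

theorem isFace_link {X : Finset (Finset V)} {v : V} {ρ : Finset V} (hv : v ∉ ρ) :
    IsFace (link X {v}) ρ ↔ IsFace X (insert v ρ) := by
  constructor
  · rintro ⟨A, hA, hρ⟩
    obtain ⟨B, hB, rfl⟩ := mem_image.1 hA
    exact ⟨B, (mem_filter.1 hB).1, insert_subset (singleton_subset_iff.1 (mem_filter.1 hB).2)
      (hρ.trans sdiff_subset)⟩
  · rintro ⟨B, hB, hsub⟩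
    exact ⟨B \ {v}, mem_image.2 ⟨B, mem_filter.2 ⟨hB,
      singleton_subset_iff.2 (hsub (mem_insert_self v ρ))⟩, rfl⟩,
      fun x hx => mem_sdiff.2 ⟨hsub (mem_insert_of_mem hx), fun h => hv (mem_singleton.1 h ▸ hx)⟩⟩

variable {g : W → V} {U : Set W} {Y : Finset (Finset W)}

theorem subset_of_image {s t : Finset W} (hg : Set.InjOn g U) (hs : (↑s : Set W) ⊆ U)
    (ht : (↑t : Set W) ⊆ U) : s.image g ⊆ t.image g ↔ s ⊆ t := by
  refine ⟨fun h x hx => ?_, fun h => image_subset_image h⟩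
  obtain ⟨y, hy, he⟩ := mem_image.1 (h (mem_image_of_mem g hx))
  exact hg (ht hy) (hs hx) he ▸ hy

theorem image_inj_of {s t : Finset W} (hg : Set.InjOn g U) (hs : (↑s : Set W) ⊆ U)
    (ht : (↑t : Set W) ⊆ U) (h : s.image g = t.image g) : s = t :=
  Subset.antisymm ((subset_of_image hg hs ht).1 h.subset) ((subset_of_image hg ht hs).1 h.superset)

/-- every face of `mapC g Y` is the image of a face of `Y` of the same size -/
theorem exists_preimage (hg : Set.InjOn g U) (hY : ∀ T ∈ Y, (↑T : Set W) ⊆ U) {s : Finset V}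
    (hs : IsFace (mapC g Y) s) : ∃ τ, IsFace Y τ ∧ τ.image g = s ∧ τ.card = s.card := by
  obtain ⟨A, hA, hsA⟩ := hs
  obtain ⟨T, hT, rfl⟩ := mem_image.1 hA
  have e : (T.filter fun x => g x ∈ s).image g = s := by
    ext x
    simp only [mem_image, mem_filter]
    constructor
    · rintro ⟨y, ⟨-, hy⟩, rfl⟩
      exact hy
    · intro hx
      obtain ⟨y, hy, rfl⟩ := mem_image.1 (hsA hx)
      exact ⟨y, ⟨hy, hx⟩, rfl⟩
  refine ⟨_, ⟨T, hT, filter_subset _ _⟩, e, ?_⟩
  conv_rhs => rw [← e]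
  exact (card_image_of_injOn (hg.mono ((coe_subset.2 (filter_subset _ _)).trans (hY T hT)))).symm

theorem face_subset (hY : ∀ T ∈ Y, (↑T : Set W) ⊆ U) {τ : Finset W} (h : IsFace Y τ) :
    (↑τ : Set W) ⊆ U := by
  obtain ⟨T, hT, hs⟩ := h
  exact (coe_subset.2 hs).trans (hY T hT)

theorem isFace_map {τ : Finset W} (h : IsFace Y τ) : IsFace (mapC g Y) (τ.image g) := by
  obtain ⟨T, hT, hs⟩ := h
  exact ⟨T.image g, mem_image_of_mem _ hT, image_subset_image hs⟩

theorem link_mapC (hg : Set.InjOn g U) (hY : ∀ T ∈ Y, (↑T : Set W) ⊆ U) {τ : Finset W}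
    (hτ : (↑τ : Set W) ⊆ U) : link (mapC g Y) (τ.image g) = mapC g (link Y τ) := by
  simp only [link, mapC, filter_image, image_image]
  have e : ∀ T ∈ Y, (τ.image g ⊆ T.image g ↔ τ ⊆ T) := fun T hT =>
    subset_of_image hg hτ (hY T hT)
  rw [filter_congr e]
  refine image_congr fun T hT => ?_
  obtain ⟨hT, hsub⟩ := mem_filter.1 (mem_coe.1 hT)
  exact (image_sdiff_of_injOn (hg.mono (hY T hT)) hsub).symm

theorem link_subset (hY : ∀ T ∈ Y, (↑T : Set W) ⊆ U) (τ : Finset W) :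
    ∀ T ∈ link Y τ, (↑T : Set W) ⊆ U := by
  intro T hT
  obtain ⟨A, hA, rfl⟩ := mem_image.1 hT
  exact (coe_subset.2 sdiff_subset).trans (hY A (mem_filter.1 hA).1)

theorem kf_mapC (hg : Set.InjOn g U) (hY : ∀ T ∈ Y, (↑T : Set W) ⊆ U) (j : ℕ) :
    kf (mapC g Y) j = (kf Y j).image fun s => s.image g := by
  ext s
  simp only [kf, mem_biUnion, mem_powersetCard, mem_image]
  constructor
  · rintro ⟨A, hA, hsA, hc⟩
    obtain ⟨τ, ⟨T, hT, hτ⟩, e, hcard⟩ := exists_preimage hg hY ⟨A, hA, hsA⟩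
    exact ⟨τ, ⟨T, hT, hτ, by omega⟩, e⟩
  · rintro ⟨τ, ⟨T, hT, hτ, hc⟩, rfl⟩
    refine ⟨T.image g, mem_image_of_mem _ hT, image_subset_image hτ, ?_⟩
    rw [card_image_of_injOn (hg.mono ((coe_subset.2 hτ).trans (hY T hT))), hc]

theorem mem_kf_iff {j : ℕ} {s : Finset W} : s ∈ kf Y j ↔ IsFace Y s ∧ s.card = j := by
  simp only [kf, mem_biUnion, mem_powersetCard, IsFace]
  constructor
  · rintro ⟨T, hT, hs, hc⟩
    exact ⟨⟨T, hT, hs⟩, hc⟩
  · rintro ⟨⟨T, hT, hs⟩, hc⟩
    exact ⟨T, hT, hs, hc⟩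

theorem wt_mapC (hg : Set.InjOn g U) (hY : ∀ T ∈ Y, (↑T : Set W) ⊆ U) {s : Finset W}
    (hs : IsFace Y s) : wt (mapC g Y) (s.image g) = wt Y s := by
  have hsU := face_subset hY hs
  have hcard : (mapC g Y).card = Y.card :=
    card_image_of_injOn fun A hA B hB h => image_inj_of hg (hY A hA) (hY B hB) h
  rw [wt, wt, hcard, mapC, filter_image, sum_image fun A hA B hB h =>
    image_inj_of hg (hY A (mem_filter.1 hA).1) (hY B (mem_filter.1 hB).1) h]
  refine sum_congr (filter_congr fun T hT => subset_of_image hg hsU (hY T hT)) fun T hT => ?_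
  rw [card_image_of_injOn (hg.mono (hY T (mem_filter.1 hT).1)),
    card_image_of_injOn (hg.mono hsU)]

theorem sum_kf_mapC (hg : Set.InjOn g U) (hY : ∀ T ∈ Y, (↑T : Set W) ⊆ U) (j : ℕ)
    (F : Finset V → ℝ) :
    ∑ s ∈ kf (mapC g Y) j, wt (mapC g Y) s * F s =
      ∑ s ∈ kf Y j, wt Y s * F (s.image g) := by
  rw [kf_mapC hg hY j, sum_image fun A hA B hB h => image_inj_of hg
    (face_subset hY (mem_kf_iff.1 hA).1) (face_subset hY (mem_kf_iff.1 hB).1) h]
  exact sum_congr rfl fun s hs => by rw [wt_mapC hg hY (mem_kf_iff.1 hs).1]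

theorem gap_mapC (hg : Set.InjOn g U) (hY : ∀ T ∈ Y, (↑T : Set W) ⊆ U) {lam : ℝ}
    (h : Gap lam Y) : Gap lam (mapC g Y) := by
  intro φ
  have e : ∀ (j : ℕ) (χ : V → ℝ), ∑ s ∈ kf (mapC g Y) j, wt (mapC g Y) s * ∏ x ∈ s, χ x =
      ∑ s ∈ kf Y j, wt Y s * ∏ x ∈ s, χ (g x) := fun j χ => by
    rw [sum_kf_mapC hg hY j]
    refine sum_congr rfl fun s hs => ?_
    rw [prod_image (hg.mono (face_subset hY (mem_kf_iff.1 hs).1))]
  simp only [e]
  exact h fun x => φ (g x)

theorem conn_mapC (hg : Set.InjOn g U) (hY : ∀ T ∈ Y, (↑T : Set W) ⊆ U) (h : Conn Y) :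
    Conn (mapC g Y) := by
  intro u v hu hv
  obtain ⟨a, ha, hau, hac⟩ := exists_preimage hg hY hu
  obtain ⟨b, hb, hbv, hbc⟩ := exists_preimage hg hY hv
  rw [card_singleton] at hac hbc
  obtain ⟨x, rfl⟩ := card_eq_one.1 hac
  obtain ⟨y, rfl⟩ := card_eq_one.1 hbc
  rw [image_singleton, singleton_inj] at hau hbv
  subst hau
  subst hbv
  refine (h x y ha hb).lift g fun p q hpq => ?_
  have := isFace_map (g := g) hpq
  rwa [image_insert, image_singleton] at this

theorem nrm_eq (X : Finset (Finset V)) (j : ℕ) (f : Finset V → ZMod 2) :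
    nrm X j f = ∑ s ∈ kf X j, wt X s * if f s ≠ 0 then 1 else 0 := by
  rw [nrm, sum_filter]
  exact sum_congr rfl fun s _ => by split_ifs <;> simp

theorem exp_mapC [Nonempty W] (hg : Set.InjOn g U) (hY : ∀ T ∈ Y, (↑T : Set W) ⊆ U) {β : ℝ}
    {j : ℕ} (h : ∀ f : Finset W → ZMod 2, ∃ h' : Finset W → ZMod 2,
      β * nrm Y j (f + dl h') ≤ nrm Y (j + 1) (dl f)) (f : Finset V → ZMod 2) :
    ∃ h' : Finset V → ZMod 2,
      β * nrm (mapC g Y) j (f + dl h') ≤ nrm (mapC g Y) (j + 1) (dl f) := by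
  obtain ⟨h₀, hh⟩ := h fun s => f (s.image g)
  set back : Finset V → Finset W := fun t => t.image (Function.invFunOn g U)
  have hback : ∀ s : Finset W, (↑s : Set W) ⊆ U → back (s.image g) = s := by
    intro s hs
    simp only [back, image_image]
    conv_rhs => rw [← image_id (s := s)]
    exact image_congr fun x hx => hg.leftInvOn_invFunOn (hs hx)
  refine ⟨fun t => h₀ (back t), ?_⟩
  have herase : ∀ s : Finset W, (↑s : Set W) ⊆ U → ∀ (p : Finset V → ZMod 2),
      dl p (s.image g) = ∑ x ∈ s, p ((s.erase x).image g) := by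
    intro s hs p
    rw [dl, sum_image (hg.mono hs)]
    refine sum_congr rfl fun x hx => congrArg p ?_
    ext y
    simp only [mem_erase, mem_image]
    constructor
    · rintro ⟨hne, z, hz, rfl⟩
      exact ⟨z, ⟨fun e => hne (congrArg g e), hz⟩, rfl⟩
    · rintro ⟨z, ⟨hne, hz⟩, rfl⟩
      exact ⟨fun e => hne (hg (hs hz) (hs hx) e), z, hz, rfl⟩
  have e1 : nrm (mapC g Y) j (f + dl fun t => h₀ (back t)) =
      nrm Y j ((fun s => f (s.image g)) + dl h₀) := by
    rw [nrm_eq, nrm_eq, sum_kf_mapC hg hY j]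
    refine sum_congr rfl fun s hs => ?_
    have hsU := face_subset hY (mem_kf_iff.1 hs).1
    have e : dl (fun t => h₀ (back t)) (s.image g) = dl h₀ s := by
      rw [herase s hsU]
      exact sum_congr rfl fun x _ => congrArg h₀
        (hback _ ((coe_subset.2 (erase_subset x s)).trans hsU))
    simp only [Pi.add_apply, e]
  have e2 : nrm (mapC g Y) (j + 1) (dl f) = nrm Y (j + 1) (dl fun s => f (s.image g)) := by
    rw [nrm_eq, nrm_eq, sum_kf_mapC hg hY (j + 1)]
    refine sum_congr rfl fun s hs => ?_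
    rw [herase s (face_subset hY (mem_kf_iff.1 hs).1)]
    rfl
  rw [e1, e2]
  exact hh

end Vale.Agent.P067.KO
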