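import Vale.Agent.P067.LG.Main
import Vale.Agent.P067.KO.Pins

/-!
The local-to-global statement, from its form for sets of faces and counting masses. The faces over
a face `τ` correspond to the faces of the link of `τ`.
-/

namespace Vale.Agent.P067.KO

open Finset

variable {V : Type*} [DecidableEq V] {X : Finset (Finset V)} {τ : Finset V} {N : ℕ}

theorem mem_kf {k : ℕ} {s : Finset V} : s ∈ kf X k ↔ s.card = k ∧ ∃ T ∈ X, s ⊆ T :=
  LG.mem_fc

theorem kf_eq_fc (k : ℕ) : kf X k = LG.fc X k := rfl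

/-- the faces of the link with `i` vertices -/
theorem mem_kf_link {i : ℕ} {s : Finset V} :
    s ∈ kf (link X τ) i ↔ Disjoint τ s ∧ s.card = i ∧ τ ∪ s ∈ LG.fc X (τ.card + i) := by
  constructor
  · intro h
    obtain ⟨hc, T', hT', hs⟩ := mem_kf.1 h
    obtain ⟨T, hT, rfl⟩ := mem_image.1 hT'
    obtain ⟨hTX, hτT⟩ := mem_filter.1 hT
    obtain ⟨h1, h2⟩ := subset_sdiff.1 hs
    exact ⟨h2.symm, hc, LG.mem_fc.2 ⟨by rw [card_union_of_disjoint h2.symm, hc], T, hTX,
      union_subset hτT h1⟩⟩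
  · rintro ⟨hd, hc, h⟩
    obtain ⟨-, T, hT, hsub⟩ := LG.mem_fc.1 h
    exact mem_kf.2 ⟨hc, T \ τ, mem_image.2 ⟨T, mem_filter.2 ⟨hT,
      subset_union_left.trans hsub⟩, rfl⟩, subset_sdiff.2 ⟨subset_union_right.trans hsub, hd.symm⟩⟩

/-- the inverse correspondence -/
theorem sdiff_mem_link {i : ℕ} {ρ : Finset V} (h : ρ ∈ LG.star X (τ.card + i) τ) :
    ρ \ τ ∈ kf (link X τ) i ∧ τ ∪ ρ \ τ = ρ := by
  obtain ⟨hρ, hsub⟩ := LG.mem_star.1 h
  have e : τ ∪ ρ \ τ = ρ := union_sdiff_of_subset hsub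
  refine ⟨mem_kf_link.2 ⟨disjoint_sdiff, ?_, by rwa [e]⟩, e⟩
  rw [card_sdiff_of_subset hsub, LG.card_of_mem hρ]
  omega

theorem card_link : (link X τ).card = LG.cnt X τ := by
  refine card_image_of_injOn fun T hT T' hT' h => ?_
  have a := (mem_filter.1 (mem_coe.1 hT)).2
  have b := (mem_filter.1 (mem_coe.1 hT')).2
  rw [← union_sdiff_of_subset a, ← union_sdiff_of_subset b, h]

theorem linkWeight (hN : TopCard N X) {s : Finset V} (hd : Disjoint τ s) :
    wt (link X τ) s =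
      LG.cnt X (τ ∪ s) * ((((N - τ.card).choose s.card : ℕ) : ℝ) * LG.cnt X τ)⁻¹ := by
  have e : (link X τ).filter (fun T => s ⊆ T) =
      (X.filter fun T => τ ∪ s ⊆ T).image fun T => T \ τ := by
    ext U
    simp only [link, mem_filter, mem_image]
    constructor
    · rintro ⟨⟨T, ⟨hT, hτ⟩, rfl⟩, hs⟩
      exact ⟨T, ⟨hT, union_subset hτ (subset_sdiff.1 hs).1⟩, rfl⟩
    · rintro ⟨T, ⟨hT, hsub⟩, rfl⟩
      exact ⟨⟨T, ⟨hT, subset_union_left.trans hsub⟩, rfl⟩,
        subset_sdiff.2 ⟨subset_union_right.trans hsub, hd.symm⟩⟩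
  have hc : ((link X τ).filter fun T => s ⊆ T).card = LG.cnt X (τ ∪ s) := by
    rw [e]
    refine card_image_of_injOn fun T hT T' hT' h => ?_
    have a := subset_union_left.trans (mem_filter.1 (mem_coe.1 hT)).2
    have b := subset_union_left.trans (mem_filter.1 (mem_coe.1 hT')).2
    rw [← union_sdiff_of_subset a, ← union_sdiff_of_subset b, h]
  have hT : ∀ U ∈ (link X τ).filter (fun T => s ⊆ T), U.card = N - τ.card := by
    intro U hU
    obtain ⟨T, hT, rfl⟩ := mem_image.1 (mem_filter.1 hU).1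
    rw [card_sdiff_of_subset (mem_filter.1 hT).2, hN T (mem_filter.1 hT).1]
  rw [wt, card_link, sum_congr rfl fun U hU => by rw [hT U hU], sum_const, hc, nsmul_eq_mul]

/-- a sum of link weights is a mass, rescaled -/
theorem sum_linkWeight (hN : TopCard N X) (i : ℕ) (A : Finset (Finset V))
    (hA : A ⊆ LG.star X (τ.card + i) τ) (P : Finset V → Prop) [DecidablePred P]
    (hP : ∀ s ∈ kf (link X τ) i, (P s ↔ τ ∪ s ∈ A)) :
    ∑ s ∈ (kf (link X τ) i).filter P, wt (link X τ) s =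
      LG.mass X A * ((((N - τ.card).choose i : ℕ) : ℝ) * LG.cnt X τ)⁻¹ := by
  unfold LG.mass
  rw [sum_mul]
  refine sum_bij (fun s _ => τ ∪ s) (fun s hs => ?_) (fun s hs s' hs' h => ?_) (fun ρ hρ => ?_)
    fun s hs => ?_
  · exact (hP s (mem_filter.1 hs).1).1 (mem_filter.1 hs).2
  · have a := (mem_kf_link.1 (mem_filter.1 hs).1).1
    have b := (mem_kf_link.1 (mem_filter.1 hs').1).1
    rw [← union_sdiff_cancel_left a, ← union_sdiff_cancel_left b, h]
  · obtain ⟨h1, h2⟩ := sdiff_mem_link (hA hρ)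
    exact ⟨ρ \ τ, mem_filter.2 ⟨h1, (hP _ h1).2 (by rwa [h2])⟩, h2⟩
  · obtain ⟨hd, hc, -⟩ := mem_kf_link.1 (mem_filter.1 hs).1
    rw [linkWeight hN hd, hc]

theorem cnt_singleton (v : V) : LG.cnt X {v} = (X.filter fun T => v ∈ T).card :=
  congrArg card (filter_congr fun _ _ => singleton_subset_iff)

theorem sum_indicator {ι : Type*} (s : Finset ι) (P : ι → Prop) [DecidablePred P] :
    (∑ x ∈ s, if P x then (1 : ZMod 2) else 0) ≠ 0 ↔ Odd (s.filter P).card := by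
  rw [sum_boole]
  exact ZMod.natCast_ne_zero_iff_odd

/-- the coboundary of an indicator on the link -/
theorem dl_indicator {m : ℕ} (A : Finset (Finset V)) (hA : A ⊆ LG.star X m τ) {s : Finset V}
    (hd : Disjoint τ s) (hc : τ.card + s.card = m + 1) (g : Finset V → ZMod 2)
    (hg : ∀ x ∈ s, g (s.erase x) = if τ ∪ s.erase x ∈ A then 1 else 0) :
    dl g s ≠ 0 ↔ Odd (A.filter fun σ => σ ⊆ τ ∪ s).card := by
  have e : dl g s = ∑ x ∈ s, if τ ∪ s.erase x ∈ A then (1 : ZMod 2) else 0 :=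
    sum_congr rfl hg
  rw [e, sum_indicator]
  refine Iff.of_eq (congrArg Odd (card_bij (fun x _ => τ ∪ s.erase x) (fun x hx => ?_)
    (fun x hx y hy h => ?_) fun σ hσ => ?_))
  · obtain ⟨hxs, hmem⟩ := mem_filter.1 hx
    exact mem_filter.2 ⟨hmem, union_subset_union_right (erase_subset x s)⟩
  · have hxs := (mem_filter.1 hx).1
    by_contra hne
    have : x ∈ τ ∪ s.erase y := mem_union_right _ (mem_erase.2 ⟨hne, hxs⟩)
    rw [← h] at this
    rcases mem_union.1 this with h' | h'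
    · exact disjoint_left.1 hd h' hxs
    · exact (mem_erase.1 h').1 rfl
  · obtain ⟨hσA, hsub⟩ := mem_filter.1 hσ
    obtain ⟨hσf, hτσ⟩ := LG.mem_star.1 (hA hσA)
    have h1 : ((τ ∪ s) \ σ).card = 1 := by
      rw [card_sdiff_of_subset hsub, card_union_of_disjoint hd, LG.card_of_mem hσf]
      omega
    obtain ⟨x, hx⟩ := card_eq_one.1 h1
    have hxm : x ∈ (τ ∪ s) \ σ := by simp [hx]
    obtain ⟨hxu, hxσ⟩ := mem_sdiff.1 hxm
    have hxs : x ∈ s := (mem_union.1 hxu).resolve_left fun h => hxσ (hτσ h)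
    have e : τ ∪ s.erase x = σ := by
      ext y
      simp only [mem_union, mem_erase]
      constructor
      · rintro (hy | ⟨hne, hy⟩)
        · exact hτσ hy
        · by_contra hyσ
          have hm : y ∈ (τ ∪ s) \ σ := mem_sdiff.2 ⟨mem_union_right _ hy, hyσ⟩
          rw [hx, mem_singleton] at hm
          exact hne hm
      · intro hy
        rcases mem_union.1 (hsub hy) with hy' | hy'
        · exact Or.inl hy'
        · exact Or.inr ⟨fun h => hxσ (h ▸ hy), hy'⟩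
    exact ⟨x, mem_filter.2 ⟨hxs, by rwa [e]⟩, e⟩

theorem mixing_of_mixLinks {d : ℕ} {lam : ℝ} (hlam : 0 ≤ lam) (hN : TopCard N X) (hd : d + 2 ≤ N)
    (h : MixLinks d lam X) : LG.Mixing X N (d + 1) lam := by
  intro τ hτ hK S hS
  obtain ⟨-, T, hT, hτT⟩ := LG.mem_fc.1 hτ
  have hj : τ.card + 2 ≤ N := by omega
  have hcnt : (0 : ℝ) < LG.cnt X τ := by exact_mod_cast LG.cnt_pos hτ
  set R := S.biUnion fun σ => σ \ τ
  have hR : ∀ s ∈ kf (link X τ) 1, (s ⊆ R ↔ τ ∪ s ∈ S) := by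
    intro s hs
    obtain ⟨hd', hc, -⟩ := mem_kf_link.1 hs
    obtain ⟨x, rfl⟩ := card_eq_one.1 hc
    rw [singleton_subset_iff, mem_biUnion]
    constructor
    · rintro ⟨σ, hσ, hx⟩
      obtain ⟨h1, h2⟩ := sdiff_mem_link (i := 1) (hS hσ)
      obtain ⟨y, hy⟩ := card_eq_one.1 (mem_kf.1 h1).1
      rw [hy, mem_singleton] at hx
      rw [hx, ← hy, h2]
      exact hσ
    · exact fun hm => ⟨_, hm, by rw [union_sdiff_cancel_left hd']; exact mem_singleton_self x⟩
  set A := (LG.star X (τ.card + 2) τ).filter fun ρ => ρ \ τ ⊆ R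
  have hA : ∀ s ∈ kf (link X τ) 2, (s ⊆ R ↔ τ ∪ s ∈ A) := by
    intro s hs
    obtain ⟨hd', hc, hf⟩ := mem_kf_link.1 hs
    simp only [A, mem_filter, LG.mem_star, union_sdiff_cancel_left hd', subset_union_left, hf,
      and_self, true_and]
  have hmix := h τ ⟨T, hT, hτT⟩ (by omega) R
  rw [sum_linkWeight hN 1 S hS _ hR, sum_linkWeight hN 2 A (filter_subset _ _) _ hA] at hmix
  have hsub : (LG.star X (τ.card + 2) τ).filter
      (fun ρ => 2 ≤ (S.filter fun σ => σ ⊆ ρ).card) ⊆ A := by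
    intro ρ hρ
    obtain ⟨hρs, h2⟩ := mem_filter.1 hρ
    refine mem_filter.2 ⟨hρs, ?_⟩
    obtain ⟨σ, hσ, σ', hσ', hne⟩ := one_lt_card.1 h2
    obtain ⟨hσS, hσρ⟩ := mem_filter.1 hσ
    obtain ⟨hσ'S, hσ'ρ⟩ := mem_filter.1 hσ'
    obtain ⟨hρf, -⟩ := LG.mem_star.1 hρs
    have h3 : τ.card + 1 < (σ ∪ σ').card := by
      by_contra hle
      push Not at hle
      have e1 := LG.card_of_mem (LG.mem_star.1 (hS hσS)).1
      have e2 := LG.card_of_mem (LG.mem_star.1 (hS hσ'S)).1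
      have a := eq_of_subset_of_card_le (subset_union_left (s₂ := σ')) (hle.trans e1.ge)
      have b := eq_of_subset_of_card_le (subset_union_right (s₁ := σ)) (hle.trans e2.ge)
      exact hne (a.trans b.symm)
    have e : σ ∪ σ' = ρ := eq_of_subset_of_card_le (union_subset hσρ hσ'ρ) (by
      rw [LG.card_of_mem hρf]
      omega)
    intro x hx
    obtain ⟨hxρ, hxτ⟩ := mem_sdiff.1 hx
    rw [← e, mem_union] at hxρ
    rcases hxρ with hx' | hx'
    exacts [mem_biUnion.2 ⟨σ, hσS, mem_sdiff.2 ⟨hx', hxτ⟩⟩,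
      mem_biUnion.2 ⟨σ', hσ'S, mem_sdiff.2 ⟨hx', hxτ⟩⟩]
  refine (LG.mass_mono hsub).trans ?_
  have ej : ((N : ℝ) - τ.card) = ((N - τ.card : ℕ) : ℝ) := by
    rw [Nat.cast_sub (by omega)]
  rw [ej]
  obtain ⟨M, hM⟩ : ∃ M, N - τ.card = M + 2 := ⟨N - τ.card - 2, by omega⟩
  rw [hM, Nat.choose_one_right] at hmix
  rw [hM]
  have hc2 : (((M + 2).choose 2 : ℕ) : ℝ) = (M + 2 : ℝ) * (M + 1) / 2 := by
    rw [Nat.cast_choose_two]
    push_cast
    ring
  rw [hc2] at hmix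
  push_cast at hmix ⊢
  have hden : 0 < ((M : ℝ) + 2) * (M + 1) / 2 * LG.cnt X τ := by positivity
  have h0 := LG.mass_nonneg (F := X) S
  rw [← div_eq_mul_inv, div_le_iff₀ hden] at hmix
  refine hmix.trans (le_of_eq_of_le ?_ (mul_le_mul_of_nonneg_right
    (mul_le_mul_of_nonneg_right (show ((M : ℝ) + 1) / 2 ≤ N by
      have : (M : ℝ) + 2 ≤ N := by exact_mod_cast (show M + 2 ≤ N by omega)
      linarith) h0) (by positivity)))
  field_simp

theorem linkExp_of_linkExp {d : ℕ} {β : ℝ} (hβ : 0 < β) (hN : TopCard N X) (hd : d + 2 ≤ N)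
    (h : LinkExp d β X) : LG.LinkExp X (d + 1) (β / 2 ^ N) := by
  intro τ hτ k hk hkK T hT
  by_cases hf : IsFace X τ
  swap
  · have hT0 : T = ∅ := eq_empty_of_forall_notMem fun σ hσ => hf <| by
      obtain ⟨h1, h2⟩ := LG.mem_star.1 (hT hσ)
      obtain ⟨-, U, hU, hsub⟩ := LG.mem_fc.1 h1
      exact ⟨U, hU, h2.trans hsub⟩
    refine ⟨∅, empty_subset _, ?_⟩
    subst hT0
    simp [LG.dlt, LG.mass]
  obtain ⟨T0, hT0, hτT0⟩ := hf
  have hcnt : (0 : ℝ) < LG.cnt X τ := by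
    exact_mod_cast LG.cnt_pos (LG.mem_fc.2 ⟨rfl, T0, hT0, hτT0⟩)
  obtain ⟨i, rfl⟩ : ∃ i, k = τ.card + (i + 1) := ⟨k - τ.card - 1, by omega⟩
  set f : Finset V → ZMod 2 := fun s => if τ ∪ s ∈ T then 1 else 0
  obtain ⟨g, hg⟩ := h τ ⟨T0, hT0, hτT0⟩ hτ (i + 1) (by omega) hkK f
  set U := (LG.star X (τ.card + i) τ).filter fun ρ => g (ρ \ τ) ≠ 0
  have hk1 : τ.card + (i + 1) - 1 = τ.card + i := by omega
  rw [hk1]
  refine ⟨U, filter_subset _ _, ?_⟩
  have hUdl : LG.dlt X (τ.card + i) U ⊆ LG.star X (τ.card + (i + 1)) τ :=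
    LG.dlt_star fun σ hσ => (LG.mem_star.1 (mem_filter.1 hσ).1).2
  have hsd : symmDiff T (LG.dlt X (τ.card + i) U) ⊆ LG.star X (τ.card + (i + 1)) τ := fun x hx => by
    rcases mem_symmDiff.1 hx with ⟨hx', -⟩ | ⟨hx', -⟩
    exacts [hT hx', hUdl hx']
  have hg01 : ∀ a : ZMod 2, a = if a ≠ 0 then 1 else 0 := by decide
  have e1 : ∀ s ∈ kf (link X τ) (i + 1),
      ((f + dl g) s ≠ 0 ↔ τ ∪ s ∈ symmDiff T (LG.dlt X (τ.card + i) U)) := by
    intro s hs
    obtain ⟨hd', hc, hρ⟩ := mem_kf_link.1 hs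
    have hU : dl g s ≠ 0 ↔ τ ∪ s ∈ LG.dlt X (τ.card + i) U := by
      rw [dl_indicator U (filter_subset _ _) hd' (by omega) g fun x hx => ?_, LG.dlt, mem_filter]
      · exact ⟨fun h => ⟨hρ, h⟩, fun h => h.2⟩
      · have hdx : Disjoint τ (s.erase x) := hd'.mono_right (erase_subset x s)
        have hm : τ ∪ s.erase x ∈ LG.star X (τ.card + i) τ := LG.mem_star.2
          ⟨LG.sub_mem_fc' hρ (union_subset_union_right (erase_subset x s)) (by
            rw [card_union_of_disjoint hdx, card_erase_of_mem hx]; omega), subset_union_left⟩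
        simp only [U, mem_filter, hm, true_and, union_sdiff_cancel_left hdx]
        exact hg01 _
    rw [mem_symmDiff, ← hU, Pi.add_apply]
    by_cases hT' : τ ∪ s ∈ T
    · simp only [f, hT', if_true, not_true, and_false, or_false, true_and, ne_eq, not_not]
      have key : ∀ a : ZMod 2, 1 + a = 0 ↔ ¬a = 0 := by decide
      simp only [key, not_not]
    · simp only [f, hT', if_false, zero_add, false_and, false_or, not_false_iff, and_true]
  have e2 : ∀ s ∈ kf (link X τ) (i + 1 + 1),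
      (dl f s ≠ 0 ↔ τ ∪ s ∈ LG.dlt X (τ.card + (i + 1)) T) := by
    intro s hs
    obtain ⟨hd', hc, hρ⟩ := mem_kf_link.1 hs
    rw [dl_indicator T hT hd' (by omega) f fun x _ => rfl, LG.dlt, mem_filter]
    exact ⟨fun h => ⟨hρ, h⟩, fun h => h.2⟩
  simp only [nrm] at hg
  rw [sum_linkWeight hN (i + 1) _ hsd _ e1, sum_linkWeight hN (i + 1 + 1) _
    (LG.dlt_star fun σ hσ => (LG.mem_star.1 (hT hσ)).2) _ e2] at hg
  have hp : (0 : ℝ) < (N - τ.card).choose (i + 1) := by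
    exact_mod_cast Nat.choose_pos (by omega)
  have hp1 : ((N - τ.card).choose (i + 1) : ℝ) ≤ 2 ^ N := by
    exact_mod_cast (Nat.choose_le_two_pow _ _).trans (Nat.pow_le_pow_right (by omega) (by omega))
  have hp2 : (1 : ℝ) ≤ (N - τ.card).choose (i + 1 + 1) := by
    exact_mod_cast Nat.choose_pos (show i + 1 + 1 ≤ N - τ.card by omega)
  set a := LG.mass X (symmDiff T (LG.dlt X (τ.card + i) U))
  set b := LG.mass X (LG.dlt X (τ.card + (i + 1)) T)
  have ha : 0 ≤ a := LG.mass_nonneg _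
  have hb : 0 ≤ b := LG.mass_nonneg _
  set c1 : ℝ := (((N - τ.card).choose (i + 1) : ℕ) : ℝ)
  set c2 : ℝ := (((N - τ.card).choose (i + 1 + 1) : ℕ) : ℝ)
  set M : ℝ := (LG.cnt X τ : ℝ)
  rw [mul_inv, mul_inv] at hg
  have hg' : β * (a * (c1⁻¹ * M⁻¹)) ≤ b * (c2⁻¹ * M⁻¹) := hg
  have h2 : β * a * c1⁻¹ ≤ b * c2⁻¹ :=
    le_of_mul_le_mul_right (by linarith) (inv_pos.2 hcnt)
  calc β / 2 ^ N * a ≤ β * a * c1⁻¹ := by
        rw [div_mul_eq_mul_div, ← div_eq_mul_inv]
        exact div_le_div_of_nonneg_left (by positivity) hp hp1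
    _ ≤ b * c2⁻¹ := h2
    _ ≤ b := mul_le_of_le_one_right hb (inv_le_one_of_one_le₀ hp2)

/-- K: local to global -/
theorem localToGlobal : LocalToGlobalStmt := by
  intro d D hdD β hβ
  obtain ⟨lam, hlam, hmain⟩ := LG.cosystolic.{0} (β := β / 2 ^ (D + 1)) (by positivity) (D + 1)
  refine ⟨lam, hlam, fun Δ => ?_⟩
  obtain ⟨C, hC, hC'⟩ := hmain Δ
  refine ⟨⌈C * Δ⌉₊, fun V _ X hX hΔ hL hM k hk1 hkd f => ?_⟩
  set f₀ := (kf X k).filter fun s => f s ≠ 0
  obtain ⟨Z, hZ, hZ0, hle⟩ := hC' X hX (fun v => le_of_eq_of_le (cnt_singleton v) (hΔ v)) (d + 1) (linkExp_of_linkExp hβ hX (by omega) hL)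
    (mixing_of_mixLinks hlam.le hX (by omega) hM) k (by omega) (by omega) f₀ (filter_subset _ _)
  set z : Finset V → ZMod 2 := fun s => if s ∈ Z then 1 else 0
  have hdl : ∀ (g : Finset V → ZMod 2) (A : Finset (Finset V)), A ⊆ LG.fc X k →
      (∀ s ∈ LG.fc X k, g s = if s ∈ A then 1 else 0) → ∀ t ∈ kf X (k + 1),
      (dl g t ≠ 0 ↔ t ∈ LG.dlt X k A) := by
    intro g A hA hg t ht
    have hc : t.card = k + 1 := (mem_kf.1 ht).1
    rw [dl_indicator (τ := ∅) A (fun σ hσ => LG.mem_star.2 ⟨hA hσ, empty_subset _⟩)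
      (disjoint_empty_left t) (by simp only [card_empty, zero_add]; exact hc) g fun x hx => ?_,
      LG.dlt, mem_filter]
    · simp only [empty_union]
      exact ⟨fun h => ⟨ht, h⟩, fun h => h.2⟩
    · rw [empty_union]
      exact hg _ (LG.sub_mem_fc' (k := k + 1) ht (erase_subset x t)
        (by rw [card_erase_of_mem hx]; omega))
  refine ⟨z, fun t ht => ?_, ?_⟩
  · by_contra hne
    have := (hdl z Z hZ (fun s _ => rfl) t ht).1 hne
    rw [hZ0] at this
    exact notMem_empty _ this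
  · have h01 : ∀ a : ZMod 2, a = if a ≠ 0 then 1 else 0 := by decide
    have hd0 : (kf X (k + 1)).filter (fun t => dl f t ≠ 0) = LG.dlt X k f₀ := by
      ext t
      rw [mem_filter]
      constructor
      · rintro ⟨ht, hne⟩
        refine (hdl f f₀ (filter_subset _ _) (fun s hs => ?_) t ht).1 hne
        exact (h01 (f s)).trans (if_congr ⟨fun h => mem_filter.2 ⟨hs, h⟩, fun h => (mem_filter.1 h).2⟩ rfl rfl)
      · intro ht
        have ht' := LG.dlt_subset k f₀ ht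
        refine ⟨ht', (hdl f f₀ (filter_subset _ _) (fun s hs => ?_) t ht').2 ht⟩
        exact (h01 (f s)).trans (if_congr ⟨fun h => mem_filter.2 ⟨hs, h⟩, fun h => (mem_filter.1 h).2⟩ rfl rfl)
    have hd1 : (kf X k).filter (fun s => f s ≠ z s) ⊆ symmDiff f₀ Z := by
      intro s hs
      obtain ⟨hs, hne⟩ := mem_filter.1 hs
      simp only [z] at hne
      simp only [mem_symmDiff, f₀, mem_filter, hs, true_and]
      by_cases hz : s ∈ Z
      · rw [if_pos hz] at hne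
        refine Or.inr ⟨hz, fun h => hne ?_⟩
        rw [h01 (f s), if_pos h]
      · rw [if_neg hz] at hne
        exact Or.inl ⟨hne, hz⟩
    have hlow : ∀ S : Finset (Finset V), (∀ s ∈ S, s ∈ kf X k) →
        (S.card : ℝ) ≤ LG.mass X S := fun S hS => by
      rw [card_eq_sum_ones, Nat.cast_sum]
      exact sum_le_sum fun s hs => by exact_mod_cast LG.cnt_pos (hS s hs)
    have hup : LG.mass X (LG.dlt X k f₀) ≤ Δ * (LG.dlt X k f₀).card := by
      rw [mul_comm, ← nsmul_eq_mul]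
      refine sum_le_card_nsmul _ _ _ fun t ht => ?_
      have hc := LG.card_of_mem (LG.dlt_subset k f₀ ht)
      obtain ⟨v, hv⟩ := card_pos.1 (show 0 < t.card by omega)
      refine le_trans (Nat.cast_le.2 (LG.cnt_mono (singleton_subset_iff.2 hv))) ?_
      exact Nat.cast_le.2 (le_of_eq_of_le (cnt_singleton v) (hΔ v))
    have key : ((((kf X k).filter fun s => f s ≠ z s).card : ℕ) : ℝ) ≤
        C * Δ * ((LG.dlt X k f₀).card : ℕ) := by
      refine (hlow _ fun s hs => (mem_filter.1 hs).1).trans ?_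
      refine (LG.mass_mono hd1).trans (hle.trans ?_)
      rw [mul_assoc]
      exact mul_le_mul_of_nonneg_left hup hC.le
    rw [hd0]
    have key' : ((((kf X k).filter fun s => f s ≠ z s).card : ℕ) : ℝ) ≤
        ((⌈C * Δ⌉₊ * (LG.dlt X k f₀).card : ℕ) : ℝ) := by
      rw [Nat.cast_mul]
      exact key.trans (mul_le_mul_of_nonneg_right (Nat.le_ceil _) (Nat.cast_nonneg _))
    exact Nat.cast_le.1 key'

end Vale.Agent.P067.KO
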