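import Vale.Agent.P067.Sub.Main
import Vale.Agent.P067.KO.Pins
import Vale.Agent.P067.KO.LinkMap

/-!
From local-to-global and vanishing to coboundary expansion of the skeleton in the weights of the
problem.
-/

namespace Vale.Agent.P067.KO

open Finset Vale.Agent.P067.Sub

variable {α : Type*} [DecidableEq α]

theorem factor {K E E' : Type*} [Field K] [AddCommGroup E] [Module K E] [AddCommGroup E']
    [Module K E'] (f : E →ₗ[K] E') (g : E →ₗ[K] K) (h : LinearMap.ker f ≤ LinearMap.ker g) :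
    ∃ φ : E' →ₗ[K] K, φ.comp f = g := by
  have hmem : g ∈ (LinearMap.ker f).dualAnnihilator :=
    (Submodule.mem_dualAnnihilator _).2 fun x hx => h hx
  rw [← LinearMap.range_dualMap_eq_dualAnnihilator_ker] at hmem
  exact hmem

theorem factor_on {E E' : Type*} [AddCommGroup E] [Module (ZMod 2) E] [AddCommGroup E']
    [Module (ZMod 2) E'] (f : E →ₗ[ZMod 2] E') (g : E →ₗ[ZMod 2] ZMod 2) (M : Submodule (ZMod 2) E)
    (h : ∀ x ∈ M, f x = 0 → g x = 0) : ∃ φ : E' →ₗ[ZMod 2] ZMod 2, ∀ x ∈ M, φ (f x) = g x := by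
  obtain ⟨φ, hφ⟩ := factor (f.domRestrict M) (g.domRestrict M) fun x hx => h x.1 x.2 hx
  exact ⟨φ, fun x hx => LinearMap.congr_fun hφ ⟨x, hx⟩⟩

/-- no homology below `m` means no cohomology below `m` -/
theorem exists_dl {P : Finset α → Prop} {k : ℕ} (hA : Acy P (k + 1)) (z : Finset α → ZMod 2)
    (hz : ∀ t, Sz P (k + 1) t → dl z t = 0) :
    ∃ h : Finset α → ZMod 2, ∀ s, Sz P k s → z s = dl h s := by
  set ev : Ch α →ₗ[ZMod 2] ZMod 2 := Finsupp.linearCombination (ZMod 2) z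
  have ev_sg : ∀ s, ev (sg s) = z s := fun s => by
    simp [ev, sg, Finsupp.linearCombination_single]
  set M := On (Sz P k)
  have hker : ∀ x ∈ M, bd x = 0 → ev x = 0 := by
    intro x hx hb
    obtain ⟨w, hw, rfl⟩ := hA k (Nat.lt_succ_self k) x hx hb
    rw [← Finsupp.sum_single w, Finsupp.sum, map_sum, map_sum]
    refine sum_eq_zero fun t ht => ?_
    have e : Finsupp.single t (w t) = w t • sg t := by simp [sg]
    rw [e, map_smul, map_smul, bd_sg, map_sum]
    simp only [ev_sg]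
    have := hz t (hw ht)
    rw [dl] at this
    rw [this, smul_zero]
  obtain ⟨φ, hφ⟩ := factor_on bd ev M hker
  refine ⟨fun s => φ (sg s), fun s hs => ?_⟩
  have h := hφ (sg s) (sg_mem hs)
  simp only [ev_sg, bd_sg, map_sum] at h
  rw [dl, h]

theorem sz_isFace {X : Finset (Finset α)} {k : ℕ} {t : Finset α} :
    Sz (IsFace X) k t ↔ t ∈ kf X k :=
  mem_kf_iff.symm

/-- acyclicity in the lowest degrees gives connectedness -/
theorem conn_of_acy {X : Finset (Finset α)} (hA : Acy (IsFace X) 2) : Conn X := by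
  intro u v hu hv
  classical
  set R := fun a b => IsFace X {a, b}
  set f : Finset α → ZMod 2 := fun s =>
    if ∃ x ∈ s, Relation.ReflTransGen R u x then 1 else 0
  obtain ⟨h, hh⟩ := exists_dl (k := 1) hA f fun t ht => by
    obtain ⟨hface, hc⟩ := ht
    obtain ⟨a, b, hab, rfl⟩ := card_eq_two.1 hc
    have hiff : Relation.ReflTransGen R u a ↔ Relation.ReflTransGen R u b :=
      ⟨fun h => h.tail hface, fun h => h.tail (show R b a by rwa [show R b a = IsFace X {b, a}
        from rfl, pair_comm])⟩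
    have ea : ({a, b} : Finset α).erase a = {b} := by
      rw [erase_insert (by simpa using hab)]
    have eb : ({a, b} : Finset α).erase b = {a} := by
      rw [pair_comm, erase_insert (by simpa using hab.symm)]
    rw [dl, sum_pair hab, ea, eb]
    simp only [f, mem_singleton, exists_eq_left, hiff]
    exact ZModModule.add_self _
  have e : ∀ x, IsFace X {x} → f {x} = h ∅ := fun x hx => by
    rw [hh {x} ⟨hx, card_singleton x⟩, dl, sum_singleton, erase_singleton]
  have hne : f {u} = f {v} := (e u hu).trans (e v hv).symm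
  simp only [f, mem_singleton, exists_eq_left] at hne
  rw [if_pos Relation.ReflTransGen.refl] at hne
  by_contra hnot
  rw [if_neg hnot] at hne
  exact one_ne_zero hne

variable {N : ℕ} {X : Finset (Finset (Fin N))} {n d Δ : ℕ}

/-- a subset of a top face extends to a face with `d+1` vertices -/
theorem exists_skel (hX : TopCard n X) (hdn : d + 1 ≤ n) {s : Finset (Fin N)}
    (hs : IsFace X s) (hc : s.card ≤ d + 1) : ∃ t ∈ kf X (d + 1), s ⊆ t := by
  obtain ⟨T, hT, hsT⟩ := hs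
  obtain ⟨t, h1, h2, h3⟩ := exists_subsuperset_card_eq hsT hc (by rw [hX T hT]; exact hdn)
  exact ⟨t, mem_kf_iff.2 ⟨⟨T, hT, h2⟩, h3⟩, h1⟩

theorem faces_skel (hX : TopCard n X) (hdn : d + 1 ≤ n) {i : ℕ} (hi : i ≤ d) :
    faces (kf X (d + 1)) i = kf X (i + 1) := by
  ext s
  rw [mem_faces_iff, mem_kf_iff]
  constructor
  · rintro ⟨t, ht, hst, hc⟩
    obtain ⟨⟨T, hT, htT⟩, -⟩ := mem_kf_iff.1 ht
    exact ⟨⟨T, hT, hst.trans htT⟩, hc⟩
  · rintro ⟨hf, hc⟩
    obtain ⟨t, ht, hst⟩ := exists_skel hX hdn hf (by omega)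
    exact ⟨t, ht, hst, hc⟩

theorem isPure_skel (hX : TopCard n X) (hdn : d + 1 ≤ n) (hv : ∀ v, IsFace X {v}) :
    IsPure d (kf X (d + 1)) := by
  refine ⟨fun t ht => (mem_kf_iff.1 ht).2, fun v => ?_⟩
  obtain ⟨t, ht, hs⟩ := exists_skel hX hdn (hv v) (by rw [card_singleton]; omega)
  exact ⟨t, ht, singleton_subset_iff.1 hs⟩

theorem degree_skel (hX : TopCard n X) (hΔ : DegLE Δ X) :
    DegreeLE (Δ * 2 ^ n) (kf X (d + 1)) := by
  intro v
  calc ((kf X (d + 1)).filter fun τ => v ∈ τ).card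
      ≤ ((X.filter fun T => v ∈ T).biUnion fun T => T.powersetCard (d + 1)).card := by
        refine card_le_card fun t ht => ?_
        obtain ⟨ht, hvt⟩ := mem_filter.1 ht
        obtain ⟨⟨T, hT, htT⟩, hc⟩ := mem_kf_iff.1 ht
        exact mem_biUnion.2 ⟨T, mem_filter.2 ⟨hT, htT hvt⟩, mem_powersetCard.2 ⟨htT, hc⟩⟩
    _ ≤ (X.filter fun T => v ∈ T).card * 2 ^ n := card_biUnion_le_card_mul _ _ _ fun T hT => by
        rw [card_powersetCard, hX T (mem_filter.1 hT).1]
        exact Nat.choose_le_two_pow _ _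
    _ ≤ Δ * 2 ^ n := Nat.mul_le_mul_right _ (hΔ v)

theorem connected_skel (hX : TopCard n X) (hdn : d + 1 ≤ n) (hd : 1 ≤ d) (hA : Acy (IsFace X) 2)
    (hv : ∀ v, IsFace X {v}) (u v : Fin N) :
    Relation.ReflTransGen (fun a b => ∃ τ ∈ kf X (d + 1), a ∈ τ ∧ b ∈ τ) u v := by
  refine (conn_of_acy hA u v (hv u) (hv v)).lift id fun a b hab => ?_
  obtain ⟨t, ht, hs⟩ := exists_skel hX hdn hab ((card_le_two).trans (by omega))
  exact ⟨t, ht, hs (by simp), hs (by simp)⟩

theorem ext_nonzero_mem {F : Finset (Finset (Fin N))} {i : ℕ} {f : Cochain F i}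
    {s : Finset (Fin N)} (h : Sub.ext f s ≠ 0) : s ∈ faces F i := by
  by_contra hs
  simp [Sub.ext, hs] at h

/-- coboundary expansion of the skeleton -/
theorem expander_skel {C : ℕ} (hX : TopCard n X) (hdn : d + 1 ≤ n) (hΔ : DegLE Δ X)
    (hA : Acy (IsFace X) (d + 1))
    (hLG : ∀ k, 1 ≤ k → k ≤ d → ∀ f : Finset (Fin N) → ZMod 2,
      ∃ z : Finset (Fin N) → ZMod 2, (∀ t ∈ kf X (k + 1), dl z t = 0) ∧
        ((kf X k).filter fun s => f s ≠ z s).card ≤
          C * ((kf X (k + 1)).filter fun t => dl f t ≠ 0).card) :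
    IsCobExpander d (kf X (d + 1))
      (1 / (2 ^ (d + 1) * ((Δ * 2 ^ n : ℕ) : ℝ) * C + 1)) := by
  intro i hi
  set F := kf X (d + 1)
  intro f
  have hfac : ∀ j, j ≤ d → faces F j = kf X (j + 1) := fun j hj => faces_skel hX hdn hj
  obtain ⟨z, hz, hle⟩ := hLG (i + 1) (by omega) (by omega) (Sub.ext f)
  obtain ⟨h, hh⟩ := exists_dl (hA.mono (show i + 1 + 1 ≤ d + 1 by omega)) z
    fun t ht => hz t (sz_isFace.1 ht)
  set a : Cochain F i := fun σ => dl h (σ : Finset (Fin N))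
  have ha : a ∈ cobs F i := by
    cases i with
    | zero =>
      refine Submodule.mem_span_singleton.mpr ⟨h ∅, ?_⟩
      funext σ
      have hc := (mem_kf_iff.1 ((hfac 0 (Nat.zero_le d)).le σ.2)).2
      obtain ⟨x, hx⟩ := card_eq_one.1 hc
      simp [a, dl, hx]
    | succ j =>
      refine ⟨fun ρ => h (ρ : Finset (Fin N)), funext fun σ => ?_⟩
      obtain ⟨σ, hσ⟩ := σ
      rw [cob_eq_sum _ hσ]
      refine sum_congr rfl fun x hx => ?_
      obtain ⟨T, hT, hsub, hc⟩ := mem_faces_iff.1 hσ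
      rw [Sub.ext, dif_pos (mem_faces_iff.2 ⟨T, hT, (erase_subset x σ).trans hsub, by
        rw [card_erase_of_mem hx, hc]; omega⟩)]
  refine ⟨a, ha, ?_⟩
  set A := (faces F i).filter fun s => Sub.ext (f - a) s ≠ 0
  set B := (kf X (i + 1 + 1)).filter fun t => dl (Sub.ext f) t ≠ 0
  have hAle : A.card ≤ C * B.card := by
    refine le_trans (card_le_card fun s hs => ?_) hle
    obtain ⟨hs, hne⟩ := mem_filter.1 hs
    have hs' : s ∈ kf X (i + 1) := hfac i hi.le ▸ hs
    refine mem_filter.2 ⟨hs', fun he => hne ?_⟩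
    rw [Sub.ext, dif_pos hs, Pi.sub_apply, ← Sub.ext_coe f ⟨s, hs⟩, he, hh s (sz_isFace.2 hs')]
    exact sub_self _
  have hcob : ∀ t ∈ faces F (i + 1), Sub.ext (cob F i f) t = dl (Sub.ext f) t := fun t ht => by
    rw [Sub.ext, dif_pos ht, cob_eq_sum f ht]
    rfl
  set D' : ℝ := ((Δ * 2 ^ n : ℕ) : ℝ)
  have hup : wnorm d F i (f - a) ≤ D' / F.card * A.card := by
    rw [wnorm_eq, sum_congr rfl (g := fun s => if Sub.ext (f - a) s ≠ 0 then weight d F i s else 0)
      fun s _ => by rw [ite_not], ← sum_filter, mul_comm, ← nsmul_eq_mul]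
    refine sum_le_card_nsmul A _ _ fun s hs => ?_
    obtain ⟨hs, -⟩ := mem_filter.1 hs
    obtain ⟨T, hT, hsT, hc⟩ := mem_faces_iff.1 hs
    obtain ⟨v, hv⟩ := card_pos.1 (show 0 < s.card by omega)
    have h1 : (F.filter fun τ => s ⊆ τ).card ≤ Δ * 2 ^ n :=
      le_trans (card_le_card (monotone_filter_right F fun _ _ h => h hv)) (degree_skel hX hΔ v)
    have h2 : (1 : ℝ) ≤ ((d + 1).choose (i + 1) : ℕ) := by
      exact_mod_cast Nat.choose_pos (by omega)
    have hFpos : (0 : ℝ) < F.card := by exact_mod_cast card_pos.2 ⟨T, hT⟩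
    refine div_le_div₀ (Nat.cast_nonneg _) (Nat.cast_le.2 h1) hFpos ?_
    exact le_mul_of_one_le_left hFpos.le h2
  have hlow : (1 / (2 ^ (d + 1) * (F.card : ℝ))) * B.card ≤ wnorm d F (i + 1) (cob F i f) := by
    rw [wnorm_eq, sum_congr rfl (g := fun s => if Sub.ext (cob F i f) s ≠ 0 then
      weight d F (i + 1) s else 0) fun s _ => by rw [ite_not], ← sum_filter, mul_comm,
      ← nsmul_eq_mul]
    have hB : B = (faces F (i + 1)).filter fun s => Sub.ext (cob F i f) s ≠ 0 := by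
      ext t
      simp only [B, mem_filter]
      exact ⟨fun ⟨h1, h2⟩ => ⟨(hfac (i + 1) hi).symm ▸ h1,
        by rw [hcob t ((hfac (i + 1) hi).symm ▸ h1)]; exact h2⟩,
        fun ⟨h1, h2⟩ => ⟨hfac (i + 1) hi ▸ h1, by rw [← hcob t h1]; exact h2⟩⟩
    rw [hB]
    refine card_nsmul_le_sum _ _ _ fun s hs => ?_
    obtain ⟨hs, -⟩ := mem_filter.1 hs
    obtain ⟨T, hT, hsT, hc⟩ := mem_faces_iff.1 hs
    have h1 : (1 : ℝ) ≤ (F.filter fun τ => s ⊆ τ).card := by
      exact_mod_cast card_pos.2 ⟨T, mem_filter.2 ⟨hT, hsT⟩⟩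
    have h2 : (((d + 1).choose (i + 1 + 1) : ℕ) : ℝ) ≤ 2 ^ (d + 1) := by
      exact_mod_cast Nat.choose_le_two_pow _ _
    have hFpos : (0 : ℝ) < F.card := by exact_mod_cast card_pos.2 ⟨T, hT⟩
    have h3 : (0 : ℝ) < ((d + 1).choose (i + 1 + 1) : ℕ) := by
      exact_mod_cast Nat.choose_pos (by omega)
    refine div_le_div₀ (Nat.cast_nonneg _) h1 (mul_pos h3 hFpos) ?_
    exact mul_le_mul_of_nonneg_right h2 hFpos.le
  have hA' : (A.card : ℝ) ≤ C * B.card := by exact_mod_cast hAle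
  have hD : 0 ≤ D' := Nat.cast_nonneg _
  calc 1 / (2 ^ (d + 1) * D' * C + 1) * wnorm d F i (f - a)
      ≤ 1 / (2 ^ (d + 1) * D' * C + 1) * (D' / F.card * (C * B.card)) := by
        refine mul_le_mul_of_nonneg_left (hup.trans ?_) (by positivity)
        exact mul_le_mul_of_nonneg_left hA' (by positivity)
    _ = (2 ^ (d + 1) * D' * C / (2 ^ (d + 1) * D' * C + 1)) *
        ((1 / (2 ^ (d + 1) * (F.card : ℝ))) * B.card) := by
        rcases eq_or_ne (F.card : ℝ) 0 with h0 | h0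
        · simp [h0]
        field_simp
    _ ≤ 1 * ((1 / (2 ^ (d + 1) * (F.card : ℝ))) * B.card) := by
        refine mul_le_mul_of_nonneg_right ?_ (by positivity)
        exact div_le_one_of_le₀ (by linarith) (by positivity)
    _ ≤ _ := by rw [one_mul]; exact hlow

end Vale.Agent.P067.KO
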