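import Vale.Agent.P067.KO.LocalToGlobal
import Vale.Agent.P067.KO.LinkMap
import Vale.Agent.P067.KO.Skeleton

/-!
Assembly: bounded degree coboundary expanders in every dimension from the modules.
-/

namespace Vale.Agent.P067.KO

open Finset

theorem oppTops_iff {k : Type*} [Field k] [Fintype k] {M : Type*} [AddCommGroup M] [Module k M]
    [Finite M] {F : Submodule k M} {T : Finset (Submodule k M)} :
    T ∈ oppTops F ↔ OppFace F T ∧ T.card + 1 = Module.finrank k M := by
  simp [oppTops]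

theorem oppTops_subset {k : Type*} [Field k] [Fintype k] {M : Type*} [AddCommGroup M] [Module k M]
    [Finite M] (F : Submodule k M) :
    ∀ T ∈ oppTops F, (↑T : Set (Submodule k M)) ⊆ {W | IsOppVert F W} :=
  fun _ hT W hW => (oppTops_iff.1 hT).1.1 W hW

/-- the links of nonempty faces are links of opposition complexes -/
theorem link_model {k : Type} [Field k] [Fintype k] {M : Type} [AddCommGroup M] [Module k M]
    [Finite M] [DecidableEq (Submodule k M)] {N : ℕ} {X : Finset (Finset (Fin N))}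
    (hmodel : ∀ v, ∃ (F : Submodule k M) (ψ : Submodule k M → Fin N),
      Set.InjOn ψ {W | IsOppVert F W} ∧ link X {v} = mapC ψ (oppTops F))
    {σ : Finset (Fin N)} (hσ : IsFace X σ) (hne : σ.Nonempty) :
    ∃ (F : Submodule k M) (ψ : Submodule k M → Fin N) (τ : Finset (Submodule k M)),
      Set.InjOn ψ {W | IsOppVert F W} ∧ OppFace F τ ∧ τ.card + 1 = σ.card ∧
      link X σ = mapC ψ (link (oppTops F) τ) := by
  obtain ⟨v, hv⟩ := hne
  obtain ⟨F, ψ, hψ, hlink⟩ := hmodel v
  have hins : insert v (σ.erase v) = σ := insert_erase hv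
  have hface : IsFace (mapC ψ (oppTops F)) (σ.erase v) := by
    rw [← hlink, isFace_link (notMem_erase v σ), hins]
    exact hσ
  obtain ⟨τ, hτ, hτe, hτc⟩ := exists_preimage hψ (oppTops_subset F) hface
  obtain ⟨T, hT, hsub⟩ := hτ
  have hTF := (oppTops_iff.1 hT).1
  refine ⟨F, ψ, τ, hψ, ⟨fun W hW => hTF.1 W (hsub hW),
    fun W hW W' hW' => hTF.2 W (hsub hW) W' (hsub hW')⟩, ?_, ?_⟩
  · rw [hτc, card_erase_add_one hv]
  · conv_lhs => rw [← hins, ← link_link_singleton X (notMem_erase v σ), hlink, ← hτe]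
    exact link_mapC hψ (oppTops_subset F) (face_subset (oppTops_subset F) ⟨T, hT, hsub⟩)

/-- the construction over one finite field of odd characteristic and large size -/
theorem mainStmt_at {d n : ℕ} (hd : 1 ≤ d) (hn : 3 * (d + 1) + 6 ≤ n) {β lam lam' : ℝ}
    {q₀ : ℕ} (k : Type) [Field k] [Fintype k] (h2 : (2 : k) ≠ 0) (hq : q₀ ≤ Fintype.card k)
    (hexp : ∀ (k : Type) [Field k] [Fintype k] (M : Type) [AddCommGroup M] [Module k M] [Finite M]
      [DecidableEq (Submodule k M)],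
      Module.finrank k M = n → ∀ F : Submodule k M, ∀ τ, OppFace F τ →
        ∀ i, 1 ≤ i → τ.card + i ≤ d → ∀ f : Finset (Submodule k M) → ZMod 2,
          ∃ h : Finset (Submodule k M) → ZMod 2,
            β * nrm (link (oppTops F) τ) i (f + dl h) ≤
              nrm (link (oppTops F) τ) (i + 1) (dl f))
    (hspec : ∀ (k : Type) [Field k] [Fintype k], q₀ ≤ Fintype.card k →
      ∀ (M : Type) [AddCommGroup M] [Module k M] [Finite M] [DecidableEq (Submodule k M)],
        Module.finrank k M = n → ∀ F : Submodule k M, ∀ τ, OppFace F τ →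
          (τ.card + 4 ≤ n → Conn (link (oppTops F) τ)) ∧
          (τ.card + 3 = n → Gap lam' (link (oppTops F) τ)))
    (htr : ∀ (V : Type) [DecidableEq V] (X : Finset (Finset V)), TopCard (n - 1 + 1) X →
      (∀ σ, IsFace X σ → σ.card + 2 ≤ n - 1 → Conn (link X σ)) →
      (∀ σ, IsFace X σ → σ.card + 1 = n - 1 → Gap lam' (link X σ)) →
      ∀ d, d + 1 ≤ n - 1 → MixLinks d lam X)
    (hLG : ∀ Δ : ℕ, ∃ C : ℕ, ∀ (V : Type) [DecidableEq V] (X : Finset (Finset V)),
      TopCard (n - 1 + 1) X → DegLE Δ X → LinkExp d β X → MixLinks d lam X →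
      ∀ k, 1 ≤ k → k ≤ d → ∀ f : Finset V → ZMod 2,
        ∃ z : Finset V → ZMod 2, (∀ t ∈ kf X (k + 1), dl z t = 0) ∧
          ((kf X k).filter fun s => f s ≠ z s).card ≤
            C * ((kf X (k + 1)).filter fun t => dl f t ≠ 0).card)
    (hGam : GamActStmt) (hXInf : XInfAcyStmt) (hRig : RigidStmt) (hQuot : QuotientStmt)
    (hFirst : FirstQuotientStmt) (hVan : VanishStmt) :
    ∃ D : ℕ, ∃ ε : ℝ, 0 < ε ∧ ∀ n₀ : ℕ, ∃ N : ℕ, n₀ ≤ N ∧
    ∃ F : Finset (Finset (Fin N)), IsPure d F ∧ DegreeLE D F ∧ IsCobExpander d F ε ∧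
      ∀ u v, Relation.ReflTransGen (fun a b => ∃ τ ∈ F, a ∈ τ ∧ b ∈ τ) u v := by
  haveI instL : ∀ j, DecidableEq (Lat k j) := fun j => Classical.decEq _
  haveI : DecidableEq (Submodule k (Fin n → k)) := Classical.decEq _
  have hm : ∀ j, 2 ≤ j → ∃ m₀ : ℕ, ∀ m, m₀ ≤ m → ∀ g ∈ cong k j m,
      (∀ L M L' : Lat k j, XInf {L, M} → XInf {M, L'} → gamAct g L = L' → L' = L) ∧
      (∀ L : Lat k j, InWindow L → gamAct g L = L → g = 1) :=
    fun j hj => hRig k j hj
  choose m₀ hm₀ using hm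
  set m₁ := 1 + ∑ j ∈ range (n + 1), (if h : 2 ≤ j then m₀ j h else 0)
  obtain ⟨Δ, hX⟩ := hQuot k n (by omega) m₁
  obtain ⟨C, hC⟩ := hLG Δ
  refine ⟨Δ * 2 ^ n, 1 / (2 ^ (d + 1) * ((Δ * 2 ^ n : ℕ) : ℝ) * C + 1), by positivity,
    fun n₀ => ?_⟩
  obtain ⟨m, hmm, N, hN, X, htop, hdeg, hvert, hmodel, hacy⟩ := hX n₀
  have hco : CoAcy gamAct (cong k n m : Set (Gam n k)) XInf (d + 1) := by
    refine hVan k h2 n (d + 1) hn (fun j => Lat k j) (fun j => gamAct)
      (fun j => XInf) m (by omega) fun j hj hjn => ?_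
    obtain ⟨h1, hmul, hinv⟩ := hGam k j
    have hmj : m₀ j hj ≤ m := by
      have h := single_le_sum (s := range (n + 1)) (f := fun i => if h : 2 ≤ i then m₀ i h else 0)
        (fun i _ => Nat.zero_le _) (mem_range.2 (Nat.lt_succ_of_le hjn))
      simp only [dif_pos hj] at h
      omega
    have hdown : Down (XInf : Finset (Lat k j) → Prop) := fun s t hs hts =>
      ⟨fun L hL => hs.1 L (hts hL), fun L hL L' hL' => hs.2 L (hts hL) L' (hts hL')⟩
    refine ⟨⟨hdown, h1, hmul, fun g _ s hs => hinv g s hs, ?_⟩,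
      ⟨⟨fun L hL => absurd hL (Finset.notMem_empty L), fun L hL => absurd hL (Finset.notMem_empty L)⟩,
        hinv⟩, fun M' hM' _ =>
      ⟨hXInf k j (M' + 1) (by omega), hFirst k j M' hj⟩⟩
    intro g hg s hs hne hgs
    obtain ⟨L, hL⟩ := hne
    have hgL : gamAct g L ∈ s := by
      rw [← hgs]
      exact mem_image_of_mem _ hL
    obtain ⟨hr1, hr2⟩ := hm₀ j hj m hmj g hg
    have hfix := hr1 L L (gamAct g L) (hdown _ _ hs (by simp [insert_subset_iff, hL]))
      (hdown _ _ hs (by simp [insert_subset_iff, hL, hgL])) rfl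
    exact hr2 L (hs.1 L hL) hfix
  have hA : Acy (IsFace X) (d + 1) := hacy _ hco
  have htop' : TopCard (n - 1 + 1) X := by rwa [Nat.sub_add_cancel (by omega)]
  have hmix : MixLinks d lam X := by
    refine htr (Fin N) X htop' (fun σ hσ hc => ?_) (fun σ hσ hc => ?_) d (by omega)
    · rcases σ.eq_empty_or_nonempty with rfl | hne
      · rw [link_empty]
        exact conn_of_acy (hA.mono (by omega))
      obtain ⟨F, ψ, τ, hψ, hτ, hτc, e⟩ := link_model hmodel hσ hne
      rw [e]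
      exact conn_mapC hψ (link_subset (oppTops_subset F) τ)
        ((hspec k hq (Fin n → k) (Module.finrank_fin_fun _) F τ hτ).1 (by omega))
    · have hne : σ.Nonempty := card_pos.1 (by omega)
      obtain ⟨F, ψ, τ, hψ, hτ, hτc, e⟩ := link_model hmodel hσ hne
      rw [e]
      exact gap_mapC hψ (link_subset (oppTops_subset F) τ)
        ((hspec k hq (Fin n → k) (Module.finrank_fin_fun _) F τ hτ).2 (by omega))
  have hlink : LinkExp d β X := by
    intro σ hσ hne i hi hid f
    obtain ⟨F, ψ, τ, hψ, hτ, hτc, e⟩ := link_model hmodel hσ hne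
    rw [e]
    exact exp_mapC hψ (link_subset (oppTops_subset F) τ)
      (hexp k (Fin n → k) (Module.finrank_fin_fun _) F τ hτ i hi (by omega)) f
  refine ⟨N, hN, kf X (d + 1), isPure_skel htop (by omega) hvert, degree_skel htop hdeg,
    expander_skel htop (by omega) hdeg hA (hC (Fin N) X htop' hdeg hlink hmix),
    connected_skel htop (by omega) hd (hA.mono (by omega)) hvert⟩

theorem mainStmt_of (hTr : TrickleStmt) (hSpec : OppSpecStmt) (hExp : OppExpStmt)
    (hGam : GamActStmt) (hXInf : XInfAcyStmt) (hRig : RigidStmt) (hQuot : QuotientStmt)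
    (hFirst : FirstQuotientStmt) (hVan : VanishStmt) : MainStmt := by
  intro d hd
  set n := 4 * (d + 3) ^ 2
  have hn : 3 * (d + 1) + 6 ≤ n := by
    have : d + 3 ≤ (d + 3) ^ 2 := Nat.le_self_pow (by omega) _
    omega
  obtain ⟨β, hβ, hexp⟩ := hExp n d le_rfl
  obtain ⟨lam, hlam, hLG⟩ := localToGlobal d (n - 1) (by omega) β hβ
  obtain ⟨lam', hlam', htr⟩ := hTr (n - 1) (by omega) lam hlam
  obtain ⟨q₀, hspec⟩ := hSpec n (by omega) lam' hlam'
  obtain ⟨p, hpq, hp⟩ := Nat.exists_infinite_primes (max q₀ 3)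
  haveI : Fact p.Prime := ⟨hp⟩
  have h2 : (2 : ZMod p) ≠ 0 := by
    intro h
    rw [show (2 : ZMod p) = ((2 : ℕ) : ZMod p) from Nat.cast_ofNat.symm,
      ZMod.natCast_eq_zero_iff] at h
    have := Nat.le_of_dvd (by norm_num) h
    omega
  have hq : q₀ ≤ Fintype.card (ZMod p) := by rw [ZMod.card]; omega
  exact mainStmt_at hd hn (ZMod p) h2 hq hexp hspec htr hLG hGam hXInf hRig hQuot hFirst
    hVan

end Vale.Agent.P067.KO
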