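import Vale.Agent.P067.KO.Compare

/-!
The free complex on countably many copies of a group, targets for comparison maps, and the
acyclicity of the coinvariants of an abelian group of odd exponent.
-/

namespace Vale.Agent.P067.KO

open Finset Vale.Agent.P067.Sub

variable {G α β : Type*} [Group G] [DecidableEq G] [DecidableEq α] [DecidableEq β]

omit [DecidableEq G] in
theorem milnorAct_isAct : IsAct (milnorAct (G := G)) :=
  ⟨fun a => by simp [milnorAct], fun g h a => by simp [milnorAct, mul_assoc]⟩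

omit [Group G] [DecidableEq G] in
theorem milnor_down : Down (MilnorFace (G := G)) := fun _ _ hs hts => hs.mono hts

theorem milnor_invariant (g : G) {s : Finset (G × ℕ)} (hs : MilnorFace s) :
    MilnorFace (s.image (milnorAct g)) := by
  intro x hx y hy hxy
  obtain ⟨a, ha, rfl⟩ := Finset.mem_image.mp hx
  obtain ⟨b, hb, rfl⟩ := Finset.mem_image.mp hy
  rw [hs ha hb hxy]

theorem milnor_freeOn (H : Subgroup G) : FreeOn milnorAct H (MilnorFace (G := G)) where
  down := milnor_down
  one := milnorAct_isAct.one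
  mul := milnorAct_isAct.mul
  invariant g _ _ hs := milnor_invariant g hs
  free g _ s hs hne he := by
    obtain ⟨x, hx⟩ := hne
    have h1 : milnorAct g x ∈ s := he ▸ Finset.mem_image_of_mem _ hx
    have h2 : milnorAct g x = x := hs h1 hx rfl
    simpa [milnorAct] using congrArg Prod.fst h2

theorem milnor_acy (m : ℕ) : Acy (MilnorFace (G := G)) m := by
  intro c _ z hz hb
  obtain ⟨l, hl⟩ := Infinite.exists_notMem_finset (z.support.biUnion fun s => s.image Prod.snd)
  refine ⟨cone (1, l) z, cone_On _ (P := fun s => Sz MilnorFace c s ∧ s ∈ z.support)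
    (fun s hs hns => ⟨?_, by rw [Finset.card_insert_of_notMem hns, hs.1.2]⟩)
    (mem_On.mpr fun s hs => ⟨hz hs, hs⟩), by simpa [hb] using bd_cone (1, l) z⟩
  have hl' : ∀ x ∈ s, x.2 ≠ l := fun x hx he => hl (Finset.mem_biUnion.mpr
    ⟨s, hs.2, Finset.mem_image.mpr ⟨x, hx, he⟩⟩)
  intro x hx y hy hxy
  rcases Finset.mem_insert.mp hx with rfl | hx <;> rcases Finset.mem_insert.mp hy with rfl | hy
  · rfl
  · exact absurd hxy.symm (hl' y hy)
  · exact absurd hxy (hl' x hx)
  · exact hs.1.1 hx hy hxy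

omit [DecidableEq G] [DecidableEq α] in
/-- an acyclic complex is a target, exactly -/
theorem Target.exact {H : Subgroup G} {act' : G → β → β} {Q : Finset β → Prop} {m : ℕ}
    (hA : IsAct act') (hi : ∀ g ∈ H, ∀ s, Q s → Q (s.image (act' g))) (hQ : Acy Q m) :
    Target H act' Q (fun _ => ⊥) m where
  act := hA
  invariant := hi
  bd_mem c y hy := by simp [(Submodule.mem_bot _).mp hy]
  tr_mem g _ c y hy := by simp [(Submodule.mem_bot _).mp hy]
  fill c hc y hy hb := by
    obtain ⟨w, hw, hwy⟩ := hQ c hc y hy ((Submodule.mem_bot _).mp hb)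
    exact ⟨w, hw, by simp [hwy, add_self']⟩

omit [DecidableEq G] in
theorem bd_Rel {act : G → α → α} (hA : IsAct act) {K : Set G} {P : Finset α → Prop}
    (hP : Down P) {c : ℕ} {y : Ch α} (hy : y ∈ Rel act K P (c + 1)) :
    bd y ∈ Rel act K P c := by
  refine (Submodule.span_le.mpr ?_ : Rel act K P (c + 1) ≤ (Rel act K P c).comap bd) hy
  rintro x ⟨g, hg, s, hs, rfl⟩
  rw [SetLike.mem_coe, Submodule.mem_comap, map_add, ← tr_sg, hA.bd_tr']
  exact mem_rel_add hg (bd_Sz hP (sg_mem hs))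

omit [Group G] [DecidableEq G] in
theorem Rel_zero {act : G → α → α} {K : Set G} {P : Finset α → Prop} : Rel act K P 0 = ⊥ := by
  refine le_bot_iff.mp (Submodule.span_le.mpr ?_)
  rintro x ⟨g, -, s, hs, rfl⟩
  obtain rfl := Finset.card_eq_zero.mp hs.2
  simp [add_self']

omit [DecidableEq G] [DecidableEq α] in
/-- a complex with acyclic coinvariants under a subgroup is a target modulo its relations -/
theorem Target.coinv {G₂ : Type*} [Group G₂] {H : Subgroup G} {σ : G →* G₂} {act' : G₂ → β → β}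
    {K : Subgroup G₂}
    {Q : Finset β → Prop} {m : ℕ} (hA : IsAct act') (hd : Down Q)
    (hi : ∀ g s, Q s → Q (s.image (act' g))) (hK : ∀ g ∈ H, ∀ k ∈ K, σ g * k * (σ g)⁻¹ ∈ K)
    (hQ : Acy Q 1) (hc : CoAcy act' (K : Set G₂) Q m) :
    Target H (fun g x => act' (σ g) x) Q (Rel act' (K : Set G₂) Q) m where
  act := hA.comp σ
  invariant g _ s hs := hi _ s hs
  bd_mem c y hy := bd_Rel hA hd hy
  tr_mem g hg c y hy := by
    refine (Submodule.span_le.mpr ?_ : Rel act' (K : Set G₂) Q c ≤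
      (Rel act' (K : Set G₂) Q c).comap (tr act' (σ g))) hy
    rintro x ⟨k, hk, s, hs, rfl⟩
    rw [SetLike.mem_coe, Submodule.mem_comap, map_add, tr_sg, tr_sg]
    refine Submodule.subset_span ⟨_, hK g hg k hk, s.image (act' (σ g)),
      ⟨hi _ _ hs.1, (Finset.card_image_of_injective _ (hA.inj _)).trans hs.2⟩, ?_⟩
    rw [← hA.image_mul, ← hA.image_mul, mul_assoc (σ g * k), inv_mul_cancel, mul_one]
  fill c hc' y hy hb := by
    rcases c with _ | c
    · obtain ⟨w, hw, hwy⟩ := hQ 0 Nat.zero_lt_one y hy (bd_zero_card hy)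
      exact ⟨w, hw, by simp [hwy, add_self']⟩
    · exact hc (c + 1) (by omega) hc' y hy hb

/-- averaging over finite subgroups of odd order -/
theorem coAcy_of_locallyOdd {act : G → α → α} (hA : IsAct act) {K : Subgroup G}
    {P : Finset α → Prop} (hi : ∀ g s, P s → P (s.image (act g)))
    (hK : ∀ S : Finset G, ↑S ⊆ (K : Set G) → ∃ F : Finset G, S ⊆ F ∧ ↑F ⊆ (K : Set G) ∧
      Odd F.card ∧ ∀ g ∈ S, F.image (fun x => x * g) = F)
    {m : ℕ} (hP : Acy P m) : CoAcy act (K : Set G) P m := by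
  classical
  intro c _ hc z hz hb
  have hgen : ∃ S : Finset G, ↑S ⊆ (K : Set G) ∧ bd z ∈ Rel act (S : Set G) P (c - 1) := by
    refine Submodule.span_induction
      (p := fun x _ => ∃ S : Finset G, ↑S ⊆ (K : Set G) ∧ x ∈ Rel act (S : Set G) P (c - 1))
      ?_ ⟨∅, by simp, Submodule.zero_mem _⟩ ?_ ?_ hb
    · rintro x ⟨g, hg, s, hs, rfl⟩
      exact ⟨{g}, by simpa using hg, Submodule.subset_span ⟨g, by simp, s, hs, rfl⟩⟩
    · rintro x y _ _ ⟨S, hS, hx⟩ ⟨T, hT, hy⟩
      exact ⟨S ∪ T, by simpa using ⟨hS, hT⟩, Submodule.add_mem _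
        (Rel_mono (by simp) _ hx) (Rel_mono (by simp) _ hy)⟩
    · rintro a x _ ⟨S, hS, hx⟩
      exact ⟨S, hS, Submodule.smul_mem _ _ hx⟩
  obtain ⟨S, hS, hbS⟩ := hgen
  obtain ⟨F, hSF, hFK, hodd, hFmul⟩ := hK S hS
  set A : Ch α →ₗ[ZMod 2] Ch α := ∑ x ∈ F, tr act x with hA'
  have hkill : A (bd z) = 0 := by
    refine (Submodule.mem_bot (ZMod 2)).mp ((Submodule.span_le.mpr ?_ :
      Rel act (S : Set G) P (c - 1) ≤ (⊥ : Submodule (ZMod 2) (Ch α)).comap A) hbS)
    rintro x ⟨g, hg, s, hs, rfl⟩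
    rw [SetLike.mem_coe, Submodule.mem_comap, Submodule.mem_bot, map_add, hA',
      LinearMap.sum_apply, LinearMap.sum_apply]
    have e : ∑ x ∈ F, tr act x (sg (s.image (act g))) = ∑ x ∈ F, tr act x (sg s) := by
      conv_rhs => rw [← hFmul g hg, Finset.sum_image fun a _ b _ h => mul_right_cancel h]
      refine Finset.sum_congr rfl fun x _ => ?_
      rw [tr_sg, tr_sg, hA.image_mul]
    rw [e]
    exact add_self' _
  have hbA : bd (A z) = 0 := by
    rw [← hkill, hA', LinearMap.sum_apply, LinearMap.sum_apply, map_sum]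
    exact Finset.sum_congr rfl fun x _ => hA.bd_tr' x z
  have hAz : A z ∈ On (Sz P c) := by
    rw [hA', LinearMap.sum_apply]
    exact Submodule.sum_mem _ fun x _ => tr_Sz hA (hi x) hz
  obtain ⟨w, hw, hwz⟩ := hP c hc (A z) hAz hbA
  refine ⟨w, hw, ?_⟩
  rw [hwz, hA', LinearMap.sum_apply]
  have e : z + ∑ x ∈ F, tr act x z = ∑ x ∈ F, (z + tr act x z) := by
    rw [Finset.sum_add_distrib, Finset.sum_const]
    congr 1
    obtain ⟨r, hr⟩ := hodd
    rw [hr, add_nsmul, mul_nsmul, two_nsmul, add_self', smul_zero, zero_add, one_nsmul]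
  rw [e]
  exact Submodule.sum_mem _ fun x hx => mem_rel_add (hFK hx) hz

/-- an abelian group of odd exponent is locally finite of odd order -/
theorem locallyOdd_of_exponent {K : Subgroup G} {q : ℕ} (hq : Odd q)
    (hcomm : ∀ a ∈ K, ∀ b ∈ K, a * b = b * a) (hexp : ∀ a ∈ K, a ^ q = 1)
    (S : Finset G) (hS : ↑S ⊆ (K : Set G)) :
    ∃ F : Finset G, S ⊆ F ∧ ↑F ⊆ (K : Set G) ∧
      Odd F.card ∧ ∀ g ∈ S, F.image (fun x => x * g) = F := by
  classical
  let L : Subgroup G := Subgroup.closure (S : Set G)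
  have hLK : L ≤ K := (Subgroup.closure_le K).mpr hS
  have hfg : L.FG := ⟨S, rfl⟩
  let : CommGroup L := { (inferInstance : Group L) with
    mul_comm := fun a b => Subtype.ext (hcomm a (hLK a.2) b (hLK b.2)) }
  have : Group.FG L := (Group.fg_iff_subgroup_fg L).mpr hfg
  have hq0 : 0 < q := hq.pos
  have hexp' : ∀ a : L, a ^ q = 1 := fun a => Subtype.ext (by
    rw [SubmonoidClass.coe_pow]; exact hexp _ (hLK a.2))
  have htor : IsMulTorsion L := fun a =>
    isOfFinOrder_iff_pow_eq_one.mpr ⟨q, hq0, hexp' a⟩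
  have : Finite L := CommGroup.finite_of_fg_isMulTorsion L htor
  let : Fintype L := Fintype.ofFinite L
  refine ⟨(L : Set G).toFinset, fun x hx => by simpa using Subgroup.subset_closure hx,
    by simpa using hLK, ?_, fun g hg => ?_⟩
  · have hc : (L : Set G).toFinset.card = Fintype.card L := by
      rw [Set.toFinset_card]
      exact Fintype.card_congr (Equiv.refl _)
    rw [hc]
    by_contra hne
    obtain ⟨x, hx⟩ := exists_prime_orderOf_dvd_card 2
      (Nat.not_odd_iff_even.mp hne).two_dvd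
    have h2 := orderOf_dvd_of_pow_eq_one (hexp' x)
    rw [hx] at h2
    exact (Nat.not_even_iff_odd.mpr hq) (even_iff_two_dvd.mpr h2)
  · have hgL : g ∈ L := Subgroup.subset_closure hg
    ext x
    simp only [Finset.mem_image, Set.mem_toFinset, SetLike.mem_coe]
    exact ⟨fun ⟨y, hy, h⟩ => h ▸ L.mul_mem hy hgL,
      fun hx => ⟨x * g⁻¹, L.mul_mem hx (L.inv_mem hgL), inv_mul_cancel_right x g⟩⟩

end Vale.Agent.P067.KO
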