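import Vale.Agent.P067.KO.OppLink

/-!
# P067: connectedness of links in opposition complexes
-/

namespace Vale.Agent.P067.KO

open Finset Module

variable {k : Type} [Field k] [Fintype k] {M : Type} [AddCommGroup M] [Module k M] [Finite M]

local instance finiteModule' : Module.Finite k M := Module.Finite.of_finite

/-- A good element of an interval. -/
def Good (A B G W : Submodule k M) : Prop :=
  A < W ∧ W < B ∧ (W ⊓ G = A ∨ W ⊔ G = B)

/-- Comparable good elements. -/
def GoodEdge (A B G : Submodule k M) (W W' : Submodule k M) : Prop :=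
  Good A B G W ∧ Good A B G W' ∧ (W ≤ W' ∨ W' ≤ W)

variable {A B G : Submodule k M}

omit [Fintype k] in
theorem point_good (hAG : A ≤ G) (hGB : G ≤ B) {P : Submodule k M} (h1 : A < P) (h2 : P < B)
    (hd : finrank k P = finrank k A + 1) (h : G = A ∨ G = B ∨ ¬P ≤ G) : Good A B G P := by
  refine ⟨h1, h2, ?_⟩
  rcases h with rfl | rfl | h
  · exact Or.inl (inf_eq_right.2 h1.le)
  · exact Or.inr (sup_eq_right.2 h2.le)
  · refine Or.inl (eq_of_rk (le_inf h1.le hAG) ?_).symm
    have := rk_lt (lt_of_le_of_ne inf_le_left fun e => h (e ▸ inf_le_right) : P ⊓ G < P)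
    omega

omit [Fintype k] in
theorem hyper_good (hAG : A ≤ G) (hGB : G ≤ B) {H : Submodule k M} (h1 : A < H) (h2 : H < B)
    (hd : finrank k H + 1 = finrank k B) (h : G = A ∨ G = B ∨ ¬G ≤ H) : Good A B G H := by
  refine ⟨h1, h2, ?_⟩
  rcases h with rfl | rfl | h
  · exact Or.inl (inf_eq_right.2 h1.le)
  · exact Or.inr (sup_eq_right.2 h2.le)
  · refine Or.inr (eq_of_rk (sup_le h2.le hGB) ?_)
    have := rk_lt (left_lt_sup.2 h : H < H ⊔ G)
    omega

omit [Fintype k] in
theorem good_below (hAG : A ≤ G) (hGB : G ≤ B)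
    {W : Submodule k M} (hW : Good A B G W) :
    ∃ P, Good A B G P ∧ finrank k P = finrank k A + 1 ∧ (G = A ∨ G = B ∨ ¬P ≤ G) ∧
      Relation.ReflTransGen (GoodEdge A B G) W P := by
  obtain ⟨h1, h2, hc⟩ := hW
  by_cases hGt : G = A ∨ G = B
  · obtain ⟨P, p1, p2, p3⟩ := exists_step h1
    have hP : Good A B G P := point_good hAG hGB p1 (p2.trans_lt h2) p3 (hGt.imp_right Or.inl)
    exact ⟨P, hP, p3, hGt.imp_right Or.inl, .single ⟨⟨h1, h2, hc⟩, hP, Or.inr p2⟩⟩
  rw [not_or] at hGt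
  rcases hc with hc | hc
  · obtain ⟨P, p1, p2, p3⟩ := exists_step h1
    have hnot : ¬P ≤ G := fun h => p1.not_ge ((le_inf p2 h).trans hc.le)
    have hP : Good A B G P := point_good hAG hGB p1 (p2.trans_lt h2) p3 (.inr (.inr hnot))
    exact ⟨P, hP, p3, .inr (.inr hnot), .single ⟨⟨h1, h2, .inl hc⟩, hP, Or.inr p2⟩⟩
  · have hGW : ¬G ≤ W := fun h => h2.ne (by rw [← hc, sup_eq_left.2 h])
    obtain ⟨H, H1, H2, H3, H4⟩ := exists_hyperplane h2.le hGB hGW
    have hHB : H < B := lt_of_le_of_ne H2 fun e => H4 (e ▸ hGB)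
    have hH : Good A B G H :=
      hyper_good hAG hGB (h1.trans_le H1) hHB H3 (.inr (.inr H4))
    have hHG : ¬H ≤ G := fun h => hGt.2 (le_antisymm hGB (hc ▸ sup_le (H1.trans h) le_rfl))
    obtain ⟨P, p1, p2, p3, p4⟩ := exists_point (hH.1.le) hHG hAG
    have hP : Good A B G P := point_good hAG hGB p1 (p2.trans_lt hHB) p3 (.inr (.inr p4))
    exact ⟨P, hP, p3, .inr (.inr p4), .head ⟨⟨h1, h2, .inr hc⟩, hH, Or.inl H1⟩
      (.single ⟨hH, hP, Or.inr p2⟩)⟩

omit [Fintype k] in
theorem points_join (hAG : A ≤ G) (hGB : G ≤ B) (hg : finrank k A + 3 ≤ finrank k B)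
    {P Q : Submodule k M} (hP : Good A B G P) (hQ : Good A B G Q)
    (dP : finrank k P = finrank k A + 1) (dQ : finrank k Q = finrank k A + 1)
    (hG : G = A ∨ G = B ∨ ¬G ≤ P ⊔ Q) : Relation.ReflTransGen (GoodEdge A B G) P Q := by
  have hd : finrank k (P ⊔ Q : Submodule k M) < finrank k B := by
    have := Submodule.finrank_sup_add_finrank_inf_eq P Q
    have h : finrank k A ≤ finrank k (P ⊓ Q : Submodule k M) :=
      Submodule.finrank_mono (le_inf hP.1.le hQ.1.le)
    omega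
  have hL : P ⊔ Q < B := lt_of_le_of_ne (sup_le hP.2.1.le hQ.2.1.le) fun e => by rw [e] at hd; omega
  obtain ⟨H, hH, hPQ⟩ : ∃ H, Good A B G H ∧ P ⊔ Q ≤ H := by
    by_cases hGt : G = A ∨ G = B
    · obtain ⟨H, H1, H2, H3, H4⟩ := exists_hyperplane hL.le le_rfl hL.not_ge
      exact ⟨H, hyper_good hAG hGB (hP.1.trans_le (le_sup_left.trans H1))
        (lt_of_le_of_ne H2 fun e => H4 e.ge) H3 (hGt.imp_right Or.inl), H1⟩
    · rw [not_or] at hGt
      obtain ⟨H, H1, H2, H3, H4⟩ :=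
        exists_hyperplane hL.le hGB ((hG.resolve_left hGt.1).resolve_left hGt.2)
      exact ⟨H, hyper_good hAG hGB (hP.1.trans_le (le_sup_left.trans H1))
        (lt_of_le_of_ne H2 fun e => H4 (e ▸ hGB)) H3 (.inr (.inr H4)), H1⟩
  exact .head ⟨hP, hH, Or.inl (le_sup_left.trans hPQ)⟩
    (.single ⟨hH, hQ, Or.inr (le_sup_right.trans hPQ)⟩)

omit [Fintype k] in
theorem points_conn (hAG : A ≤ G) (hGB : G ≤ B) (hg : finrank k A + 3 ≤ finrank k B)
    {P Q : Submodule k M} (hP : Good A B G P) (hQ : Good A B G Q)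
    (dP : finrank k P = finrank k A + 1) (dQ : finrank k Q = finrank k A + 1)
    (gP : G = A ∨ G = B ∨ ¬P ≤ G) (gQ : G = A ∨ G = B ∨ ¬Q ≤ G) :
    Relation.ReflTransGen (GoodEdge A B G) P Q := by
  by_cases hG : G = A ∨ G = B ∨ ¬G ≤ P ⊔ Q
  · exact points_join hAG hGB hg hP hQ dP dQ hG
  simp only [not_or, not_not] at hG
  obtain ⟨hGA, hGB', hGL⟩ := hG
  have hP' : ¬P ≤ G := (gP.resolve_left hGA).resolve_left hGB'
  have hQ' : ¬Q ≤ G := (gQ.resolve_left hGA).resolve_left hGB'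
  have hBL : ¬B ≤ P ⊔ Q := fun h => by
    have := Submodule.finrank_sup_add_finrank_inf_eq P Q
    have h' : finrank k A ≤ finrank k (P ⊓ Q : Submodule k M) :=
      Submodule.finrank_mono (le_inf hP.1.le hQ.1.le)
    have := Submodule.finrank_mono h
    omega
  obtain ⟨R, r1, r2, r3, r4⟩ := exists_point (hAG.trans hGB) hBL (hP.1.le.trans le_sup_left)
  have hRG : ¬R ≤ G := fun h => r4 (h.trans hGL)
  have hR : Good A B G R :=
    point_good hAG hGB r1 (lt_of_le_of_ne r2 fun e => by rw [e] at r3; omega) r3 (.inr (.inr hRG))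
  have key : ∀ X : Submodule k M, Good A B G X → finrank k X = finrank k A + 1 → X ≤ P ⊔ Q →
      ¬X ≤ G → ¬G ≤ X ⊔ R := by
    intro X hX dX hXL hXG h
    have hlt : (X ⊔ R) ⊓ (P ⊔ Q) < X ⊔ R :=
      lt_of_le_of_ne inf_le_left fun e => r4 (le_sup_right.trans (e.ge.trans inf_le_right))
    have hXI : X ≤ (X ⊔ R) ⊓ (P ⊔ Q) := le_inf le_sup_left hXL
    have hd := Submodule.finrank_sup_add_finrank_inf_eq X R
    have hA' : finrank k A ≤ finrank k (X ⊓ R : Submodule k M) :=
      Submodule.finrank_mono (le_inf hX.1.le r1.le)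
    have he := eq_of_rk hXI (by have := rk_lt hlt; omega)
    have hGX : G ≤ X := (le_inf h hGL).trans he.ge
    have hAG' : A < G := lt_of_le_of_ne hAG (Ne.symm hGA)
    have hGX' := eq_of_rk hGX (by have := rk_lt hAG'; omega)
    exact hXG hGX'.ge
  exact (points_join hAG hGB hg hP hR dP r3 (.inr (.inr (key P hP dP le_sup_left hP')))).trans
    (points_join hAG hGB hg hR hQ r3 dQ
      (.inr (.inr (by rw [sup_comm]; exact key Q hQ dQ le_sup_right hQ'))))

variable [DecidableEq (Submodule k M)]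

theorem conn_link (hpure : OppPureOn k M) {F : Submodule k M} {τ : Finset (Submodule k M)} {n : ℕ}
    (hn : finrank k M = n) (hτ : OppFace F τ) (hc : τ.card + 4 ≤ n) :
    Conn (link (oppTops F) τ) := by
  intro u v hu hv
  rw [linkVert_iff hpure hτ] at hu hv
  obtain ⟨A, B, hAB, hAu, huB⟩ := exists_adj hτ hu
  by_cases hin : A < v ∧ v < B
  swap
  · refine .single (link_edge hpure hτ hu hv ?_)
    rcases adj_outside hAB hv hin with h | h
    exacts [Or.inr (h.trans hAu.le), Or.inl (huB.le.trans h)]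
  obtain ⟨T, hT, hTsub⟩ := hpure F _ hτ
  obtain ⟨hTf, hTc⟩ := mem_oppTops_iff.1 hT
  have hRvert : ∀ R ∈ T \ τ, LinkVert F τ R := fun R hR =>
    ⟨(mem_sdiff.1 hR).2, hTf.1 R (mem_sdiff.1 hR).1, fun x hx =>
      hTf.2 x (hTsub hx) R (mem_sdiff.1 hR).1⟩
  by_cases hout : ∃ R ∈ T \ τ, ¬(A < R ∧ R < B)
  · obtain ⟨R, hR, hRo⟩ := hout
    have hRv := hRvert R hR
    rcases adj_outside hAB hRv hRo with h | h
    · exact .head (link_edge hpure hτ hu hRv (Or.inr (h.trans hAu.le)))
        (.single (link_edge hpure hτ hRv hv (Or.inl (h.trans hin.1.le))))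
    · exact .head (link_edge hpure hτ hu hRv (Or.inl (huB.le.trans h)))
        (.single (link_edge hpure hτ hRv hv (Or.inr (hin.2.le.trans h))))
  replace hout : ∀ R ∈ T \ τ, A < R ∧ R < B := fun R hR => by_contra fun h => hout ⟨R, hR, h⟩
  have hg : finrank k A + 3 ≤ finrank k B := by
    have hinj : Set.InjOn (fun R : Submodule k M => finrank k R) (T \ τ : Finset _) := by
      intro R hR R' hR' he
      simp only [coe_sdiff, Set.mem_sdiff, mem_coe] at hR hR'
      rcases hTf.2 R hR.1 R' hR'.1 with h | h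
      exacts [eq_of_rk h he.ge, (eq_of_rk h he.le).symm]
    have hsub : (T \ τ).image (fun R : Submodule k M => finrank k R) ⊆
        Finset.Ioo (finrank k A) (finrank k B) := by
      intro x hx
      obtain ⟨R, hR, rfl⟩ := mem_image.1 hx
      exact mem_Ioo.2 ⟨rk_lt (hout R hR).1, rk_lt (hout R hR).2⟩
    have := card_le_card hsub
    rw [card_image_of_injOn hinj, card_sdiff_of_subset hTsub, Nat.card_Ioo] at this
    omega
  set G := F ⊓ B ⊔ A with hG
  have hAG : A ≤ G := le_sup_right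
  have hGB : G ≤ B := sup_le inf_le_right hAB.2.2.1.le
  have hgood : ∀ W, Good A B G W ↔ A < W ∧ W < B ∧ Trans F W := fun W =>
    and_congr_right fun h1 => and_congr_right fun h2 =>
      (trans_iff (ext_trans hτ hAB.1) (ext_trans hτ hAB.2.1) h1.le h2.le).symm
  obtain ⟨P, hP, dP, gP, pathP⟩ := good_below hAG hGB ((hgood u).2 ⟨hAu, huB, hu.2.1.2.2⟩)
  obtain ⟨Q, hQ, dQ, gQ, pathQ⟩ := good_below hAG hGB ((hgood v).2 ⟨hin.1, hin.2, hv.2.1.2.2⟩)
  have hrev : ∀ a b, Relation.ReflTransGen (GoodEdge A B G) a b →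
      Relation.ReflTransGen (GoodEdge A B G) b a := fun a b h => by
    induction h with
    | refl => exact .refl
    | tail _ h ih => exact .head ⟨h.2.1, h.1, h.2.2.symm⟩ ih
  have hpath := (pathP.trans (points_conn hAG hGB hg hP hQ dP dQ gP gQ)).trans
    (hrev _ _ pathQ)
  have key : ∀ a b, Relation.ReflTransGen (GoodEdge A B G) a b →
      Relation.ReflTransGen (fun a b => IsFace (link (oppTops F) τ) {a, b}) a b := fun a b h => by
    induction h with
    | refl => exact .refl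
    | @tail c d _ h ih =>
      obtain ⟨hc', hd, hcd⟩ := h
      rw [hgood] at hc' hd
      exact .tail ih (link_edge hpure hτ (adj_vert hAB hc'.1 hc'.2.1 hc'.2.2)
        (adj_vert hAB hd.1 hd.2.1 hd.2.2) hcd)
  exact key u v hpath

end Vale.Agent.P067.KO
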