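import Vale.Agent.P067.KO.Opp

/-!
# P067: transversal subspaces in an interval
-/

namespace Vale.Agent.P067.KO

open Finset Module

variable {k : Type*} [Field k] [Fintype k] {M : Type*} [AddCommGroup M] [Module k M] [Finite M]

local instance finiteModule : Module.Finite k M := Module.Finite.of_finite

omit [Finite M] [Fintype k] in
theorem trans_bot (F : Submodule k M) : Trans F ⊥ := Or.inl (bot_inf_eq _)

omit [Finite M] [Fintype k] in
theorem trans_top (F : Submodule k M) : Trans F ⊤ := Or.inr (top_sup_eq _)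

omit [Finite M] [Fintype k] in
/-- Between two transversal subspaces transversality is relative to one subspace of the interval. -/
theorem trans_iff {F A B W : Submodule k M} (hA : Trans F A) (hB : Trans F B) (h1 : A ≤ W)
    (h2 : W ≤ B) : Trans F W ↔ W ⊓ (F ⊓ B ⊔ A) = A ∨ W ⊔ (F ⊓ B ⊔ A) = B := by
  have key1 : W ⊓ (F ⊓ B ⊔ A) = (W ⊓ F) ⊔ A := by
    rw [inf_comm W, sup_comm, sup_inf_assoc_of_le _ h1, sup_comm (W ⊓ F)]
    congr 1
    rw [inf_assoc, inf_eq_right.2 h2, inf_comm]
  have key2 : W ⊔ (F ⊓ B ⊔ A) = (W ⊔ F) ⊓ B := by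
    rw [sup_comm (F ⊓ B), ← sup_assoc, sup_eq_left.2 h1, sup_inf_assoc_of_le _ h2]
  rw [key1, key2]
  by_cases hAt : A ⊔ F = ⊤
  · refine iff_of_true (Or.inr (top_unique (hAt.ge.trans (sup_le_sup_right h1 F)))) (Or.inr ?_)
    rw [top_unique (hAt.ge.trans (sup_le_sup_right h1 F)), top_inf_eq]
  by_cases hBb : B ⊓ F = ⊥
  · refine iff_of_true (Or.inl (eq_bot_iff.2 (hBb ▸ inf_le_inf_right F h2))) (Or.inl ?_)
    rw [eq_bot_iff.2 (hBb ▸ inf_le_inf_right F h2 : W ⊓ F ≤ ⊥), bot_sup_eq]
  have hA0 : A ⊓ F = ⊥ := hA.resolve_right hAt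
  have hB1 : B ⊔ F = ⊤ := hB.resolve_left hBb
  refine or_congr ⟨fun h => by rw [h, bot_sup_eq], fun h => ?_⟩ ⟨fun h => by rw [h, top_inf_eq],
    fun h => ?_⟩
  · have hle : W ⊓ F ≤ A ⊓ F := le_inf (le_sup_left.trans h.le) inf_le_right
    exact eq_bot_iff.2 (hA0 ▸ hle)
  · refine top_unique (hB1 ▸ sup_le ?_ le_sup_right)
    rw [← h]
    exact inf_le_left

omit [Fintype k] in
theorem rk_lt {A B : Submodule k M} (h : A < B) : finrank k A < finrank k B :=
  Submodule.finrank_lt_finrank_of_lt h

omit [Fintype k] in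
theorem eq_of_rk {A B : Submodule k M} (h : A ≤ B) (hd : finrank k B ≤ finrank k A) : A = B :=
  Submodule.eq_of_le_of_finrank_le h hd

omit [Fintype k] in
theorem exists_step {A B : Submodule k M} (h : A < B) :
    ∃ P, A < P ∧ P ≤ B ∧ finrank k P = finrank k A + 1 := by
  obtain ⟨x, hxB, hxA⟩ := SetLike.exists_of_lt h
  refine ⟨A ⊔ Submodule.span k {x}, ?_, sup_le h.le ((Submodule.span_singleton_le_iff_mem x B).2 hxB),
    Submodule.finrank_sup_span_singleton hxA⟩
  exact left_lt_sup.2 fun hle => hxA ((Submodule.span_singleton_le_iff_mem x A).1 hle)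

omit [Fintype k] in
/-- A point outside `G`. -/
theorem exists_point {A B G : Submodule k M} (hA : A ≤ B) (hG : ¬B ≤ G) (hAG : A ≤ G) :
    ∃ P, A < P ∧ P ≤ B ∧ finrank k P = finrank k A + 1 ∧ ¬P ≤ G := by
  obtain ⟨x, hxB, hxG⟩ := SetLike.not_le_iff_exists.1 hG
  have hxA : x ∉ A := fun h => hxG (hAG h)
  refine ⟨A ⊔ Submodule.span k {x}, ?_,
    sup_le hA ((Submodule.span_singleton_le_iff_mem x B).2 hxB),
    Submodule.finrank_sup_span_singleton hxA, fun h => ?_⟩
  · exact left_lt_sup.2 fun hle => hxA ((Submodule.span_singleton_le_iff_mem x A).1 hle)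
  · exact hxG (h (Submodule.mem_sup_right (Submodule.mem_span_singleton_self x)))

omit [Fintype k] in
/-- A hyperplane of `B` over `L` avoiding `R`. -/
theorem exists_hyperplane {L B R : Submodule k M} (hL : L ≤ B) (hR : R ≤ B) (hRL : ¬R ≤ L) :
    ∃ H, L ≤ H ∧ H ≤ B ∧ finrank k H + 1 = finrank k B ∧ ¬R ≤ H := by
  classical
  have : Fintype (Submodule k M) := Fintype.ofFinite _
  obtain ⟨H, hH⟩ := (univ.filter fun H => L ≤ H ∧ H ≤ B ∧ ¬R ≤ H).exists_maximal
    ⟨L, by simp [hL, hRL]⟩
  obtain ⟨hmem, hmax⟩ := hH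
  simp only [mem_filter, mem_univ, true_and] at hmem
  obtain ⟨h1, h2, h3⟩ := hmem
  refine ⟨H, h1, h2, ?_, h3⟩
  have hlt : H < B := lt_of_le_of_ne h2 fun h => h3 (h ▸ hR)
  obtain ⟨S, hS1, hS2, hS3⟩ := exists_step hlt
  by_contra hne
  have hSB : finrank k S < finrank k B := by have := rk_lt hlt; omega
  obtain ⟨T, hT1, hT2, hT3⟩ := exists_step (lt_of_le_of_ne hS2 fun h => by rw [h] at hSB; omega)
  have hRS : R ≤ S := by
    by_contra hRS
    exact hS1.not_ge (hmax (by simp [h1.trans hS1.le, hS2, hRS]) hS1.le)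
  obtain ⟨y, hyT, hyS⟩ := SetLike.exists_of_lt hT1
  have hyH : y ∉ H := fun h => hyS (hS1.le h)
  set U := H ⊔ Submodule.span k {y} with hU
  have hUd : finrank k U = finrank k H + 1 := Submodule.finrank_sup_span_singleton hyH
  have hRU : R ≤ U := by
    by_contra hRU
    have hle : H < U := left_lt_sup.2 fun hle =>
      hyH ((Submodule.span_singleton_le_iff_mem y H).1 hle)
    exact hle.not_ge (hmax (by
      simp only [mem_filter, mem_univ, true_and]
      exact ⟨h1.trans hle.le,
        sup_le h2 ((Submodule.span_singleton_le_iff_mem y B).2 (hT2 hyT)), hRU⟩) hle.le)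
  have hsup : H < H ⊔ R := left_lt_sup.2 h3
  have e1 := eq_of_rk (sup_le hS1.le hRS) (by have := rk_lt hsup; omega)
  have e2 := eq_of_rk (sup_le le_sup_left hRU : H ⊔ R ≤ U) (by have := rk_lt hsup; omega)
  exact hyS (e1 ▸ e2 ▸ Submodule.mem_sup_right (Submodule.mem_span_singleton_self y))

theorem natCard_submodule (W : Submodule k M) :
    Nat.card W = Fintype.card k ^ finrank k W := by
  rw [Module.natCard_eq_pow_finrank (K := k), Nat.card_eq_fintype_card]

/-- The subspaces strictly between two of codimension two. -/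
theorem card_middle [Fintype (Submodule k M)] [DecidableEq (Submodule k M)] {L U : Submodule k M}
    (h : L ≤ U) (hd : finrank k U = finrank k L + 2) [DecidablePred fun W : Submodule k M =>
      L < W ∧ W < U] :
    (univ.filter fun W => L < W ∧ W < U).card = Fintype.card k + 1 := by
  classical
  have : Fintype M := Fintype.ofFinite M
  set q := Fintype.card k with hq
  have hq1 : 1 < q := Fintype.one_lt_card
  set S : Finset M := univ.filter fun x => x ∈ U ∧ x ∉ L with hS
  set Mid := univ.filter fun W : Submodule k M => L < W ∧ W < U with hMid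
  have hcount : ∀ W : Submodule k M, (univ.filter fun x : M => x ∈ W).card = q ^ finrank k W :=
    fun W => by rw [← natCard_submodule, Nat.card_eq_fintype_card, Fintype.card_subtype]
  have hdiff : ∀ W : Submodule k M, L ≤ W →
      (univ.filter fun x : M => x ∈ W ∧ x ∉ L).card = q ^ finrank k W - q ^ finrank k L := by
    intro W hW
    rw [← hcount, ← hcount, ← card_sdiff_of_subset (fun x hx => by
      simp only [mem_filter, mem_univ, true_and] at hx ⊢
      exact hW hx)]
    congr 1
    ext x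
    simp
  have hmaps : ∀ x ∈ S, L ⊔ Submodule.span k {x} ∈ Mid := by
    intro x hx
    simp only [hS, mem_filter, mem_univ, true_and] at hx
    simp only [hMid, mem_filter, mem_univ, true_and]
    refine ⟨left_lt_sup.2 fun hle => hx.2 ((Submodule.span_singleton_le_iff_mem x L).1 hle),
      lt_of_le_of_ne (sup_le h ((Submodule.span_singleton_le_iff_mem x U).2 hx.1)) fun he => ?_⟩
    have := Submodule.finrank_sup_span_singleton (K := k) hx.2
    rw [he] at this
    omega
  have hfib : ∀ W ∈ Mid, (S.filter fun x => L ⊔ Submodule.span k {x} = W).card =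
      q ^ (finrank k L + 1) - q ^ finrank k L := by
    intro W hW
    simp only [hMid, mem_filter, mem_univ, true_and] at hW
    have h1 := rk_lt hW.1
    have h2 := rk_lt hW.2
    rw [show finrank k L + 1 = finrank k W by omega, ← hdiff W hW.1.le]
    congr 1
    ext x
    simp only [hS, mem_filter, mem_univ, true_and]
    constructor
    · rintro ⟨⟨-, hxL⟩, rfl⟩
      exact ⟨Submodule.mem_sup_right (Submodule.mem_span_singleton_self x), hxL⟩
    · rintro ⟨hxW, hxL⟩
      refine ⟨⟨hW.2.le hxW, hxL⟩, eq_of_rk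
        (sup_le hW.1.le ((Submodule.span_singleton_le_iff_mem x W).2 hxW)) ?_⟩
      rw [Submodule.finrank_sup_span_singleton hxL]
      omega
  have htot := card_eq_sum_card_fiberwise hmaps
  rw [sum_congr rfl hfib, sum_const, smul_eq_mul, hdiff U h, hd] at htot
  set a := finrank k L
  have hpos : 0 < q ^ (a + 1) - q ^ a := Nat.sub_pos_of_lt (Nat.pow_lt_pow_right hq1 (by omega))
  refine Nat.eq_of_mul_eq_mul_right hpos (htot.symm.trans ?_)
  have l1 : q ^ a ≤ q ^ (a + 1) := Nat.pow_le_pow_right (by omega) (by omega)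
  have l2 : q ^ a ≤ q ^ (a + 2) := Nat.pow_le_pow_right (by omega) (by omega)
  zify [l1, l2]
  ring

end Vale.Agent.P067.KO
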