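import Vale.Agent.P067.KO.Pins
import Vale.Agent.P067.KO.OppInterval

/-!
# P067: vertices and edges of links in opposition complexes, and connectedness
-/

namespace Vale.Agent.P067.KO

open Finset Module

variable {k : Type} [Field k] [Fintype k] {M : Type} [AddCommGroup M] [Module k M] [Finite M]
variable {F : Submodule k M} {τ : Finset (Submodule k M)} {n : ℕ}

/-- A vertex of the link of `τ`. -/
def LinkVert (F : Submodule k M) (τ : Finset (Submodule k M)) (W : Submodule k M) : Prop :=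
  W ∉ τ ∧ IsOppVert F W ∧ ∀ x ∈ τ, x ≤ W ∨ W ≤ x

omit [Fintype k] in
theorem mem_oppTops_iff {s : Finset (Submodule k M)} :
    s ∈ oppTops F ↔ OppFace F s ∧ s.card + 1 = finrank k M := by
  classical
  rw [oppTops]
  simp

variable [DecidableEq (Submodule k M)]

/-- purity of the opposition complexes in one space -/
def OppPureOn (k : Type) [Field k] [Fintype k] (M : Type) [AddCommGroup M] [Module k M]
    [Finite M] : Prop :=
  ∀ (F : Submodule k M) (τ : Finset (Submodule k M)), OppFace F τ → ∃ T ∈ oppTops F, τ ⊆ T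

omit [Fintype k] [Finite M] [DecidableEq (Submodule k M)] in
theorem oppFace_down {s t : Finset (Submodule k M)} (h : OppFace F s) (hts : t ⊆ s) :
    OppFace F t :=
  ⟨fun W hW => h.1 W (hts hW), fun W hW W' hW' => h.2 W (hts hW) W' (hts hW')⟩

theorem link_face_iff (hpure : OppPureOn k M) {s : Finset (Submodule k M)} :
    IsFace (link (oppTops F) τ) s ↔ Disjoint s τ ∧ OppFace F (s ∪ τ) := by
  constructor
  · rintro ⟨T', hT', hs⟩
    obtain ⟨T, hT, rfl⟩ := mem_image.1 hT'
    obtain ⟨hT1, hT2⟩ := mem_filter.1 hT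
    exact ⟨disjoint_of_subset_left hs sdiff_disjoint,
      oppFace_down (mem_oppTops_iff.1 hT1).1 (union_subset (hs.trans sdiff_subset) hT2)⟩
  · rintro ⟨hd, hf⟩
    obtain ⟨T, hT, hsub⟩ := hpure F _ hf
    exact ⟨T \ τ, mem_image.2 ⟨T, mem_filter.2 ⟨hT, (subset_union_right).trans hsub⟩, rfl⟩,
      subset_sdiff.2 ⟨subset_union_left.trans hsub, hd⟩⟩

theorem linkVert_iff (hpure : OppPureOn k M) (hτ : OppFace F τ) {W : Submodule k M} :
    IsFace (link (oppTops F) τ) {W} ↔ LinkVert F τ W := by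
  rw [link_face_iff hpure, disjoint_singleton_left, singleton_union]
  constructor
  · rintro ⟨h1, h2⟩
    exact ⟨h1, h2.1 W (mem_insert_self W τ), fun x hx =>
      h2.2 x (mem_insert_of_mem hx) W (mem_insert_self W τ)⟩
  · rintro ⟨h1, h2, h3⟩
    refine ⟨h1, fun x hx => ?_, fun x hx y hy => ?_⟩
    · rcases mem_insert.1 hx with rfl | hx
      exacts [h2, hτ.1 x hx]
    · rcases mem_insert.1 hx with rfl | hx'
      · rcases mem_insert.1 hy with rfl | hy'
        exacts [Or.inl le_rfl, (h3 y hy').symm]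
      · rcases mem_insert.1 hy with rfl | hy'
        exacts [h3 x hx', hτ.2 x hx' y hy']

theorem link_edge (hpure : OppPureOn k M) (hτ : OppFace F τ) {W W' : Submodule k M}
    (h : LinkVert F τ W) (h' : LinkVert F τ W') (hc : W ≤ W' ∨ W' ≤ W) :
    IsFace (link (oppTops F) τ) {W, W'} := by
  rw [link_face_iff hpure]
  refine ⟨by simp [h.1, h'.1], fun x hx => ?_, fun x hx y hy => ?_⟩
  · simp only [mem_union, mem_insert, mem_singleton] at hx
    rcases hx with (rfl | rfl) | hx
    exacts [h.2.1, h'.2.1, hτ.1 x hx]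
  · simp only [mem_union, mem_insert, mem_singleton] at hx hy
    rcases hx with (rfl | rfl) | hx <;> rcases hy with (rfl | rfl) | hy
    exacts [Or.inl le_rfl, hc, (h.2.2 y hy).symm, hc.symm, Or.inl le_rfl, (h'.2.2 y hy).symm,
      h.2.2 x hx, h'.2.2 x hx, hτ.2 x hx y hy]

/-- The chain `τ` with both ends. -/
def ext (τ : Finset (Submodule k M)) : Finset (Submodule k M) := insert ⊥ (insert ⊤ τ)

omit [Fintype k] [Finite M] in
theorem ext_trans (hτ : OppFace F τ) {x : Submodule k M} (hx : x ∈ ext τ) : Trans F x := by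
  rcases mem_insert.1 hx with rfl | hx
  · exact trans_bot F
  rcases mem_insert.1 hx with rfl | hx
  exacts [trans_top F, (hτ.1 x hx).2.2]

omit [Fintype k] [Finite M] in
theorem ext_comp {W : Submodule k M} (h : ∀ x ∈ τ, x ≤ W ∨ W ≤ x) {x : Submodule k M}
    (hx : x ∈ ext τ) : x ≤ W ∨ W ≤ x := by
  rcases mem_insert.1 hx with rfl | hx
  · exact Or.inl bot_le
  rcases mem_insert.1 hx with rfl | hx
  exacts [Or.inr le_top, h x hx]

omit [Fintype k] [Finite M] in
theorem ext_chain (hτ : OppFace F τ) {x y : Submodule k M} (hx : x ∈ ext τ) (hy : y ∈ ext τ) :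
    x ≤ y ∨ y ≤ x := by
  refine ext_comp (fun z hz => ?_) hx
  exact (ext_comp (fun w hw => hτ.2 w hw z hz) hy).symm

/-- Consecutive members of the chain. -/
def Adj (τ : Finset (Submodule k M)) (A B : Submodule k M) : Prop :=
  A ∈ ext τ ∧ B ∈ ext τ ∧ A < B ∧ ∀ x ∈ ext τ, x ≤ A ∨ B ≤ x

theorem exists_adj (hτ : OppFace F τ) {W : Submodule k M} (hW : LinkVert F τ W) :
    ∃ A B, Adj τ A B ∧ A < W ∧ W < B := by
  classical
  have hne : ∀ x ∈ ext τ, x ≠ W := by
    intro x hx he
    subst he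
    rcases mem_insert.1 hx with rfl | hx
    · exact hW.2.1.1 rfl
    rcases mem_insert.1 hx with rfl | hx
    exacts [hW.2.1.2.1 rfl, hW.1 hx]
  obtain ⟨A, hA, hAmax⟩ := ((ext τ).filter fun x => x < W).exists_maximal
    ⟨⊥, by simp [ext, bot_lt_iff_ne_bot, hW.2.1.1]⟩
  obtain ⟨B, hB, hBmin⟩ := ((ext τ).filter fun x => W < x).exists_minimal
    ⟨⊤, by simp [ext, lt_top_iff_ne_top, hW.2.1.2.1]⟩
  rw [mem_filter] at hA hB
  refine ⟨A, B, ⟨hA.1, hB.1, hA.2.trans hB.2, fun x hx => ?_⟩, hA.2, hB.2⟩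
  rcases ext_comp hW.2.2 hx with h | h
  · refine Or.inl ?_
    have hlt := lt_of_le_of_ne h (hne x hx)
    rcases ext_chain hτ hx hA.1 with h' | h'
    exacts [h', hAmax (mem_filter.2 ⟨hx, hlt⟩) h']
  · refine Or.inr ?_
    have hlt := lt_of_le_of_ne h (hne x hx).symm
    rcases ext_chain hτ hB.1 hx with h' | h'
    exacts [h', hBmin (mem_filter.2 ⟨hx, hlt⟩) h']

omit [Fintype k] [Finite M] in
theorem adj_vert {A B W : Submodule k M} (h : Adj τ A B) (h1 : A < W) (h2 : W < B)
    (hT : Trans F W) : LinkVert F τ W := by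
  have hext : ∀ x ∈ τ, x ∈ ext τ := fun x hx => mem_insert_of_mem (mem_insert_of_mem hx)
  refine ⟨fun hW => ?_, ⟨(bot_le.trans_lt h1).ne', (h2.trans_le le_top).ne, hT⟩, fun x hx => ?_⟩
  · rcases h.2.2.2 W (hext W hW) with h' | h'
    exacts [h1.not_ge h', h2.not_ge h']
  · rcases h.2.2.2 x (hext x hx) with h' | h'
    exacts [Or.inl (h'.trans h1.le), Or.inr (h2.le.trans h')]

omit [Fintype k] [Finite M] in
theorem adj_outside {A B W : Submodule k M} (h : Adj τ A B) (hW : LinkVert F τ W)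
    (hout : ¬(A < W ∧ W < B)) : W ≤ A ∨ B ≤ W := by
  by_contra hcon
  rw [not_or] at hcon
  refine hout ⟨?_, ?_⟩
  · rcases ext_comp hW.2.2 h.1 with h' | h'
    exacts [lt_of_le_of_ne h' fun e => hcon.1 e.ge, absurd h' hcon.1]
  · rcases ext_comp hW.2.2 h.2.1 with h' | h'
    exacts [absurd h' hcon.2, lt_of_le_of_ne h' fun e => hcon.2 e.ge]

end Vale.Agent.P067.KO
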