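import Vale.Agent.P067.KO.OppConn
import Vale.Agent.P067.KO.Trickle
import Vale.Agent.P067.Exp.Bipartite

/-!
# P067: rank two links as bipartite graphs
-/

namespace Vale.Agent.P067.KO

open Finset Exp

theorem hasGap_mono {V : Type*} [Fintype V] {w : V → V → ℝ} (h0 : ∀ u v, 0 ≤ w u v) {a b : ℝ}
    (hab : a ≤ b) (h : HasGap w a) : HasGap w b := fun f hf =>
  (h f hf).trans (mul_le_mul_of_nonneg_right hab
    (sum_nonneg fun v _ => mul_nonneg (sum_nonneg fun u _ => h0 v u) (sq_nonneg _)))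

theorem incGraph_nonneg {P Q : Type*} (inc : P → Q → Prop) [DecidableRel inc] :
    ∀ u v, 0 ≤ incGraph inc u v := by
  intro u v
  rcases u with u | u <;> rcases v with v | v <;> simp only [incGraph] <;>
    first | exact le_rfl | (split_ifs <;> norm_num)

theorem hasGap_equiv {V W : Type*} [Fintype V] [Fintype W] (e : V ≃ W) {w : W → W → ℝ}
    {w' : V → V → ℝ} (h : ∀ a b, w (e a) (e b) = w' a b) {lam : ℝ} (hg : HasGap w' lam) :
    HasGap w lam := by
  intro f hf
  have hdeg : ∀ a, wdeg w (e a) = wdeg w' a := fun a => by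
    rw [wdeg, wdeg, ← e.sum_comp]
    exact sum_congr rfl fun b _ => h a b
  have h1 : ∑ a, wdeg w' a * f (e a) = 0 := by
    rw [← hf, ← e.sum_comp (fun v => wdeg w v * f v)]
    simp only [hdeg]
  have h2 := hg (fun a => f (e a)) h1
  have e1 : wform w' (fun a => f (e a)) = wform w f := by
    simp only [wform]
    rw [← e.sum_comp (fun u => ∑ v, w u v * f u * f v)]
    refine sum_congr rfl fun a _ => ?_
    rw [← e.sum_comp (fun v => w (e a) v * f (e a) * f v)]
    simp only [h]
  rw [e1] at h2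
  refine h2.trans (le_of_eq ?_)
  rw [← e.sum_comp (fun v => wdeg w v * f v ^ 2)]
  simp only [hdeg]

variable {V : Type} [DecidableEq V]

/-- A complex of pairs between two sides has the gap of its incidence graph. -/
theorem gap_bipartite {P Q : Finset V} (hPQ : Disjoint P Q) (inc : V → V → Prop)
    [DecidableRel inc] {lam : ℝ} {Z : Finset (Finset V)}
    (hZ : Z = ((P ×ˢ Q).filter fun z => inc z.1 z.2).image fun z => {z.1, z.2})
    (hg : HasGap (incGraph fun (x : ↥P) (y : ↥Q) => inc x y) lam) : Gap lam Z := by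
  rcases Z.eq_empty_or_nonempty with h | hne
  · intro φ
    simp [h, kf]
  have hpair : ∀ T ∈ Z, ∃ x ∈ P, ∃ y ∈ Q, inc x y ∧ T = {x, y} := fun T hT => by
    rw [hZ] at hT
    obtain ⟨z, hz, rfl⟩ := mem_image.1 hT
    obtain ⟨h1, h2⟩ := mem_filter.1 hz
    obtain ⟨h3, h4⟩ := mem_product.1 h1
    exact ⟨z.1, h3, z.2, h4, h2, rfl⟩
  have htop : TopCard 2 Z := fun T hT => by
    obtain ⟨x, hx, y, hy, -, rfl⟩ := hpair T hT
    exact card_pair (disjoint_left.1 hPQ hx |> fun h e => h (e ▸ hy))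
  have hG : ∀ T ∈ Z, T ⊆ P ∪ Q := fun T hT => by
    obtain ⟨x, hx, y, hy, -, rfl⟩ := hpair T hT
    simp [insert_subset_iff, hx, hy]
  have hlink : link Z ∅ = Z := by simp [link]
  have hcnt : 0 < LG.cnt (onG (P ∪ Q) Z) ∅ := by
    rw [cnt_onG hG]
    simpa [LG.cnt] using hne
  have key := gap_iff (G := P ∪ Q) hG htop (s := ∅) hcnt (c := 2) (by simp) le_rfl lam
  rw [map_empty, hlink] at key
  refine key.2 ?_
  have hw : ∀ a b, linkW Z ∅ a b = if a ≠ b ∧ ({a, b} : Finset V) ∈ Z then 1 else 0 := by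
    intro a b
    unfold linkW
    by_cases hab : a = b
    · simp [hab]
    by_cases hm : ({a, b} : Finset V) ∈ Z
    · rw [if_pos ⟨hab, notMem_empty _, notMem_empty _⟩, if_pos ⟨hab, hm⟩, LG.cnt]
      have : Z.filter (fun T => insert a (insert b (∅ : Finset V)) ⊆ T) = {({a, b} : Finset V)} := by
        ext T
        simp only [mem_filter, mem_singleton, insert_empty_eq]
        constructor
        · rintro ⟨hT, hs⟩
          exact (eq_of_subset_of_card_le hs (by rw [htop T hT, card_pair hab])).symm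
        · rintro rfl
          exact ⟨hm, subset_rfl⟩
      rw [this]
      simp
    · rw [if_pos ⟨hab, notMem_empty _, notMem_empty _⟩, if_neg fun h => hm h.2, LG.cnt,
        filter_eq_empty_iff.2 fun T hT hs => hm ?_]
      · simp
      · simp only [insert_empty_eq] at hs
        rwa [eq_of_subset_of_card_le hs (by rw [htop T hT, card_pair hab])]
  have hne' : ∀ (x : ↥P) (y : ↥Q), x.1 ≠ y.1 := fun x y e =>
    disjoint_left.1 hPQ x.2 (e ▸ y.2)
  have hmemZ : ∀ (x : ↥P) (y : ↥Q), ({x.1, y.1} : Finset V) ∈ Z ↔ inc x y := by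
    intro x y
    constructor
    · intro h
      obtain ⟨a, ha, b, hb, hab, he⟩ := hpair _ h
      have hx : x.1 ∈ ({a, b} : Finset V) := he ▸ mem_insert_self _ _
      have hy : y.1 ∈ ({a, b} : Finset V) := he ▸ by simp
      simp only [mem_insert, mem_singleton] at hx hy
      have hxb : x.1 ≠ b := fun e => disjoint_left.1 hPQ x.2 (e ▸ hb)
      have hya : y.1 ≠ a := fun e => disjoint_left.1 hPQ ha (e ▸ y.2)
      rwa [hx.resolve_right hxb, hy.resolve_left hya]
    · intro h
      rw [hZ]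
      exact mem_image.2 ⟨(x, y), mem_filter.2 ⟨mem_product.2 ⟨x.2, y.2⟩, h⟩, rfl⟩
  let e : ↥P ⊕ ↥Q ≃ {x // x ∈ P ∪ Q} :=
    Equiv.ofBijective (Sum.elim (fun x => ⟨x.1, mem_union_left _ x.2⟩)
      fun y => ⟨y.1, mem_union_right _ y.2⟩)
      ⟨by
        rintro (a | a) (b | b) h <;> simp only [Sum.elim_inl, Sum.elim_inr, Subtype.mk.injEq] at h
        · rw [Subtype.ext h]
        · exact absurd h (hne' a b)
        · exact absurd h.symm (hne' b a)
        · rw [Subtype.ext h],
      fun ⟨v, hv⟩ => by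
        rcases mem_union.1 hv with h | h
        · exact ⟨Sum.inl ⟨v, h⟩, rfl⟩
        · exact ⟨Sum.inr ⟨v, h⟩, rfl⟩⟩
  refine hasGap_equiv e (fun a b => ?_) hg
  rw [linkW_onG hG, map_empty, hw]
  rcases a with a | a <;> rcases b with b | b <;>
    simp only [e, Equiv.ofBijective_apply, Sum.elim_inl, Sum.elim_inr, incGraph]
  · rw [if_neg]
    rintro ⟨hne, hm⟩
    obtain ⟨x, -, y, hy, -, he⟩ := hpair _ hm
    have hy' : y ∈ ({a.1, b.1} : Finset V) := he ▸ by simp
    simp only [mem_insert, mem_singleton] at hy'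
    rcases hy' with rfl | rfl
    exacts [disjoint_left.1 hPQ a.2 hy, disjoint_left.1 hPQ b.2 hy]
  · by_cases h : inc a b
    · rw [if_pos h, if_pos ⟨hne' a b, (hmemZ a b).2 h⟩]
    · rw [if_neg h, if_neg fun h' => h ((hmemZ a b).1 h'.2)]
  · rw [pair_comm]
    by_cases h : inc b a
    · rw [if_pos h, if_pos ⟨(hne' b a).symm, (hmemZ b a).2 h⟩]
    · rw [if_neg h, if_neg fun h' => h ((hmemZ b a).1 h'.2)]
  · rw [if_neg]
    rintro ⟨hne, hm⟩
    obtain ⟨x, hx, y, -, -, he⟩ := hpair _ hm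
    have hx' : x ∈ ({a.1, b.1} : Finset V) := he ▸ by simp
    simp only [mem_insert, mem_singleton] at hx'
    rcases hx' with rfl | rfl
    exacts [disjoint_left.1 hPQ hx a.2, disjoint_left.1 hPQ hx b.2]

end Vale.Agent.P067.KO
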