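import Vale.Agent.P067.KO.OppPlane

/-!
# P067: the incidence of good points and good hyperplanes in a gap of length three
-/

namespace Vale.Agent.P067.KO

open Finset Module Exp

variable {k : Type} [Field k] [Fintype k] {M : Type} [AddCommGroup M] [Module k M] [Finite M]
variable [DecidableEq (Submodule k M)] [Fintype (Submodule k M)] {A B G : Submodule k M}

omit [Fintype k] [DecidableEq (Submodule k M)] [Fintype (Submodule k M)] in
theorem good_point_iff (hAG : A ≤ G) (hGB : G ≤ B) {P : Submodule k M} (h1 : A < P) (h2 : P < B)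
    (hd : finrank k P = finrank k A + 1) :
    Good A B G P ↔ G = A ∨ G = B ∨ ¬P ≤ G := by
  refine ⟨fun h => ?_, point_good hAG hGB h1 h2 hd⟩
  by_cases hPG : P ≤ G
  · rcases h.2.2 with h' | h'
    · exact absurd ((inf_eq_left.2 hPG).symm.trans h') h1.ne'
    · exact .inr (.inl ((sup_eq_right.2 hPG).symm.trans h'))
  · exact .inr (.inr hPG)

omit [Fintype k] [DecidableEq (Submodule k M)] [Fintype (Submodule k M)] in
theorem good_hyper_iff (hAG : A ≤ G) (hGB : G ≤ B) {H : Submodule k M} (h1 : A < H) (h2 : H < B)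
    (hd : finrank k H + 1 = finrank k B) :
    Good A B G H ↔ G = A ∨ G = B ∨ ¬G ≤ H := by
  refine ⟨fun h => ?_, hyper_good hAG hGB h1 h2 hd⟩
  by_cases hGH : G ≤ H
  · rcases h.2.2 with h' | h'
    · exact .inl ((inf_eq_right.2 hGH).symm.trans h')
    · exact absurd ((sup_eq_left.2 hGH).symm.trans h') h2.ne
  · exact .inr (.inr hGH)

omit [DecidableEq (Submodule k M)] in
/-- Good points and good hyperplanes of a gap of length three have a small gap. -/
theorem plane_hasGap (hAG : A ≤ G) (hGB : G ≤ B) (hg : finrank k B = finrank k A + 3)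
    (P Q : Finset (Submodule k M))
    (hP : ∀ x, x ∈ P ↔ A < x ∧ x < B ∧ finrank k x = finrank k A + 1 ∧ Good A B G x)
    (hQ : ∀ x, x ∈ Q ↔ A < x ∧ x < B ∧ finrank k x = finrank k A + 2 ∧ Good A B G x)
    [DecidableRel fun a b : Submodule k M => a ≤ b] :
    HasGap (incGraph fun (x : ↥P) (y : ↥Q) => x.1 ≤ y.1)
      (Real.sqrt (Fintype.card k))⁻¹ := by
  classical
  have hq : 1 < Fintype.card k := Fintype.one_lt_card
  set m := if finrank k G = finrank k A + 2 then Fintype.card k else Fintype.card k + 1 with hm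
  set l := if finrank k G = finrank k A + 1 then Fintype.card k else Fintype.card k + 1 with hl
  have hGA := Submodule.finrank_mono hAG
  have hGB' := Submodule.finrank_mono hGB
  have hmid : ∀ {a b : ↥P}, a ≠ b →
      finrank k (a.1 ⊔ b.1 : Submodule k M) = finrank k A + 2 := by
    intro a b hab
    obtain ⟨a1, a2, a3, -⟩ := (hP _).1 a.2
    obtain ⟨b1, b2, b3, -⟩ := (hP _).1 b.2
    have h := Submodule.finrank_sup_add_finrank_inf_eq a.1 b.1
    have h2 : finrank k A ≤ finrank k (a.1 ⊓ b.1 : Submodule k M) :=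
      Submodule.finrank_mono (le_inf a1.le b1.le)
    have h3 : a.1 ⊓ b.1 < a.1 := lt_of_le_of_ne inf_le_left fun e =>
      hab (Subtype.ext (eq_of_rk (e ▸ inf_le_right) (by omega)))
    have := rk_lt h3
    omega
  have hsub : ∀ (S : Finset (Submodule k M)) (R : Submodule k M → Prop) [DecidablePred R],
      (univ.filter fun y : ↥S => R y.1).card = (S.filter R).card := fun S R _ => by
    rw [← card_map (Function.Embedding.subtype fun y => y ∈ S)]
    congr 1
    ext y
    simp [and_comm]
  have hk : ∀ x : ↥P, (univ.filter fun y : ↥Q => x.1 ≤ y.1).card = l := by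
    intro x
    obtain ⟨x1, x2, x3, x4⟩ := (hP _).1 x.2
    rw [hsub Q (fun y => x.1 ≤ y)]
    have hset : Q.filter (fun y => x.1 ≤ y) =
        (univ.filter fun y => x.1 < y ∧ y < B).filter fun y => G = A ∨ G = B ∨ ¬G ≤ y := by
      ext y
      simp only [mem_filter, mem_univ, true_and, hQ]
      constructor
      · rintro ⟨⟨y1, y2, y3, y4⟩, h⟩
        exact ⟨⟨lt_of_le_of_ne h fun e => by subst e; omega, y2⟩,
          (good_hyper_iff hAG hGB y1 y2 (by omega)).1 y4⟩
      · rintro ⟨⟨h1, h2⟩, h⟩
        have hy : finrank k y = finrank k A + 2 := by have := rk_lt h1; have := rk_lt h2; omega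
        exact ⟨⟨x1.trans h1, h2, hy,
          (good_hyper_iff hAG hGB (x1.trans h1) h2 (by omega)).2 h⟩, h1.le⟩
    have hcard := card_middle x2.le (show finrank k B = finrank k x.1 + 2 by omega)
    rw [hset, hl]
    by_cases hG1 : finrank k G = finrank k A + 1
    · rw [if_pos hG1]
      have hGne : G ≠ A ∧ G ≠ B := ⟨fun e => by rw [e] at hG1; omega, fun e => by rw [e] at hG1; omega⟩
      have hxG : ¬x.1 ≤ G := ((good_point_iff hAG hGB x1 x2 x3).1 x4).resolve_left hGne.1 |>.resolve_left hGne.2
      have hL : finrank k (x.1 ⊔ G : Submodule k M) = finrank k A + 2 := by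
        have h := Submodule.finrank_sup_add_finrank_inf_eq x.1 G
        have h2 : finrank k A ≤ finrank k (x.1 ⊓ G : Submodule k M) :=
          Submodule.finrank_mono (le_inf x1.le hAG)
        have h3 := rk_lt (lt_of_le_of_ne inf_le_left fun e => hxG (e ▸ inf_le_right) :
          x.1 ⊓ G < x.1)
        omega
      have hbad : (univ.filter fun y => x.1 < y ∧ y < B).filter
          (fun y => ¬(G = A ∨ G = B ∨ ¬G ≤ y)) = {x.1 ⊔ G} := by
        ext y
        simp only [mem_filter, mem_univ, true_and, mem_singleton, hGne.1, hGne.2, false_or, not_not]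
        constructor
        · rintro ⟨⟨h1, h2⟩, h⟩
          exact (eq_of_rk (sup_le h1.le h) (by have := rk_lt h2; omega)).symm
        · rintro rfl
          refine ⟨⟨left_lt_sup.2 fun h => hxG (eq_of_rk h (by omega)).ge,
            lt_of_le_of_ne (sup_le x2.le hGB) fun e => by rw [e] at hL; omega⟩, le_sup_right⟩
      have h := card_filter_add_card_filter_not (s := univ.filter fun y => x.1 < y ∧ y < B)
        (fun y => G = A ∨ G = B ∨ ¬G ≤ y)
      rw [hbad, card_singleton, hcard] at h
      omega
    · rw [if_neg hG1, filter_true_of_mem, hcard]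
      intro y hy
      simp only [mem_filter, mem_univ, true_and] at hy
      by_contra h
      simp only [not_or, not_not] at h
      obtain ⟨hA', hB', hle⟩ := h
      have hxG : ¬x.1 ≤ G := ((good_point_iff hAG hGB x1 x2 x3).1 x4).resolve_left hA' |>.resolve_left hB'
      have h1 := rk_lt (lt_of_le_of_ne hAG (Ne.symm hA'))
      have h2 := rk_lt hy.2
      have h3 := rk_lt hy.1
      exact hxG (hy.1.le.trans (eq_of_rk hle (by omega)).ge)
  have hmdeg : ∀ y : ↥Q, (univ.filter fun x : ↥P => x.1 ≤ y.1).card = m := by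
    intro y
    obtain ⟨y1, y2, y3, y4⟩ := (hQ _).1 y.2
    rw [hsub P (fun x => x ≤ y.1)]
    have hset : P.filter (fun x => x ≤ y.1) =
        (univ.filter fun x => A < x ∧ x < y.1).filter fun x => G = A ∨ G = B ∨ ¬x ≤ G := by
      ext x
      simp only [mem_filter, mem_univ, true_and, hP]
      constructor
      · rintro ⟨⟨x1, x2, x3, x4⟩, h⟩
        exact ⟨⟨x1, lt_of_le_of_ne h fun e => by subst e; omega⟩,
          (good_point_iff hAG hGB x1 x2 x3).1 x4⟩
      · rintro ⟨⟨h1, h2⟩, h⟩
        have hx : finrank k x = finrank k A + 1 := by have := rk_lt h1; have := rk_lt h2; omega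
        exact ⟨⟨h1, h2.trans y2, hx, (good_point_iff hAG hGB h1 (h2.trans y2) hx).2 h⟩, h2.le⟩
    have hcard := card_middle y1.le (show finrank k y.1 = finrank k A + 2 by omega)
    rw [hset, hm]
    by_cases hG2 : finrank k G = finrank k A + 2
    · rw [if_pos hG2]
      have hGne : G ≠ A ∧ G ≠ B := ⟨fun e => by rw [e] at hG2; omega, fun e => by rw [e] at hG2; omega⟩
      have hyG : ¬G ≤ y.1 := ((good_hyper_iff hAG hGB y1 y2 (by omega)).1 y4).resolve_left hGne.1 |>.resolve_left hGne.2
      have hL : finrank k (y.1 ⊓ G : Submodule k M) = finrank k A + 1 := by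
        have h := Submodule.finrank_sup_add_finrank_inf_eq y.1 G
        have h2 : finrank k (y.1 ⊔ G : Submodule k M) ≤ finrank k B :=
          Submodule.finrank_mono (sup_le y2.le hGB)
        have h3 := rk_lt (left_lt_sup.2 hyG : y.1 < y.1 ⊔ G)
        omega
      have hbad : (univ.filter fun x => A < x ∧ x < y.1).filter
          (fun x => ¬(G = A ∨ G = B ∨ ¬x ≤ G)) = {y.1 ⊓ G} := by
        ext x
        simp only [mem_filter, mem_univ, true_and, mem_singleton, hGne.1, hGne.2, false_or, not_not]
        constructor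
        · rintro ⟨⟨h1, h2⟩, h⟩
          exact eq_of_rk (le_inf h2.le h) (by have := rk_lt h1; omega)
        · rintro rfl
          refine ⟨⟨lt_of_le_of_ne (le_inf y1.le hAG) fun e => by rw [← e] at hL; omega,
            lt_of_le_of_ne inf_le_left fun e => by rw [e] at hL; omega⟩, inf_le_right⟩
      have h := card_filter_add_card_filter_not (s := univ.filter fun x => A < x ∧ x < y.1)
        (fun x => G = A ∨ G = B ∨ ¬x ≤ G)
      rw [hbad, card_singleton, hcard] at h
      omega
    · rw [if_neg hG2, filter_true_of_mem, hcard]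
      intro x hx
      simp only [mem_filter, mem_univ, true_and] at hx
      by_contra h
      simp only [not_or, not_not] at h
      obtain ⟨hA', hB', hle⟩ := h
      have hyG : ¬G ≤ y.1 := ((good_hyper_iff hAG hGB y1 y2 (by omega)).1 y4).resolve_left hA' |>.resolve_left hB'
      have h1 := rk_lt hx.1
      have h2 := rk_lt hx.2
      have h4 := rk_lt (lt_of_le_of_ne hGB hB')
      exact hyG ((eq_of_rk hle (by omega)).ge.trans hx.2.le)
  have hpair : ∀ a b : ↥P, a ≠ b →
      (univ.filter fun y : ↥Q => a.1 ≤ y.1 ∧ b.1 ≤ y.1).card =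
        if (if finrank k G = finrank k A + 1 then a.1 ⊔ G else a.1) =
          (if finrank k G = finrank k A + 1 then b.1 ⊔ G else b.1) then 0 else 1 := by
    intro a b hab
    obtain ⟨a1, a2, a3, a4⟩ := (hP _).1 a.2
    obtain ⟨b1, b2, b3, b4⟩ := (hP _).1 b.2
    have hd := hmid hab
    have hlt : A < a.1 ⊔ b.1 := a1.trans_le le_sup_left
    have hgt : a.1 ⊔ b.1 < B :=
      lt_of_le_of_ne (sup_le a2.le b2.le) fun e => by rw [e] at hd; omega
    rw [hsub Q (fun y => a.1 ≤ y ∧ b.1 ≤ y)]
    have hset : Q.filter (fun y => a.1 ≤ y ∧ b.1 ≤ y) =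
        ({a.1 ⊔ b.1} : Finset (Submodule k M)).filter fun y => G = A ∨ G = B ∨ ¬G ≤ y := by
      ext y
      simp only [mem_filter, mem_singleton, hQ]
      constructor
      · rintro ⟨⟨y1, y2, y3, y4⟩, h1, h2⟩
        obtain rfl : y = a.1 ⊔ b.1 := (eq_of_rk (sup_le h1 h2) (by omega)).symm
        exact ⟨rfl, (good_hyper_iff hAG hGB y1 y2 (by omega)).1 y4⟩
      · rintro ⟨rfl, h⟩
        exact ⟨⟨hlt, hgt, hd, (good_hyper_iff hAG hGB hlt hgt (by omega)).2 h⟩,
          le_sup_left, le_sup_right⟩
    rw [hset, filter_singleton]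
    by_cases hG1 : finrank k G = finrank k A + 1
    · have hGne : G ≠ A ∧ G ≠ B := ⟨fun e => by rw [e] at hG1; omega, fun e => by rw [e] at hG1; omega⟩
      have key : G ≤ a.1 ⊔ b.1 ↔ a.1 ⊔ G = b.1 ⊔ G := by
        have hL : ∀ z : Submodule k M, A < z → finrank k z = finrank k A + 1 → ¬z ≤ G →
            finrank k A + 2 ≤ finrank k (z ⊔ G : Submodule k M) := fun z z1 z3 z4 => by
          have := rk_lt (left_lt_sup.2 fun h : G ≤ z => z4 (eq_of_rk h (by omega)).ge)
          omega
        have hna := ((good_point_iff hAG hGB a1 a2 a3).1 a4).resolve_left hGne.1 |>.resolve_left hGne.2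
        have hnb := ((good_point_iff hAG hGB b1 b2 b3).1 b4).resolve_left hGne.1 |>.resolve_left hGne.2
        constructor
        · intro h
          rw [eq_of_rk (sup_le le_sup_left h) (by have := hL _ a1 a3 hna; omega),
            eq_of_rk (sup_le le_sup_right h) (by have := hL _ b1 b3 hnb; omega)]
        · intro h
          have hle : a.1 ⊔ b.1 ≤ a.1 ⊔ G := sup_le le_sup_left (h ▸ le_sup_left)
          have hu : finrank k (a.1 ⊔ G : Submodule k M) ≤ finrank k A + 2 := by
            have h' := Submodule.finrank_sup_add_finrank_inf_eq a.1 G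
            have h2 : finrank k A ≤ finrank k (a.1 ⊓ G : Submodule k M) :=
              Submodule.finrank_mono (le_inf a1.le hAG)
            omega
          exact (eq_of_rk hle (by omega)).ge.trans' le_sup_right
      simp only [hG1, if_true, ← key]
      by_cases hle : G ≤ a.1 ⊔ b.1 <;> simp [hle, hGne.1, hGne.2]
    · simp only [hG1, if_false]
      rw [if_neg (Subtype.coe_ne_coe.2 hab)]
      by_cases hA' : G = A
      · simp [hA']
      by_cases hB' : G = B
      · simp [hB']
      have h1 := rk_lt (lt_of_le_of_ne hAG (Ne.symm hA'))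
      have hna := ((good_point_iff hAG hGB a1 a2 a3).1 a4).resolve_left hA' |>.resolve_left hB'
      have hn : ¬G ≤ a.1 ⊔ b.1 := fun h => hna (le_sup_left.trans (eq_of_rk h (by omega)).ge)
      simp [hA', hB', hn]
  have hbase := plane_gap (inc := fun (x : ↥P) (y : ↥Q) => x.1 ≤ y.1)
    (fun x : ↥P => if finrank k G = finrank k A + 1 then x.1 ⊔ G else x.1) hk hmdeg
    (by rw [hl]; split_ifs <;> omega) (by rw [hm]; split_ifs <;> omega) hpair
  refine hasGap_mono (incGraph_nonneg _) ?_ hbase
  refine inv_anti₀ (Real.sqrt_pos.2 (by positivity)) (Real.sqrt_le_sqrt ?_)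
  rw [hm]
  split_ifs <;> simp

end Vale.Agent.P067.KO
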