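import Vale.Agent.P067.KO.Elementary

/-!
Coinvariants of the complex of partial bases over the polynomial ring under a congruence
subgroup: they are the complex of those partial bases of the truncated ring that lift.
-/

namespace Vale.Agent.P067.KO

open Finset Polynomial Vale.Agent.P067.Sub

section PBBasic

variable {R : Type*} [CommRing R] {n : ℕ}

theorem pb_mono {s t : Finset (Fin n → R)} (h : PB R n s) (hts : t ⊆ s) : PB R n t :=
  let ⟨g, hg, hs⟩ := h
  ⟨g, hg, fun v hv => hs v (hts hv)⟩

theorem col_injective [Nontrivial R] {g : Matrix (Fin n) (Fin n) R} (hg : IsUnit g.det) :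
    Function.Injective fun (i : Fin n) (j : Fin n) => g j i := by
  intro i i' h
  have hinj : Function.Injective g.mulVec := fun x y hxy => by
    have := congrArg g⁻¹.mulVec hxy
    simpa [Matrix.mulVec_mulVec, Matrix.nonsing_inv_mul _ hg] using this
  by_contra hne
  have h2 : g.mulVec (Pi.single i 1) = g.mulVec (Pi.single i' 1) := by
    rw [Matrix.mulVec_single_one, Matrix.mulVec_single_one]
    exact h
  have := congrFun (hinj h2) i
  rw [Pi.single_eq_same, Pi.single_eq_of_ne hne] at this
  exact one_ne_zero this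

/-- indices of the columns that make up a set of vectors -/
theorem exists_index [Nontrivial R] [DecidableEq (Fin n → R)] {g : Matrix (Fin n) (Fin n) R}
    (hg : IsUnit g.det)
    {s : Finset (Fin n → R)} (hs : ∀ v ∈ s, ∃ i, v = fun j => g j i) :
    ∃ I : Finset (Fin n), s = I.image (fun i j => g j i) ∧ I.card = s.card := by
  classical
  refine ⟨Finset.univ.filter fun i => (fun j => g j i) ∈ s, ?_, ?_⟩
  · ext v
    simp only [Finset.mem_image, Finset.mem_filter, Finset.mem_univ, true_and]
    refine ⟨fun hv => ?_, fun ⟨i, hi, h⟩ => h ▸ hi⟩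
    obtain ⟨i, rfl⟩ := hs v hv
    exact ⟨i, hv, rfl⟩
  · refine Finset.card_bij (fun i _ j => g j i) (fun i hi => (Finset.mem_filter.mp hi).2)
      (fun i _ i' _ h => col_injective hg h) fun v hv => ?_
    obtain ⟨i, rfl⟩ := hs v hv
    exact ⟨i, Finset.mem_filter.mpr ⟨Finset.mem_univ i, hv⟩, rfl⟩

theorem pb_card [Nontrivial R] {s : Finset (Fin n → R)} (h : PB R n s) : s.card ≤ n := by
  classical
  obtain ⟨g, hg, hs⟩ := h
  obtain ⟨I, -, hI⟩ := exists_index hg hs
  rw [← hI]
  exact (Finset.card_le_univ I).trans_eq (Fintype.card_fin n)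

theorem mul_update_col (g : Matrix (Fin n) (Fin n) R) (j : Fin n) (x : Fin n → R) :
    g * Matrix.updateCol 1 j x = Matrix.updateCol g j (g.mulVec x) := by
  ext r i
  rw [Matrix.mul_apply, Matrix.updateCol_apply]
  split_ifs with h
  · simp [Matrix.updateCol_apply, h, Matrix.mulVec, dotProduct]
  · simp [Matrix.updateCol_apply, h, Matrix.one_apply]

theorem det_update_one (j : Fin n) (x : Fin n → R) :
    (Matrix.updateCol (1 : Matrix (Fin n) (Fin n) R) j x).det = x j := by
  rw [← Matrix.cramer_apply, Matrix.cramer_one]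
  rfl

theorem det_scale (g : Matrix (Fin n) (Fin n) R) (j : Fin n) (u : R) :
    (Matrix.updateCol g j (fun r => g r j * u)).det = g.det * u := by
  have : (fun r => g r j * u) = g.mulVec (Pi.single j u) := by
    funext r
    simp [Matrix.mulVec, dotProduct, Pi.single_apply]
  rw [this, ← mul_update_col, Matrix.det_mul, det_update_one, Pi.single_eq_same]

theorem mul_eq_updateCol (g : Matrix (Fin n) (Fin n) R) (j i r : Fin n) (h : i ≠ j) (u : R) :
    Matrix.updateCol g j (fun r => g r j * u) r i = g r i := by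
  rw [Matrix.updateCol_apply, if_neg h]

end PBBasic

variable {k : Type*} [Field k] {n m : ℕ}

/-- reduction of vectors -/
noncomputable def redVec (k : Type*) [Field k] (m : ℕ) (v : Fin n → Polynomial k) :
    Fin n → Trunc k m :=
  fun i => red k m (v i)

theorem redVec_colAct {g : Gam n k} (hg : g ∈ cong k n m) (v : Fin n → Polynomial k) :
    redVec k m (colAct g v) = redVec k m v := by
  have h1 : (g : Matrix (Fin n) (Fin n) (Polynomial k)).map (red k m) = 1 := by
    have := congrArg (fun x : Matrix.SpecialLinearGroup (Fin n) (Trunc k m) =>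
      (x : Matrix (Fin n) (Fin n) (Trunc k m))) (MonoidHom.mem_ker.mp hg)
    simpa [Matrix.SpecialLinearGroup.map_apply_coe] using this
  funext i
  show red k m ((g : Matrix (Fin n) (Fin n) (Polynomial k)).mulVec v i) = red k m (v i)
  rw [RingHom.map_mulVec, h1, Matrix.one_mulVec]
  rfl

theorem isUnit_red_det {g : Matrix (Fin n) (Fin n) (Polynomial k)} (hg : IsUnit g.det) :
    IsUnit (g.map (red k m)).det := by
  rw [← red_det]
  exact hg.map _

theorem redVec_injOn (hm : 1 ≤ m) {s : Finset (Fin n → Polynomial k)}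
    (hs : PB (Polynomial k) n s) :
    Set.InjOn (redVec k m) (s : Set (Fin n → Polynomial k)) := by
  obtain ⟨g, hg, hcols⟩ := hs
  have := nontrivial_trunc (k := k) hm
  intro u hu v hv h
  obtain ⟨i, rfl⟩ := hcols u hu
  obtain ⟨i', rfl⟩ := hcols v hv
  rw [col_injective (g := g.map (red k m)) (isUnit_red_det hg) (a₁ := i) (a₂ := i') h]

/-- the reductions of partial bases over the polynomial ring -/
def ImPB (k : Type*) [Field k] (m : ℕ) [DecidableEq (Trunc k m)]
    (t : Finset (Fin n → Trunc k m)) : Prop :=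
  ∃ S, PB (Polynomial k) n S ∧ S.image (redVec k m) = t

variable [DecidableEq (Trunc k m)]

theorem imPB_of_det_one (hm : 1 ≤ m)
    {G : Matrix (Fin n) (Fin n) (Trunc k m)}
    (hG : G.det = 1) {t : Finset (Fin n → Trunc k m)} (ht : ∀ v ∈ t, ∃ i, v = fun j => G j i) :
    ImPB k m t := by
  classical
  obtain ⟨M, -, -, hM⟩ := lifts_of_det_one hm ∅ G hG fun i hi => absurd hi (notMem_empty i)
  subst hM
  refine ⟨(Finset.univ.filter fun i => (fun j => red k m (M.1 j i)) ∈ t).image
    (fun i j => M.1 j i), ⟨M.1, by rw [M.2]; exact isUnit_one, fun v hv => ?_⟩, ?_⟩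
  · obtain ⟨i, -, rfl⟩ := Finset.mem_image.mp hv
    exact ⟨i, rfl⟩
  · rw [Finset.image_image]
    ext v
    simp only [Finset.mem_image, Finset.mem_filter, Finset.mem_univ, true_and]
    refine ⟨fun ⟨i, hi, h⟩ => h ▸ hi, fun hv => ?_⟩
    obtain ⟨i, rfl⟩ := ht v hv
    exact ⟨i, hv, rfl⟩

theorem imPB_of_card_lt (hm : 1 ≤ m) {t : Finset (Fin n → Trunc k m)}
    (ht : PB (Trunc k m) n t) (hc : t.card < n) : ImPB k m t := by
  classical
  have := nontrivial_trunc (k := k) hm
  obtain ⟨G, hG, hcols⟩ := ht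
  obtain ⟨I, hI, hIc⟩ := exists_index hG hcols
  obtain ⟨j, hj⟩ : ∃ j, j ∉ I := by
    by_contra h
    push Not at h
    rw [Finset.eq_univ_iff_forall.mpr h, Finset.card_univ, Fintype.card_fin] at hIc
    omega
  obtain ⟨u, hu⟩ := hG
  refine imPB_of_det_one hm (G := Matrix.updateCol G j fun r => G r j * ↑u⁻¹)
    (by rw [det_scale, ← hu, Units.mul_inv]) fun v hv => ?_
  rw [hI] at hv
  obtain ⟨i, hi, rfl⟩ := Finset.mem_image.mp hv
  exact ⟨i, funext fun r => (mul_eq_updateCol G j i r (fun h => hj (h ▸ hi)) _).symm⟩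

/-- two partial bases with equal reductions are translates under the congruence subgroup -/
theorem exists_cong [DecidableEq k] (hm : 1 ≤ m) {s s' : Finset (Fin n → Polynomial k)}
    (hs : PB (Polynomial k) n s) (hs' : PB (Polynomial k) n s')
    (h : s.image (redVec k m) = s'.image (redVec k m)) :
    ∃ g ∈ cong k n m, s.image (colAct g) = s' := by
  classical
  have := nontrivial_trunc (k := k) hm
  have hinj := redVec_injOn hm hs
  have hinj' := redVec_injOn hm hs'
  obtain ⟨g, hg, hcols⟩ := hs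
  obtain ⟨g', hg', hcols'⟩ := hs'
  obtain ⟨I, hI, -⟩ := exists_index hg hcols
  -- the partner of a column
  have hp : ∀ i : I, ∃ i', (fun j => g' j i') ∈ s' ∧
      redVec k m (fun j => g' j i') = redVec k m (fun j => g j i) := by
    intro i
    have : redVec k m (fun j => g j i) ∈ s'.image (redVec k m) := by
      rw [← h, hI]
      exact Finset.mem_image_of_mem _ (Finset.mem_image_of_mem _ i.2)
    obtain ⟨v, hv, hv'⟩ := Finset.mem_image.mp this
    obtain ⟨i', rfl⟩ := hcols' v hv
    exact ⟨i', hv, hv'⟩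
  choose f hf hf' using hp
  have hfinj : Function.Injective f := by
    intro a b hab
    have := hf' a
    rw [hab, hf' b] at this
    exact Subtype.ext (col_injective hg (hinj (hI ▸ Finset.mem_image_of_mem _ b.2)
      (hI ▸ Finset.mem_image_of_mem _ a.2) this)).symm
  let e : {i // i ∈ I} ≃ {i // i ∈ Set.range f} := Equiv.ofInjective f hfinj
  let σ : Equiv.Perm (Fin n) := e.extendSubtype
  have hσ : ∀ i : I, σ i = f i := fun i => by
    rw [show σ i = (e ⟨i, i.2⟩).1 from Equiv.extendSubtype_apply_of_mem _ _ i.2]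
    rfl
  let G' : Matrix (Fin n) (Fin n) (Polynomial k) := g'.submatrix id σ
  have hG' : IsUnit G'.det := by
    show IsUnit (g'.submatrix id σ).det
    rw [Matrix.det_permute']
    exact IsUnit.mul ((Units.isUnit _).map (Int.castRingHom _)) hg'
  -- make the determinants agree
  obtain ⟨g₁, hg₁, hcol₁⟩ : ∃ g₁ : Matrix (Fin n) (Fin n) (Polynomial k),
      g₁.det = G'.det ∧ ∀ i ∈ I, ∀ r, g₁ r i = g r i := by
    by_cases hex : ∃ j, j ∉ I
    · obtain ⟨j, hj⟩ := hex
      obtain ⟨u, hu⟩ := hg
      refine ⟨Matrix.updateCol g j fun r => g r j * (↑u⁻¹ * G'.det), ?_,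
        fun i hi r => mul_eq_updateCol g j i r (fun h => hj (h ▸ hi)) _⟩
      rw [det_scale, ← hu, ← mul_assoc, Units.mul_inv, one_mul]
    · push Not at hex
      refine ⟨g, ?_, fun _ _ _ => rfl⟩
      obtain ⟨a, ha, hga⟩ := Polynomial.isUnit_iff.mp hg
      obtain ⟨b, hb, hgb⟩ := Polynomial.isUnit_iff.mp hG'
      have heq : g.map (red k m) = G'.map (red k m) := by
        ext r i
        have := congrFun (hf' ⟨i, hex i⟩) r
        simp only [redVec] at this
        show red k m (g r i) = red k m (g' r (σ i))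
        rw [hσ ⟨i, hex i⟩, this]
      have := congrArg (fun M : Matrix (Fin n) (Fin n) (Trunc k m) => tEval hm M.det) heq
      simp only [← red_det, tEval_red hm, ← hga, ← hgb, eval_C] at this
      rw [← hga, ← hgb, this]
  have hu₁ : IsUnit g₁.det := hg₁ ▸ hG'
  -- the matrix to lift
  have hU : IsUnit (G'.map (red k m)).det := isUnit_red_det hG'
  let N : Matrix (Fin n) (Fin n) (Trunc k m) := (G'.map (red k m))⁻¹ * g₁.map (red k m)
  have hN : N.det = 1 := by
    rw [Matrix.det_mul, Matrix.det_nonsing_inv, ← red_det, ← red_det, hg₁]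
    exact Ring.inverse_mul_cancel _ (hG'.map _)
  have hNI : Fixes I N := by
    intro i hi r
    have : ∀ l, (g₁.map (red k m)) l i = (G'.map (red k m)) l i := by
      intro l
      have := congrFun (hf' ⟨i, hi⟩) l
      simp only [redVec] at this
      show red k m (g₁ l i) = red k m (g' l (σ i))
      rw [hcol₁ i hi, hσ ⟨i, hi⟩, this]
    show ((G'.map (red k m))⁻¹ * g₁.map (red k m)) r i = _
    rw [Matrix.mul_apply]
    simp only [this]
    rw [← Matrix.mul_apply, Matrix.nonsing_inv_mul _ hU]
  obtain ⟨M, -, hMI, hMN⟩ := lifts_of_det_one hm I N hN hNI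
  have hdet : (G' * M.1 * g₁⁻¹).det = 1 := by
    rw [Matrix.det_mul, Matrix.det_mul, M.2, mul_one, Matrix.det_nonsing_inv, hg₁]
    exact Ring.mul_inverse_cancel _ hG'
  refine ⟨⟨G' * M.1 * g₁⁻¹, hdet⟩, ?_, ?_⟩
  · refine MonoidHom.mem_ker.mpr (Subtype.ext ?_)
    show (G' * M.1 * g₁⁻¹).map (red k m) = 1
    have h2 : (g₁⁻¹).map (red k m) * g₁.map (red k m) = 1 := by
      rw [← Matrix.map_mul, Matrix.nonsing_inv_mul _ hu₁, Matrix.map_one _ (map_zero _)
        (map_one _)]
    rw [Matrix.map_mul, Matrix.map_mul, hMN, ← Matrix.mul_assoc,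
      Matrix.mul_nonsing_inv _ hU, Matrix.one_mul]
    exact mul_eq_one_comm.mp h2
  · have key : ∀ i : I, colAct ⟨G' * M.1 * g₁⁻¹, hdet⟩ (fun j => g j i) =
        fun j => g' j (f i) := by
      intro i
      have h1 : (fun j => g j i) = g₁.mulVec (Pi.single (i : Fin n) 1) := by
        rw [Matrix.mulVec_single_one]
        exact funext fun r => (hcol₁ i i.2 r).symm
      show (G' * M.1 * g₁⁻¹).mulVec (fun j => g j i) = _
      rw [h1, Matrix.mulVec_mulVec, Matrix.mul_assoc, Matrix.nonsing_inv_mul _ hu₁,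
        Matrix.mul_one, Matrix.mulVec_single_one]
      funext r
      show (G' * M.1) r i = g' r (f i)
      rw [Matrix.mul_apply, Finset.sum_eq_single (i : Fin n)]
      · rw [hMI i i.2, Matrix.one_apply_eq, mul_one, ← hσ i]
        rfl
      · intro l _ hl
        rw [hMI i i.2, Matrix.one_apply_ne hl, mul_zero]
      · simp
    apply Finset.Subset.antisymm
    · intro v hv
      obtain ⟨u, hu, rfl⟩ := Finset.mem_image.mp hv
      rw [hI] at hu
      obtain ⟨i, hi, rfl⟩ := Finset.mem_image.mp hu
      rw [key ⟨i, hi⟩]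
      exact hf _
    · intro v hv
      have : redVec k m v ∈ s.image (redVec k m) := h ▸ Finset.mem_image_of_mem _ hv
      obtain ⟨u, hu, huv⟩ := Finset.mem_image.mp this
      rw [hI] at hu
      obtain ⟨i, hi, rfl⟩ := Finset.mem_image.mp hu
      have := hinj' (hf ⟨i, hi⟩) hv ((hf' ⟨i, hi⟩).trans huv)
      rw [← this, ← key ⟨i, hi⟩]
      exact Finset.mem_image_of_mem _ (hI ▸ Finset.mem_image_of_mem _ hi)

/-- a simplicial map on chains -/
noncomputable def imC {α β : Type*} [DecidableEq β] (f : α → β) :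
    Ch α →ₗ[ZMod 2] Ch β :=
  lift' fun s => sg (s.image f)
where
  /-- the linear map with prescribed values on sets, between different types -/
  lift' (h : Finset α → Ch β) : Ch α →ₗ[ZMod 2] Ch β := Finsupp.linearCombination (ZMod 2) h

theorem imC_sg {α β : Type*} [DecidableEq β] (f : α → β) (s : Finset α) :
    imC f (sg s) = sg (s.image f) := by
  simp [imC, imC.lift', sg, Finsupp.linearCombination_single]

theorem map_OnPB {α β : Type*} {P : Finset α → Prop} {M : Submodule (ZMod 2) (Ch β)}
    (A : Ch α →ₗ[ZMod 2] Ch β) (h : ∀ s, P s → A (sg s) ∈ M) {z : Ch α} (hz : z ∈ On P) :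
    A z ∈ M := by
  rw [← Finsupp.sum_single z, Finsupp.sum, map_sum]
  refine Submodule.sum_mem _ fun s hs => ?_
  have e : Finsupp.single s (z s) = z s • sg s := by simp [sg]
  rw [e, map_smul]
  exact Submodule.smul_mem _ _ (h s (hz hs))

theorem imC_bd {α β : Type*} [DecidableEq α] [DecidableEq β] (f : α → β) {P : Finset α → Prop}
    (hP : ∀ s, P s → Set.InjOn f s) {z : Ch α} (hz : z ∈ On P) :
    imC f (bd z) = bd (imC f z) := by
  have h : (imC f).comp bd z + bd.comp (imC f) z ∈ (⊥ : Submodule (ZMod 2) (Ch β)) := by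
    rw [← LinearMap.add_apply]
    refine map_OnPB _ (fun s hs => ?_) hz
    simp only [Submodule.mem_bot, LinearMap.add_apply, LinearMap.comp_apply, bd_sg, map_sum,
      imC_sg]
    rw [Finset.sum_image (hP s hs), ← Finset.sum_add_distrib]
    refine Finset.sum_eq_zero fun x hx => ?_
    have : (s.erase x).image f = (s.image f).erase (f x) := by
      ext y
      simp only [Finset.mem_image, Finset.mem_erase]
      constructor
      · rintro ⟨a, ⟨ha, has⟩, rfl⟩
        exact ⟨fun hh => ha (hP s hs has hx hh), a, has, rfl⟩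
      · rintro ⟨hy, a, has, rfl⟩
        exact ⟨a, ⟨fun hh => hy (hh ▸ rfl), has⟩, rfl⟩
    rw [this, add_self']
  have h2 := (Submodule.mem_bot _).mp h
  simp only [LinearMap.comp_apply] at h2
  calc imC f (bd z) = imC f (bd z) + (imC f (bd z) + bd (imC f z)) := by rw [h2, add_zero]
    _ = bd (imC f z) := by rw [← add_assoc, add_self', zero_add]

theorem bd_mem {α : Type*} [DecidableEq α] {P : Finset α → Prop} (hP : Down P) {c : ℕ}
    {w : Ch α} (hw : w ∈ On (Sz P (c + 1))) : bd w ∈ On (Sz P c) := by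
  refine map_On bd (fun s hs => ?_) hw
  rw [bd_sg]
  refine Submodule.sum_mem _ fun x hx => sg_mem ⟨hP s _ hs.1 (Finset.erase_subset x s), ?_⟩
  rw [Finset.card_erase_of_mem hx, hs.2]
  omega

/-- chains with zero image are relations -/
theorem mem_rel_of_imC [DecidableEq k] (hm : 1 ≤ m) {c : ℕ}
    {x : Ch (Fin n → Polynomial k)} (hx : x ∈ On (Sz (PB (Polynomial k) n) c))
    (h0 : imC (redVec k m) x = 0) :
    x ∈ Rel colAct (cong k n m : Set (Gam n k)) (PB (Polynomial k) n) c := by
  classical
  let sec : Finset (Fin n → Trunc k m) → Finset (Fin n → Polynomial k) := fun t =>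
    if h : ImPB k m t then h.choose else ∅
  let σ : Ch (Fin n → Trunc k m) →ₗ[ZMod 2] Ch (Fin n → Polynomial k) :=
    Finsupp.linearCombination (ZMod 2) fun t => sg (sec t)
  have hσ : ∀ t, σ (sg t) = sg (sec t) := fun t => by
    simp [σ, sg, Finsupp.linearCombination_single]
  have h : ((LinearMap.id : Ch (Fin n → Polynomial k) →ₗ[ZMod 2] Ch (Fin n → Polynomial k)) +
      σ.comp (imC (redVec k m))) x ∈
      Rel colAct (cong k n m : Set (Gam n k)) (PB (Polynomial k) n) c := by
    refine map_On _ (fun s hs => ?_) hx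
    have hex : ImPB k m (s.image (redVec k m)) := ⟨s, hs.1, rfl⟩
    obtain ⟨g, hg, hgs⟩ := exists_cong hm hs.1 hex.choose_spec.1 hex.choose_spec.2.symm
    refine Submodule.subset_span ⟨g, hg, s, hs, ?_⟩
    rw [LinearMap.add_apply, LinearMap.id_apply, LinearMap.comp_apply, imC_sg, hσ, hgs]
    simp only [sec, dif_pos hex]
  rwa [LinearMap.add_apply, LinearMap.id_apply, LinearMap.comp_apply, h0, map_zero, add_zero] at h

theorem coAcy_of_acy [DecidableEq k] (hm : 1 ≤ m) (hR : Acy (PB (Trunc k m) n) n) :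
    CoAcy colAct (cong k n m : Set (Gam n k)) (PB (Polynomial k) n) n := by
  classical
  have := nontrivial_trunc (k := k) hm
  intro c hc1 hcn z hz hbz
  have hinjP : ∀ (d : ℕ) (s : Finset (Fin n → Polynomial k)),
      Sz (PB (Polynomial k) n) d s → Set.InjOn (redVec k m) (s : Set (Fin n → Polynomial k)) := fun _ s hs => redVec_injOn hm hs.1
  -- relations die
  have hrel : imC (redVec k m) (bd z) = 0 := by
    have hle : Rel colAct (cong k n m : Set (Gam n k)) (PB (Polynomial k) n) (c - 1) ≤
        LinearMap.ker (imC (redVec k m)) := by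
      refine Submodule.span_le.mpr ?_
      rintro x ⟨g, hg, s, -, rfl⟩
      simp only [SetLike.mem_coe, LinearMap.mem_ker, map_add, imC_sg, Finset.image_image]
      rw [show (redVec k m) ∘ colAct g = redVec k m from funext fun v => redVec_colAct hg v,
        add_self']
    exact hle hbz
  have himg : ∀ (d : ℕ) (x : Ch (Fin n → Polynomial k)), x ∈ On (Sz (PB (Polynomial k) n) d) →
      imC (redVec k m) x ∈ On (Sz (PB (Trunc k m) n) d) := by
    intro d x hx
    refine map_OnPB _ (fun s hs => ?_) hx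
    rw [imC_sg]
    refine sg_mem ⟨?_, by rw [Finset.card_image_of_injOn (hinjP d s hs), hs.2]⟩
    obtain ⟨g, hg, hcols⟩ := hs.1
    refine ⟨g.map (red k m), isUnit_red_det hg, fun v hv => ?_⟩
    obtain ⟨u, hu, rfl⟩ := Finset.mem_image.mp hv
    obtain ⟨i, rfl⟩ := hcols u hu
    exact ⟨i, rfl⟩
  obtain ⟨w, hw, hwz⟩ := hR c hcn (imC (redVec k m) z) (himg c z hz)
    (by rw [← imC_bd _ (hinjP c) hz, hrel])
  -- replace the top faces that do not lift
  let Good : Finset (Fin n → Trunc k m) → Prop :=
    fun t => ImPB k m t ∧ t.card = c + 1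
  have hfix : ∀ B, Sz (PB (Trunc k m) n) (c + 1) B →
      ∃ y ∈ On Good, bd y = bd (sg B) := by
    intro B hB
    by_cases hgood : ImPB k m B
    · exact ⟨sg B, sg_mem ⟨hgood, hB.2⟩, rfl⟩
    have hcn' : c + 1 = n := by
      by_contra hne
      exact hgood (imPB_of_card_lt hm hB.1 (by rw [hB.2]; omega))
    obtain ⟨G, hG, hcols⟩ := hB.1
    obtain ⟨u, hu⟩ := hG
    let v : Fin n → Trunc k m := G.mulVec fun _ => ↑u⁻¹
    refine ⟨cone v (bd (sg B)), ?_, ?_⟩
    swap
    · have := bd_cone v (bd (sg B))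
      rwa [bd_bd, map_zero, add_zero] at this
    rw [bd_sg, map_sum]
    refine Submodule.sum_mem _ fun x hx => ?_
    rw [cone, lift_sg]
    split_ifs with hvx
    · exact Submodule.zero_mem _
    obtain ⟨i, hi⟩ := hcols x hx
    refine sg_mem ⟨imPB_of_det_one hm (G := Matrix.updateCol G i v) ?_ fun y hy => ?_, ?_⟩
    · rw [← mul_update_col, Matrix.det_mul, det_update_one, ← hu, Units.mul_inv]
    · rcases Finset.mem_insert.mp hy with rfl | hy
      · exact ⟨i, funext fun r => by rw [Matrix.updateCol_apply, if_pos rfl]⟩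
      · obtain ⟨i', rfl⟩ := hcols y (Finset.mem_of_mem_erase hy)
        refine ⟨i', funext fun r => ?_⟩
        rw [Matrix.updateCol_apply, if_neg]
        rintro rfl
        exact (Finset.mem_erase.mp hy).1 hi.symm
    · rw [Finset.card_insert_of_notMem hvx, Finset.card_erase_of_mem hx, hB.2]
      omega
  let Ψ : Ch (Fin n → Trunc k m) →ₗ[ZMod 2] Ch (Fin n → Trunc k m) := lift fun B =>
    if h : Sz (PB (Trunc k m) n) (c + 1) B then (hfix B h).choose else 0
  have hΨ : Ψ w ∈ On Good := map_On Ψ (fun B hB => by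
    show lift _ (sg B) ∈ _
    rw [lift_sg, dif_pos hB]
    exact (hfix B hB).choose_spec.1) hw
  have hΨb : bd (Ψ w) = imC (redVec k m) z := by
    have h : ((bd.comp Ψ + bd : Ch (Fin n → Trunc k m) →ₗ[ZMod 2] Ch (Fin n → Trunc k m)) w) ∈
        (⊥ : Submodule (ZMod 2) (Ch (Fin n → Trunc k m))) := map_On _ (fun B hB => by
      show bd (lift _ (sg B)) + bd (sg B) ∈ _
      rw [lift_sg, dif_pos hB, (hfix B hB).choose_spec.2, add_self']
      exact Submodule.zero_mem _) hw
    have h2 : bd (Ψ w) + bd w = 0 := (Submodule.mem_bot _).mp h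
    calc bd (Ψ w) = bd (Ψ w) + bd w + bd w := by rw [add_assoc, add_self', add_zero]
      _ = _ := by rw [h2, zero_add, hwz]
  -- lift
  let sec : Finset (Fin n → Trunc k m) → Finset (Fin n → Polynomial k) := fun t =>
    if h : ImPB k m t then h.choose else ∅
  let σ : Ch (Fin n → Trunc k m) →ₗ[ZMod 2] Ch (Fin n → Polynomial k) :=
    Finsupp.linearCombination (ZMod 2) fun t => sg (sec t)
  have hσ : ∀ t, σ (sg t) = sg (sec t) := fun t => by
    simp [σ, sg, Finsupp.linearCombination_single]
  have hσmem : σ (Ψ w) ∈ On (Sz (PB (Polynomial k) n) (c + 1)) := by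
    refine map_OnPB σ (fun t ht => ?_) hΨ
    rw [hσ]
    simp only [sec, dif_pos ht.1]
    refine sg_mem ⟨ht.1.choose_spec.1, ?_⟩
    have h1 := Finset.card_image_of_injOn (redVec_injOn hm ht.1.choose_spec.1)
    rw [ht.1.choose_spec.2] at h1
    exact h1.symm.trans ht.2
  have hback : imC (redVec k m) (σ (Ψ w)) = Ψ w := by
    have h : (((imC (redVec k m)).comp σ + LinearMap.id :
        Ch (Fin n → Trunc k m) →ₗ[ZMod 2] Ch (Fin n → Trunc k m)) (Ψ w)) ∈
        (⊥ : Submodule (ZMod 2) (Ch (Fin n → Trunc k m))) := map_On _ (fun t ht => by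
      rw [LinearMap.add_apply, LinearMap.comp_apply, LinearMap.id_apply, hσ, imC_sg]
      simp only [sec, dif_pos ht.1, ht.1.choose_spec.2, add_self']
      exact Submodule.zero_mem _) hΨ
    have h2 := (Submodule.mem_bot _).mp h
    simp only [LinearMap.add_apply, LinearMap.comp_apply, LinearMap.id_apply] at h2
    calc imC (redVec k m) (σ (Ψ w)) = imC (redVec k m) (σ (Ψ w)) + Ψ w + Ψ w := by
          rw [add_assoc, add_self', add_zero]
      _ = Ψ w := by rw [h2, zero_add]
  refine ⟨σ (Ψ w), hσmem, mem_rel_of_imC hm (Submodule.add_mem _ hz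
    (bd_mem (fun s t h ht => pb_mono h ht) hσmem)) ?_⟩
  rw [map_add, imC_bd _ (hinjP (c + 1)) hσmem, hback, hΨb, add_self']

end Vale.Agent.P067.KO
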