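import Vale.Agent.P067.KO.Pins

/-!
Auxiliary facts for the quotients of the lattice complex: degrees of rational functions, lattices
under the action, the congruence subgroups and chains modulo translations.
-/

namespace Vale.Agent.P067.KO.Quot

open Finset Vale.Agent.P067.Sub Matrix

variable {k : Type*} [Field k] {n : ℕ}

/-- degree at most `z` -/
def Dg (f : RatFunc k) (z : ℤ) : Prop := f = 0 ∨ f.intDegree ≤ z

theorem dg_mono {f : RatFunc k} {z z' : ℤ} (h : Dg f z) (hz : z ≤ z') : Dg f z' :=
  h.imp id fun h => h.trans hz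

theorem dg_add {f g : RatFunc k} {z : ℤ} (hf : Dg f z) (hg : Dg g z) : Dg (f + g) z := by
  by_cases h2 : g = 0
  · simpa [h2] using hf
  by_cases h1 : f = 0
  · simpa [h1] using hg
  by_cases h3 : f + g = 0
  · exact Or.inl h3
  exact Or.inr ((RatFunc.intDegree_add_le h2 h3).trans
    (max_le (hf.resolve_left h1) (hg.resolve_left h2)))

theorem dg_neg {f : RatFunc k} {z : ℤ} (hf : Dg f z) : Dg (-f) z := by
  rcases hf with h | h
  · exact Or.inl (by simp [h])
  · exact Or.inr (by rwa [RatFunc.intDegree_neg])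

theorem dg_mul {f g : RatFunc k} {z z' : ℤ} (hf : Dg f z) (hg : Dg g z') :
    Dg (f * g) (z + z') := by
  by_cases h1 : f = 0
  · exact Or.inl (by simp [h1])
  by_cases h2 : g = 0
  · exact Or.inl (by simp [h2])
  refine Or.inr ?_
  rw [RatFunc.intDegree_mul h1 h2]
  exact add_le_add (hf.resolve_left h1) (hg.resolve_left h2)

theorem dg_sum {ι : Type*} {s : Finset ι} {f : ι → RatFunc k} {z : ℤ}
    (h : ∀ i ∈ s, Dg (f i) z) : Dg (∑ i ∈ s, f i) z :=
  Finset.sum_induction f (Dg · z) (fun _ _ => dg_add) (Or.inl rfl) h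

theorem dg_C (c : k) : Dg (RatFunc.C c) 0 := Or.inr (by simp)

theorem dg_X : Dg (RatFunc.X : RatFunc k) 1 := Or.inr (by simp)

theorem dg_inv_X : Dg (RatFunc.X : RatFunc k)⁻¹ (-1) := Or.inr (by simp)

theorem dg_poly (p : Polynomial k) :
    Dg (algebraMap (Polynomial k) (RatFunc k) p) p.natDegree := Or.inr (by simp)

/-- a rational function of degree at most `z` has a coefficient at `z` -/
theorem dg_coeff {f : RatFunc k} {z : ℕ} (hf : Dg f (z : ℤ)) :
    ∃ c : k, Dg (f - RatFunc.C c * RatFunc.X ^ z) ((z : ℤ) - 1) := by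
  by_cases h0 : f = 0
  · exact ⟨0, Or.inl (by simp [h0])⟩
  have hd := hf.resolve_left h0
  set p := f.num with hp
  set q := f.denom with hq
  have hq0 : q ≠ 0 := f.denom_ne_zero
  have hmon : q.Monic := f.monic_denom
  have hpq : (p.natDegree : ℤ) ≤ (q.natDegree : ℤ) + z := by
    have : (p.natDegree : ℤ) - q.natDegree ≤ z := hd
    omega
  refine ⟨p.coeff (q.natDegree + z), ?_⟩
  set c := p.coeff (q.natDegree + z)
  set r := p - Polynomial.C c * Polynomial.X ^ z * q with hr
  have hfr : f - RatFunc.C c * RatFunc.X ^ z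
      = algebraMap (Polynomial k) (RatFunc k) r / algebraMap (Polynomial k) (RatFunc k) q := by
    have hq' : algebraMap (Polynomial k) (RatFunc k) q ≠ 0 := by simpa using hq0
    rw [eq_div_iff hq', hr, map_sub, map_mul, map_mul, map_pow, RatFunc.algebraMap_C,
      RatFunc.algebraMap_X, sub_mul]
    congr 1
    conv_lhs => rw [← f.num_div_denom]
    rw [← hp, ← hq, div_mul_cancel₀ _ hq']
  rw [hfr]
  by_cases hr0 : r = 0
  · exact Or.inl (by simp [hr0])
  refine Or.inr ?_
  rw [RatFunc.intDegree_div (by simpa using hr0) (by simpa using hq0),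
    RatFunc.intDegree_polynomial, RatFunc.intDegree_polynomial]
  have hle : r.natDegree ≤ q.natDegree + z := by
    refine (Polynomial.natDegree_sub_le _ _).trans (max_le (by omega) ?_)
    refine Polynomial.natDegree_mul_le.trans ?_
    have := (Polynomial.natDegree_C_mul_X_pow_le c z)
    omega
  have hlt : r.natDegree ≠ q.natDegree + z := by
    intro he
    refine Polynomial.leadingCoeff_ne_zero.mpr hr0 ?_
    rw [Polynomial.leadingCoeff, he, hr, Polynomial.coeff_sub, mul_assoc, Polynomial.coeff_C_mul,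
      mul_comm (Polynomial.X ^ z) q, Polynomial.coeff_mul_X_pow, hmon.coeff_natDegree, mul_one,
      sub_self]
  omega

/-- a polynomial which is zero or of negative degree is zero -/
theorem dg_poly_neg {p : Polynomial k} {z : ℤ} (hz : z < 0)
    (h : Dg (algebraMap (Polynomial k) (RatFunc k) p) z) : p = 0 := by
  rcases h with h | h
  · simpa using h
  · rw [RatFunc.intDegree_polynomial] at h
    omega

/-- polynomial vectors as rational vectors -/
noncomputable def emb (v : Fin n → Polynomial k) : Fin n → RatFunc k :=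
  fun i => algebraMap (Polynomial k) (RatFunc k) (v i)

/-- the action on columns of rational functions -/
noncomputable def rAct (g : Gam n k) (v : Fin n → RatFunc k) : Fin n → RatFunc k :=
  ((g : Matrix (Fin n) (Fin n) (Polynomial k)).map (algebraMap (Polynomial k) (RatFunc k))) *ᵥ v

theorem rAct_emb (g : Gam n k) (v : Fin n → Polynomial k) :
    rAct g (emb v) = emb ((g : Matrix (Fin n) (Fin n) (Polynomial k)) *ᵥ v) := by
  funext i
  simp [rAct, emb, mulVec, dotProduct]

theorem rAct_smul (g : Gam n k) (a : RatFunc k) (v : Fin n → RatFunc k) :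
    rAct g (a • v) = a • rAct g v := mulVec_smul _ _ _

theorem rAct_mul (g h : Gam n k) (v : Fin n → RatFunc k) :
    rAct (g * h) v = rAct g (rAct h v) := by
  simp [rAct, mulVec_mulVec, Matrix.map_mul]

theorem rAct_one (v : Fin n → RatFunc k) : rAct (1 : Gam n k) v = v := by
  simp [rAct, Matrix.map_one]

theorem rAct_cancel (g : Gam n k) (v : Fin n → RatFunc k) : rAct g⁻¹ (rAct g v) = v := by
  rw [← rAct_mul, inv_mul_cancel, rAct_one]

theorem mem_gamAct {g : Gam n k} {L : Lat k n} {v : Fin n → RatFunc k} :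
    v ∈ gamAct g L ↔ ∃ w ∈ L, rAct g w = v := Submodule.mem_map

theorem mem_gamAct_iff {g : Gam n k} {L : Lat k n} {v : Fin n → RatFunc k} :
    v ∈ gamAct g L ↔ rAct g⁻¹ v ∈ L := by
  rw [mem_gamAct]
  constructor
  · rintro ⟨w, hw, rfl⟩
    rwa [rAct_cancel]
  · intro h
    exact ⟨_, h, by rw [← rAct_mul, mul_inv_cancel, rAct_one]⟩

theorem gamAct_mono_q (g : Gam n k) {L M : Lat k n} (h : L ≤ M) : gamAct g L ≤ gamAct g M :=
  Submodule.map_mono h

theorem gamAct_one_q (L : Lat k n) : gamAct (1 : Gam n k) L = L := by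
  ext v
  simp [mem_gamAct_iff, rAct_one]

theorem gamAct_mul_q (g h : Gam n k) (L : Lat k n) :
    gamAct (g * h) L = gamAct g (gamAct h L) := by
  ext v
  simp [mem_gamAct_iff, _root_.mul_inv_rev, rAct_mul]

theorem gamAct_inv (g : Gam n k) (L : Lat k n) : gamAct g⁻¹ (gamAct g L) = L := by
  rw [← gamAct_mul_q, inv_mul_cancel, gamAct_one_q]

theorem gamAct_inj_q (g : Gam n k) : Function.Injective (gamAct g) :=
  Function.LeftInverse.injective (gamAct_inv g)

theorem mem_shift_q {L : Lat k n} {v : Fin n → RatFunc k} :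
    v ∈ shift L ↔ (RatFunc.X : RatFunc k)⁻¹ • v ∈ L := by
  constructor
  · rintro ⟨w, hw, rfl⟩
    simpa [smul_smul, RatFunc.X_ne_zero] using hw
  · intro h
    exact ⟨_, h, by simp [smul_smul, RatFunc.X_ne_zero]⟩

theorem shift_mono {L M : Lat k n} (h : L ≤ M) : shift L ≤ shift M := Submodule.map_mono h

theorem shift_gamAct (g : Gam n k) (L : Lat k n) : shift (gamAct g L) = gamAct g (shift L) := by
  ext v
  simp [mem_shift_q, mem_gamAct_iff, rAct_smul]

theorem mem_stdLat_q {a : Fin n → ℤ} {v : Fin n → RatFunc k} :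
    v ∈ stdLat a ↔ ∀ i, Dg (v i) (a i) := Iff.rfl

theorem stdLat_mono {a b : Fin n → ℤ} (h : ∀ i, a i ≤ b i) :
    (stdLat a : Lat k n) ≤ stdLat b := fun _ hv i => dg_mono (hv i) (h i)

/-- constants act on lattices -/
theorem C_smul_mem (c : k) {L : Lat k n} {v : Fin n → RatFunc k} (h : v ∈ L) :
    RatFunc.C c • v ∈ L := by
  have := L.smul_mem ⟨RatFunc.C c, show (RatFunc.C c).intDegree ≤ 0 by simp⟩ h
  simpa [Subring.smul_def] using this

/-- constant matrices preserve lattices with all degrees equal -/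
theorem gamAct_stdLat_const {g : Gam n k}
    (hg : ∀ i j, ((g : Matrix (Fin n) (Fin n) (Polynomial k)) i j).natDegree = 0) (z : ℤ) :
    gamAct g (stdLat fun _ => z) ≤ stdLat fun _ => z := by
  rintro _ ⟨w, hw, rfl⟩ i
  show Dg (∑ j : Fin n, algebraMap (Polynomial k) (RatFunc k)
    ((g : Matrix (Fin n) (Fin n) (Polynomial k)) i j) * w j) z
  refine dg_sum fun j _ => ?_
  have h := dg_poly ((g : Matrix (Fin n) (Fin n) (Polynomial k)) i j)
  rw [hg] at h
  simpa using dg_mul h (hw j)

theorem mem_cong {m : ℕ} {g : Gam n k} :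
    g ∈ cong k n m ↔ ∀ i j, (Polynomial.X : Polynomial k) ^ m ∣
      (g : Matrix (Fin n) (Fin n) (Polynomial k)) i j
        - (1 : Matrix (Fin n) (Fin n) (Polynomial k)) i j := by
  have h1 : ∀ a b : Polynomial k,
      Ideal.Quotient.mk (Ideal.span {(Polynomial.X : Polynomial k) ^ m}) a
        = Ideal.Quotient.mk (Ideal.span {(Polynomial.X : Polynomial k) ^ m}) b ↔
      (Polynomial.X : Polynomial k) ^ m ∣ a - b := fun a b => by
    rw [Ideal.Quotient.mk_eq_mk_iff_sub_mem, Ideal.mem_span_singleton]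
  rw [cong, MonoidHom.mem_ker]
  constructor
  · intro h i j
    rw [← h1]
    have h2 := Matrix.ext_iff.mpr (congrArg Subtype.val h) i j
    simpa [Matrix.one_apply, apply_ite] using h2
  · intro h
    ext i j
    have := (h1 _ _).mpr (h i j)
    simpa [Matrix.one_apply, apply_ite] using this

section Chains

variable {G α : Type*} [DecidableEq α] {act : G → α → α} {H : Set G} {P : Finset α → Prop}

theorem gen_mem_Rel {c : ℕ} {g : G} (hg : g ∈ H) {s : Finset α} (hs : Sz P c s) :
    sg s + sg (s.image (act g)) ∈ Rel act H P c :=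
  Submodule.subset_span ⟨g, hg, s, hs, rfl⟩

end Chains

end Vale.Agent.P067.KO.Quot
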