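import Vale.Agent.P067.KO.Milnor

/-!
The staircase: if the stabilisers of the larger faces of an acyclic complex have vanishing
homology in lower sizes, every class of the group comes from the stabilisers of the vertices.
-/

namespace Vale.Agent.P067.KO

open Finset Vale.Agent.P067.Sub

variable {G V : Type*} [Group G] [DecidableEq G] [DecidableEq V]

/-- the bicomplex of pairs of faces -/
abbrev Bi (V G : Type*) : Type _ := (Finset V × Finset (G × ℕ)) →₀ ZMod 2

/-- one pair -/
noncomputable def bs (p : Finset V × Finset (G × ℕ)) : Bi V G := Finsupp.single p 1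

/-- the linear map with prescribed values on pairs -/
noncomputable def liftB {M : Type*} [AddCommGroup M] [Module (ZMod 2) M]
    (f : Finset V × Finset (G × ℕ) → M) : Bi V G →ₗ[ZMod 2] M :=
  Finsupp.linearCombination (ZMod 2) f

omit [Group G] [DecidableEq G] [DecidableEq V] in
theorem liftB_bs {M : Type*} [AddCommGroup M] [Module (ZMod 2) M]
    (f : Finset V × Finset (G × ℕ) → M) (p : Finset V × Finset (G × ℕ)) :
    liftB f (bs p) = f p := by
  simp [liftB, bs, Finsupp.linearCombination_single]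

omit [Group G] [DecidableEq G] [DecidableEq V] in
theorem ext_bs {M : Type*} [AddCommGroup M] [Module (ZMod 2) M] {A B : Bi V G →ₗ[ZMod 2] M}
    (h : ∀ p, A (bs p) = B (bs p)) : A = B :=
  Finsupp.lhom_ext fun s b => by
    have e : Finsupp.single s b = b • bs s := by simp [bs]
    rw [e, map_smul, map_smul, h]

/-- pairs of faces of given sizes -/
def OnB (P : Finset V → Prop) (a b : ℕ) : Submodule (ZMod 2) (Bi V G) :=
  Finsupp.supported (ZMod 2) (ZMod 2) {p | Sz P a p.1 ∧ Sz MilnorFace b p.2}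

omit [Group G] [DecidableEq G] [DecidableEq V] in
theorem bs_mem {P : Finset V → Prop} {a b : ℕ} {p : Finset V × Finset (G × ℕ)}
    (h1 : Sz P a p.1) (h2 : Sz MilnorFace b p.2) : bs p ∈ OnB P a b :=
  Finsupp.single_mem_supported _ _ ⟨h1, h2⟩

omit [Group G] [DecidableEq G] [DecidableEq V] in
theorem mapB {P : Finset V → Prop} {a b : ℕ} {M : Type*} [AddCommGroup M] [Module (ZMod 2) M]
    {S : Submodule (ZMod 2) M} (A : Bi V G →ₗ[ZMod 2] M)
    (h : ∀ p, Sz P a p.1 → Sz MilnorFace b p.2 → A (bs p) ∈ S) {z : Bi V G}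
    (hz : z ∈ OnB P a b) : A z ∈ S := by
  rw [← Finsupp.sum_single z, Finsupp.sum, map_sum]
  refine Submodule.sum_mem _ fun s hs => ?_
  have e : Finsupp.single s (z s) = z s • bs s := by simp [bs]
  rw [e, map_smul]
  exact Submodule.smul_mem _ _ (h s (hz hs).1 (hz hs).2)

/-- the boundary in the first factor -/
noncomputable def dL : Bi V G →ₗ[ZMod 2] Bi V G :=
  liftB fun p => ∑ x ∈ p.1, bs (p.1.erase x, p.2)

/-- the boundary in the second factor -/
noncomputable def dR : Bi V G →ₗ[ZMod 2] Bi V G :=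
  liftB fun p => ∑ y ∈ p.2, bs (p.1, p.2.erase y)

/-- a chain paired with a fixed face on the left -/
noncomputable def pl (σ : Finset V) : Ch (G × ℕ) →ₗ[ZMod 2] Bi V G := liftC fun t => bs (σ, t)

/-- a chain paired with a fixed face on the right -/
noncomputable def pr (t : Finset (G × ℕ)) : Ch V →ₗ[ZMod 2] Bi V G := liftC fun σ => bs (σ, t)

omit [Group G] in
theorem dR_pl (σ : Finset V) (z : Ch (G × ℕ)) : dR (pl σ z) = pl σ (bd z) := by
  have h : dR.comp (pl (V := V) (G := G) σ) = (pl σ).comp bd := Sub.ext_sg fun t => by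
    simp [dR, pl, liftC_sg, liftB_bs, bd_sg, map_sum]
  exact LinearMap.congr_fun h z

omit [Group G] in
theorem dL_pr (t : Finset (G × ℕ)) (z : Ch V) : dL (pr t z) = pr t (bd z) := by
  have h : dL.comp (pr (V := V) (G := G) t) = (pr t).comp bd := Sub.ext_sg fun s => by
    simp [dL, pr, liftC_sg, liftB_bs, bd_sg, map_sum]
  exact LinearMap.congr_fun h z

omit [Group G] in
theorem dL_dR (z : Bi V G) : dL (dR z) = dR (dL z) := by
  have h : dL.comp dR = (dR : Bi V G →ₗ[ZMod 2] Bi V G).comp dL := ext_bs fun p => by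
    simp only [LinearMap.comp_apply, dL, dR, liftB_bs, map_sum]
    exact Finset.sum_comm
  exact LinearMap.congr_fun h z

omit [Group G] in
theorem dR_dR (z : Bi V G) : dR (dR z) = 0 := by
  have h : dR.comp dR = (0 : Bi V G →ₗ[ZMod 2] Bi V G) := ext_bs fun p => by
    have e : bs p = pl p.1 (sg p.2) := by simp [pl, liftC_sg]
    rw [LinearMap.comp_apply, e, dR_pl, dR_pl, bd_bd, map_zero, LinearMap.zero_apply]
  exact LinearMap.congr_fun h z

omit [Group G] in
theorem dL_dL (z : Bi V G) : dL (dL z) = 0 := by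
  have h : dL.comp dL = (0 : Bi V G →ₗ[ZMod 2] Bi V G) := ext_bs fun p => by
    have e : bs p = pr p.2 (sg p.1) := by simp [pr, liftC_sg]
    rw [LinearMap.comp_apply, e, dL_pr, dL_pr, bd_bd, map_zero, LinearMap.zero_apply]
  exact LinearMap.congr_fun h z

omit [Group G] in
theorem dR_OnB {P : Finset V → Prop} {a b : ℕ} {z : Bi V G} (hz : z ∈ OnB P a (b + 1)) :
    dR z ∈ OnB P a b := by
  refine mapB dR (fun p h1 h2 => ?_) hz
  rw [dR, liftB_bs]
  exact Submodule.sum_mem _ fun y hy => bs_mem h1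
    ⟨h2.1.mono (Finset.erase_subset _ _), by rw [Finset.card_erase_of_mem hy, h2.2]; rfl⟩

omit [Group G] in
theorem dR_zero {P : Finset V → Prop} {a : ℕ} {z : Bi V G} (hz : z ∈ OnB P a 0) : dR z = 0 := by
  have : dR z ∈ (⊥ : Submodule (ZMod 2) (Bi V G)) := mapB dR
    (fun p _ h2 => by simp [dR, liftB_bs, Finset.card_eq_zero.mp h2.2]) hz
  simpa using this

omit [Group G] in
theorem dL_OnB {P : Finset V → Prop} (hP : Down P) {a b : ℕ} {z : Bi V G}
    (hz : z ∈ OnB P (a + 1) b) : dL z ∈ OnB P a b := by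
  refine mapB dL (fun p h1 h2 => ?_) hz
  rw [dL, liftB_bs]
  exact Submodule.sum_mem _ fun x hx => bs_mem
    ⟨hP _ _ h1.1 (Finset.erase_subset _ _), by rw [Finset.card_erase_of_mem hx, h1.2]; rfl⟩ h2

omit [Group G] [DecidableEq G] [DecidableEq V] in
theorem pl_OnB {P : Finset V → Prop} {a b : ℕ} {σ : Finset V} (hσ : Sz P a σ) {z : Ch (G × ℕ)}
    (hz : z ∈ On (Sz MilnorFace b)) : pl σ z ∈ OnB P a b :=
  mapC_On (pl σ) (fun t ht => by rw [pl, liftC_sg]; exact bs_mem hσ ht) hz

/-- the translate of a pair -/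
def mv (act : G → V → V) (g : G) (p : Finset V × Finset (G × ℕ)) : Finset V × Finset (G × ℕ) :=
  (p.1.image (act g), p.2.image (milnorAct g))

/-- the relations of the bicomplex -/
noncomputable def RelB (act : G → V → V) (N : Subgroup G) (P : Finset V → Prop) (a b : ℕ) :
    Submodule (ZMod 2) (Bi V G) :=
  Submodule.span (ZMod 2) {x | ∃ g ∈ N, ∃ p : Finset V × Finset (G × ℕ),
    Sz P a p.1 ∧ Sz MilnorFace b p.2 ∧ x = bs p + bs (mv act g p)}

variable {act : G → V → V} {N : Subgroup G} {P : Finset V → Prop}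

theorem RelB_le {a b : ℕ} {M : Type*} [AddCommGroup M] [Module (ZMod 2) M]
    {S : Submodule (ZMod 2) M} (A : Bi V G →ₗ[ZMod 2] M)
    (h : ∀ g ∈ N, ∀ p, Sz P a p.1 → Sz MilnorFace b p.2 → A (bs p) + A (bs (mv act g p)) ∈ S)
    {z : Bi V G} (hz : z ∈ RelB act N P a b) : A z ∈ S := by
  refine (Submodule.span_le.mpr ?_ : RelB act N P a b ≤ S.comap A) hz
  rintro x ⟨g, hg, p, h1, h2, rfl⟩
  rw [SetLike.mem_coe, Submodule.mem_comap, map_add]
  exact h g hg p h1 h2

theorem dR_RelB {a b : ℕ} {z : Bi V G} (hz : z ∈ RelB act N P a (b + 1)) :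
    dR z ∈ RelB act N P a b := by
  refine RelB_le dR (fun g hg p h1 h2 => ?_) hz
  simp only [dR, liftB_bs, mv]
  rw [Finset.sum_image (fun x _ y _ h => milnorAct_isAct.inj g h), ← Finset.sum_add_distrib]
  refine Submodule.sum_mem _ fun y hy => ?_
  rw [← Finset.image_erase (milnorAct_isAct.inj g)]
  exact Submodule.subset_span ⟨g, hg, (p.1, p.2.erase y), h1,
    ⟨h2.1.mono (Finset.erase_subset _ _), by rw [Finset.card_erase_of_mem hy, h2.2]; rfl⟩, rfl⟩

variable (hA : IsAct act) (hP : Down P) (hi : ∀ g s, P s → P (s.image (act g)))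

include hA hP in
theorem dL_RelB {a b : ℕ} {z : Bi V G} (hz : z ∈ RelB act N P (a + 1) b) :
    dL z ∈ RelB act N P a b := by
  refine RelB_le dL (fun g hg p h1 h2 => ?_) hz
  simp only [dL, liftB_bs, mv]
  rw [Finset.sum_image (fun x _ y _ h => hA.inj g h), ← Finset.sum_add_distrib]
  refine Submodule.sum_mem _ fun y hy => ?_
  rw [← Finset.image_erase (hA.inj g)]
  exact Submodule.subset_span ⟨g, hg, (p.1.erase y, p.2),
    ⟨hP _ _ h1.1 (Finset.erase_subset _ _), by rw [Finset.card_erase_of_mem hy, h1.2]; rfl⟩,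
    h2, rfl⟩

omit [DecidableEq G] in
theorem exists_reps {β : Type*} [DecidableEq β] {actB : G → β → β} (hB : IsAct actB)
    (N : Subgroup G) :
    ∃ (rep : Finset β → Finset β) (gs : Finset β → G), (∀ s, gs s ∈ N) ∧
      (∀ s, (rep s).image (actB (gs s)) = s) ∧
      ∀ g ∈ N, ∀ s, rep (s.image (actB g)) = rep s := by
  classical
  let st : Setoid (Finset β) :=
    ⟨fun s t => ∃ g ∈ N, s.image (actB g) = t, fun s => ⟨1, N.one_mem, hB.image_one s⟩,
      fun {s t} ⟨g, hg, hgs⟩ => ⟨g⁻¹, N.inv_mem hg, by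
        rw [← hgs, ← hB.image_mul, inv_mul_cancel, hB.image_one]⟩,
      fun {s t u} ⟨g, hg, hgs⟩ ⟨g', hg', hgt⟩ => ⟨g' * g, N.mul_mem hg' hg, by
        rw [hB.image_mul, hgs, hgt]⟩⟩
  have h : ∀ s, ∃ g ∈ N, ((Quotient.mk st s).out).image (actB g) = s := fun s =>
    Quotient.exact (Quotient.out_eq (Quotient.mk st s))
  choose gs h1 h2 using h
  refine ⟨fun s => (Quotient.mk st s).out, gs, h1, h2, fun g hg s => ?_⟩
  show (Quotient.mk st _).out = (Quotient.mk st s).out
  rw [Quotient.sound (s := st) (a := s) (b := s.image (actB g)) ⟨g, hg, rfl⟩]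

omit [Group G] [DecidableEq G] [DecidableEq V] in
theorem OnB_support {a b : ℕ} {z : Bi V G} (hz : z ∈ OnB P a b)
    {p : Finset V × Finset (G × ℕ)} (hp : p ∈ z.support) :
    Sz P a p.1 ∧ Sz MilnorFace b p.2 := hz hp

omit [Group G] [DecidableEq G] [DecidableEq V] in
theorem bi_eq_self {a b : ℕ} {z : Bi V G} (hz : z ∈ OnB P a b) (A : Bi V G →ₗ[ZMod 2] Bi V G)
    {S : Submodule (ZMod 2) (Bi V G)}
    (h : ∀ p ∈ z.support, Sz P a p.1 → Sz MilnorFace b p.2 → bs p + A (bs p) ∈ S) :
    z + A z ∈ S := by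
  rw [show z + A z = ((LinearMap.id : Bi V G →ₗ[ZMod 2] Bi V G) + A) z from rfl, ← Finsupp.sum_single z, Finsupp.sum, map_sum]
  refine Submodule.sum_mem _ fun s hs => ?_
  have e : Finsupp.single s (z s) = z s • bs s := by simp [bs]
  rw [e, map_smul]
  exact Submodule.smul_mem _ _ (h s hs (hz hs).1 (hz hs).2)

include hA hi in
/-- cycles in the first factor bound -/
theorem fillL {n : ℕ} (hAcy : Acy P n) {a b : ℕ} (hb : 1 ≤ b) (ha : a < n) {w : Bi V G}
    (hw : w ∈ OnB P a b) (hdw : dL w ∈ RelB act N P (a - 1) b) :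
    ∃ u ∈ OnB P (a + 1) b, w + dL u ∈ RelB act N P a b := by
  classical
  obtain ⟨rep, gs, hgs, hrep, hrepeq⟩ := exists_reps (milnorAct_isAct (G := G)) N
  have hrepSz : ∀ {t}, Sz (MilnorFace (G := G)) b t → Sz MilnorFace b (rep t) := fun {t} ht => by
    have h1 : rep t = t.image (milnorAct (gs t)⁻¹) := by
      conv_rhs => arg 2; rw [← hrep t]
      rw [← milnorAct_isAct.image_mul, inv_mul_cancel, milnorAct_isAct.image_one]
    rw [h1]
    exact ⟨milnor_invariant _ ht.1,
      (Finset.card_image_of_injective _ (milnorAct_isAct.inj _)).trans ht.2⟩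
  let Nm : Bi V G →ₗ[ZMod 2] Bi V G :=
    liftB fun p => bs (p.1.image (act (gs p.2)⁻¹), rep p.2)
  have hkill : ∀ {a'} {x : Bi V G}, x ∈ RelB act N P a' b → Nm x = 0 := by
    intro a' x hx
    refine (Submodule.mem_bot (ZMod 2)).mp (RelB_le Nm (fun g hg p _ h2 => ?_) hx)
    have hne : (rep p.2).Nonempty := Finset.card_pos.mp (by rw [(hrepSz h2).2]; omega)
    have e1 : gs (p.2.image (milnorAct g)) = g * gs p.2 := by
      have h1 : (rep p.2).image (milnorAct ((g * gs p.2)⁻¹ * gs (p.2.image (milnorAct g)))) =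
          rep p.2 := by
        have h2' := hrep (p.2.image (milnorAct g))
        rw [hrepeq g hg] at h2'
        rw [milnorAct_isAct.image_mul, h2']
        have h3 : p.2.image (milnorAct g) = (rep p.2).image (milnorAct (g * gs p.2)) := by
          rw [milnorAct_isAct.image_mul, hrep]
        rw [h3, ← milnorAct_isAct.image_mul, inv_mul_cancel, milnorAct_isAct.image_one]
      exact (inv_mul_eq_one.mp ((milnor_freeOn N).free _ (N.mul_mem (N.inv_mem
        (N.mul_mem hg (hgs _))) (hgs _)) _ (hrepSz h2).1 hne h1)).symm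
    simp only [Nm, liftB_bs, mv, Submodule.mem_bot]
    rw [hrepeq g hg, e1, ← hA.image_mul, mul_inv_rev, inv_mul_cancel_right]
    exact ZModModule.add_self _
  have hNm : ∀ x, dL (Nm x) = Nm (dL x) := by
    intro x
    refine LinearMap.congr_fun (ext_bs (A := dL.comp Nm) (B := Nm.comp dL) fun p => ?_) x
    simp only [LinearMap.comp_apply, Nm, dL, liftB_bs, map_sum]
    rw [Finset.sum_image (fun x _ y _ h => hA.inj _ h)]
    exact Finset.sum_congr rfl fun x _ => by rw [Finset.image_erase (hA.inj _)]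
  have hw' : Nm w ∈ OnB P a b := mapB Nm (fun p h1 h2 => by
    simp only [Nm, liftB_bs]
    exact bs_mem ⟨hi _ _ h1.1, (Finset.card_image_of_injective _ (hA.inj _)).trans h1.2⟩
      (hrepSz h2)) hw
  have hcyc : dL (Nm w) = 0 := by rw [hNm, hkill hdw]
  have hdiff : w + Nm w ∈ RelB act N P a b := bi_eq_self hw Nm fun p _ h1 h2 => by
    simp only [Nm, liftB_bs]
    refine Submodule.subset_span ⟨(gs p.2)⁻¹, N.inv_mem (hgs _), p, h1, h2, ?_⟩
    congr 2
    unfold mv
    congr 1
    conv_rhs => arg 2; rw [← hrep p.2]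
    rw [← milnorAct_isAct.image_mul, inv_mul_cancel, milnorAct_isAct.image_one]
  let T : Finset (Finset (G × ℕ)) := (Nm w).support.image Prod.snd
  let sl : Finset (G × ℕ) → Bi V G →ₗ[ZMod 2] Ch V := fun t0 =>
    liftB fun p => if p.2 = t0 then sg p.1 else 0
  have hsl : ∀ t0 x, sl t0 (dL x) = bd (sl t0 x) := by
    intro t0 x
    refine LinearMap.congr_fun
      (ext_bs (A := (sl t0).comp dL) (B := bd.comp (sl t0)) fun p => ?_) x
    simp only [LinearMap.comp_apply, sl, dL, liftB_bs, map_sum]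
    split_ifs with h
    · rw [bd_sg]
    · simp
  have hfill : ∀ t0, ∃ y ∈ On (Sz P (a + 1)), bd y = sl t0 (Nm w) := fun t0 =>
    hAcy a ha _ (mapB _ (fun p h1 _ => by
      simp only [sl, liftB_bs]
      split_ifs
      · exact sg_mem h1
      · exact Submodule.zero_mem _) hw') (by rw [← hsl, hcyc, map_zero])
  choose Y hY hY' using hfill
  refine ⟨∑ t ∈ T, pr t (Y t), Submodule.sum_mem _ fun t ht => ?_, ?_⟩
  · obtain ⟨p, hp, rfl⟩ := Finset.mem_image.mp ht
    exact mapC_On (pr p.2) (fun s hs => by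
      rw [pr, liftC_sg]; exact bs_mem hs (OnB_support hw' hp).2) (hY _)
  · have h2 : Nm w + (∑ t ∈ T, (pr t).comp (sl t)) (Nm w) ∈ (⊥ : Submodule (ZMod 2) (Bi V G)) := by
      refine bi_eq_self hw' _ fun p hp _ _ => ?_
      simp only [LinearMap.sum_apply, LinearMap.comp_apply, sl, liftB_bs, apply_ite (pr _),
        map_zero]
      rw [Finset.sum_ite_eq, if_pos (Finset.mem_image_of_mem _ hp), pr, liftC_sg,
        ZModModule.add_self]
      exact Submodule.zero_mem _
    rw [Submodule.mem_bot, LinearMap.sum_apply] at h2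
    simp only [map_sum, dL_pr, hY']
    simp only [LinearMap.comp_apply] at h2
    rw [← (add_eq_zero_iff_eq_neg.mp h2).trans (ZModModule.neg_eq_self _)]
    exact hdiff

include hA hi in
/-- cycles in the second factor bound, given this for the stabilisers -/
theorem fillR {a b : ℕ} {w : Bi V G} (hw : w ∈ OnB P a b)
    (hSt : ∀ r, Sz P a r → ∀ z ∈ On (Sz MilnorFace b),
      bd z ∈ Rel milnorAct {g | g ∈ N ∧ r.image (act g) = r} MilnorFace (b - 1) →
      ∃ u ∈ On (Sz MilnorFace (b + 1)),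
        z + bd u ∈ Rel milnorAct {g | g ∈ N ∧ r.image (act g) = r} MilnorFace b)
    (hdw : dR w ∈ RelB act N P a (b - 1)) :
    ∃ u ∈ OnB P a (b + 1), w + dR u ∈ RelB act N P a b := by
  classical
  obtain ⟨rep, gs, hgs, hrep, hrepeq⟩ := exists_reps hA N
  have hrepSz : ∀ {s}, Sz P a s → Sz P a (rep s) := fun {s} hs => by
    have h1 : rep s = s.image (act (gs s)⁻¹) := by
      conv_rhs => arg 2; rw [← hrep s]
      rw [← hA.image_mul, inv_mul_cancel, hA.image_one]
    rw [h1]
    exact ⟨hi _ _ hs.1, (Finset.card_image_of_injective _ (hA.inj _)).trans hs.2⟩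
  let sl : Finset V → Bi V G →ₗ[ZMod 2] Ch (G × ℕ) := fun r =>
    liftB fun p => if rep p.1 = r then sg (p.2.image (milnorAct (gs p.1)⁻¹)) else 0
  let St : Finset V → Set G := fun r => {g | g ∈ N ∧ r.image (act g) = r}
  have hsl : ∀ r x, sl r (dR x) = bd (sl r x) := by
    intro r x
    refine LinearMap.congr_fun
      (ext_bs (A := (sl r).comp dR) (B := bd.comp (sl r)) fun p => ?_) x
    simp only [LinearMap.comp_apply, sl, dR, liftB_bs, map_sum]
    split_ifs with h
    · rw [bd_sg, Finset.sum_image fun x _ y _ h => milnorAct_isAct.inj _ h]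
      exact Finset.sum_congr rfl fun x _ => by rw [Finset.image_erase (milnorAct_isAct.inj _)]
    · simp
  have hslRel : ∀ r {b' : ℕ} {x : Bi V G}, x ∈ RelB act N P a b' →
      sl r x ∈ Rel milnorAct (St r) MilnorFace b' := by
    intro r b' x hx
    refine RelB_le (sl r) (fun g hg p _ h2 => ?_) hx
    simp only [sl, liftB_bs, mv, hrepeq g hg]
    split_ifs with h
    · have h1 : gs (p.1.image (act g)) ∈ N := hgs _
      refine Submodule.subset_span ⟨(gs (p.1.image (act g)))⁻¹ * g * gs p.1,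
        ⟨N.mul_mem (N.mul_mem (N.inv_mem h1) hg) (hgs _), ?_⟩,
        p.2.image (milnorAct (gs p.1)⁻¹),
        ⟨milnor_invariant _ h2.1,
          (Finset.card_image_of_injective _ (milnorAct_isAct.inj _)).trans h2.2⟩, ?_⟩
      · subst h
        have h3 := hrep (p.1.image (act g))
        rw [hrepeq g hg] at h3
        rw [hA.image_mul, hrep, hA.image_mul]
        conv_lhs => arg 2; rw [← h3]
        rw [← hA.image_mul, inv_mul_cancel, hA.image_one]
      · congr 2
        rw [← milnorAct_isAct.image_mul, ← milnorAct_isAct.image_mul, mul_assoc _ (gs p.1),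
          mul_inv_cancel, mul_one]
    · simp
  have hplRel : ∀ r, Sz P a r → ∀ {x : Ch (G × ℕ)}, x ∈ Rel milnorAct (St r) MilnorFace b →
      pl r x ∈ RelB act N P a b := by
    intro r hr x hx
    refine (Submodule.span_le.mpr ?_ : Rel milnorAct (St r) MilnorFace b ≤
      (RelB act N P a b).comap (pl r)) hx
    rintro y ⟨g, ⟨hg, hgr⟩, t, ht, rfl⟩
    simp only [SetLike.mem_coe, Submodule.mem_comap, map_add, pl, liftC_sg]
    exact Submodule.subset_span ⟨g, hg, (r, t), hr, ht, by simp [mv, hgr]⟩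
  let T : Finset (Finset V) := w.support.image fun p => rep p.1
  have hT : ∀ r ∈ T, Sz P a r := fun r hr => by
    obtain ⟨p, hp, rfl⟩ := Finset.mem_image.mp hr
    exact hrepSz (OnB_support hw hp).1
  have hz : ∀ r, sl r w ∈ On (Sz MilnorFace b) := fun r => mapB _ (fun p _ h2 => by
    simp only [sl, liftB_bs]
    split_ifs
    · exact sg_mem ⟨milnor_invariant _ h2.1,
        (Finset.card_image_of_injective _ (milnorAct_isAct.inj _)).trans h2.2⟩
    · exact Submodule.zero_mem _) hw
  have hfill : ∀ r, ∃ u : Ch (G × ℕ), r ∈ T →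
      u ∈ On (Sz MilnorFace (b + 1)) ∧ sl r w + bd u ∈ Rel milnorAct (St r) MilnorFace b := by
    intro r
    by_cases hr : r ∈ T
    · obtain ⟨u, hu, h⟩ := hSt r (hT r hr) _ (hz r) (by rw [← hsl]; exact hslRel r hdw)
      exact ⟨u, fun _ => ⟨hu, h⟩⟩
    · exact ⟨0, fun h => absurd h hr⟩
  choose U hU using hfill
  refine ⟨∑ r ∈ T, pl r (U r), Submodule.sum_mem _ fun r hr => pl_OnB (hT r hr) (hU r hr).1, ?_⟩
  have h1 : w + (∑ r ∈ T, (pl r).comp (sl r)) w ∈ RelB act N P a b := by
    refine bi_eq_self hw _ fun p hp h1 h2 => ?_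
    simp only [LinearMap.sum_apply, LinearMap.comp_apply, sl, liftB_bs, apply_ite (pl _),
      map_zero]
    rw [Finset.sum_ite_eq, if_pos (Finset.mem_image_of_mem (fun p => rep p.1) hp), pl, liftC_sg]
    refine Submodule.subset_span ⟨(gs p.1)⁻¹, N.inv_mem (hgs _), p, h1, h2, ?_⟩
    congr 2
    unfold mv
    congr 1
    conv_rhs => arg 2; rw [← hrep p.1]
    rw [← hA.image_mul, inv_mul_cancel, hA.image_one]
  have h2 : ∑ r ∈ T, pl r (sl r w + bd (U r)) ∈ RelB act N P a b :=
    Submodule.sum_mem _ fun r hr => hplRel r (hT r hr) (hU r hr).2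
  have h3 := Submodule.add_mem _ h1 h2
  simp only [LinearMap.sum_apply, LinearMap.comp_apply, map_add, Finset.sum_add_distrib] at h3
  simp only [map_sum, dR_pl]
  rwa [add_assoc, ← add_assoc (∑ r ∈ T, pl r (sl r w)), ZModModule.add_self, zero_add] at h3

end Vale.Agent.P067.KO
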