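import Vale.Agent.P067.KO.Stair

/-!
The staircase in the bicomplex: every class of a group comes from the stabilisers of vertices.
-/

namespace Vale.Agent.P067.KO

open Finset Vale.Agent.P067.Sub

variable {G V : Type*} [Group G] [DecidableEq G] [DecidableEq V]
  {act : G → V → V} {N : Subgroup G} {P : Finset V → Prop}
  (hA : IsAct act) (hP : Down P) (hi : ∀ g s, P s → P (s.image (act g)))

/-- the stabiliser of a set inside the group -/
def stab (act : G → V → V) (N : Subgroup G) (r : Finset V) : Set G :=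
  {g | g ∈ N ∧ r.image (act g) = r}

omit [Group G] [DecidableEq V] in
theorem OnB_zero_eq {a : ℕ} {w : Bi V G} (hw : w ∈ OnB P a 0) :
    ∃ z ∈ On (Sz P a), w = pr ∅ z := by
  refine ⟨liftB (fun p => sg p.1) w, mapB _ (fun p h1 _ => by
    rw [liftB_bs]; exact sg_mem h1) hw, ?_⟩
  have h := bi_eq_self hw ((pr (V := V) (G := G) ∅).comp (liftB fun p => sg p.1)) (S := ⊥)
    fun p _ _ h2 => by
      have e : p.2 = ∅ := Finset.card_eq_zero.mp h2.2
      simp only [LinearMap.comp_apply, liftB_bs, pr, liftC_sg, Submodule.mem_bot]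
      rw [← e]
      exact ZModModule.add_self _
  rw [Submodule.mem_bot] at h
  exact (add_eq_zero_iff_eq_neg.mp h).trans (ZModModule.neg_eq_self _)

include hA hi in
/-- cycles in the first factor with empty second factor bound, from the coinvariants -/
theorem fillL_zero {n : ℕ} (hCo : CoAcy act (N : Set G) P n) {a : ℕ} (ha : 1 ≤ a) (han : a < n)
    {w : Bi V G} (hw : w ∈ OnB P a 0) (hdw : dL w ∈ RelB act N P (a - 1) 0) :
    ∃ y ∈ OnB P (a + 1) 0, w + dL y ∈ RelB act N P a 0 := by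
  obtain ⟨z, hz, rfl⟩ := OnB_zero_eq hw
  let π : Bi V G →ₗ[ZMod 2] Ch V := liftB fun p => sg p.1
  have hπ : ∀ x : Ch V, π (pr ∅ x) = x := by
    intro x
    refine LinearMap.congr_fun (Sub.ext_sg (A := π.comp (pr ∅)) (B := LinearMap.id) fun s => ?_) x
    simp [π, pr, liftC_sg, liftB_bs]
  have h1 : bd z ∈ Rel act (N : Set G) P (a - 1) := by
    rw [dL_pr] at hdw
    have := RelB_le π (S := Rel act (N : Set G) P (a - 1)) (fun g hg p h1 _ => by
      simp only [π, liftB_bs, mv]
      exact Submodule.subset_span ⟨g, hg, p.1, h1, rfl⟩) hdw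
    rwa [hπ] at this
  obtain ⟨u, hu, hzu⟩ := hCo a ha han z hz h1
  refine ⟨pr ∅ u, mapC_On (pr ∅) (fun s hs => by
    rw [pr, liftC_sg]; exact bs_mem hs ⟨by intro x hx; simp at hx, rfl⟩) hu, ?_⟩
  rw [dL_pr, ← map_add]
  refine (Submodule.span_le.mpr ?_ : Rel act (N : Set G) P a ≤
    (RelB act N P a 0).comap (pr ∅)) hzu
  rintro y ⟨g, hg, s, hs, rfl⟩
  simp only [SetLike.mem_coe, Submodule.mem_comap, map_add, pr, liftC_sg]
  exact Submodule.subset_span ⟨g, hg, (s, ∅), hs, ⟨by intro x hx; simp at hx, rfl⟩, by simp [mv]⟩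

include hA hP hi in
/-- every class comes from the stabilisers of the vertices -/
theorem staircase {n c : ℕ} (hc : 1 ≤ c) (hcn : c < n) (hAcy : Acy P n) (hPe : P ∅)
    (hCo : CoAcy act (N : Set G) P n)
    (hSt : ∀ r b, 1 ≤ b → 2 ≤ r.card → r.card + b = c + 1 → P r →
      cyc milnorAct (stab act N r) MilnorFace b ≤ bnd milnorAct (stab act N r) MilnorFace b)
    {z : Ch (G × ℕ)} (hz : z ∈ cyc milnorAct (N : Set G) MilnorFace c) :
    z ∈ bnd milnorAct (N : Set G) MilnorFace c ⊔
      ⨆ v : {v : V // P {v}}, cyc milnorAct (stab act N {v.1}) MilnorFace c := by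
  classical
  obtain ⟨hz, hbz⟩ := mem_cyc.mp hz
  have hR : ∀ {a b : ℕ} {w : Bi V G}, 2 ≤ a → a + b = c + 1 → w ∈ OnB P a b →
      dR w ∈ RelB act N P a (b - 1) →
      ∃ u ∈ OnB P a (b + 1), w + dR u ∈ RelB act N P a b := by
    intro a b w ha hab hw hdw
    refine fillR hA hi hw (fun r hr y hy hyb => ?_) hdw
    rcases b with _ | b
    · obtain ⟨u, hu, huy⟩ := milnor_acy 1 0 Nat.zero_lt_one y hy (bd_zero_card hy)
      exact ⟨u, hu, by rw [huy, ZModModule.add_self]; exact Submodule.zero_mem _⟩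
    · exact mem_bnd.mp (hSt r (b + 1) (by omega) (by rw [hr.2]; exact ha)
        (by rw [hr.2]; exact hab) hr.1 (mem_cyc.mpr ⟨hy, hyb⟩))
  have claim : ∀ b a, 1 ≤ a → a + b = c → ∀ x ∈ OnB P a (b + 1),
      dL (dR x) ∈ RelB act N P (a - 1) b →
      ∃ v ∈ OnB P (a + 1) (b + 1), dR (x + dL v) ∈ RelB act N P a b := by
    intro b
    induction b with
    | zero =>
      intro a ha hab x hx hdx
      obtain ⟨y, hy, hxy⟩ := fillL_zero hA hi hCo ha (by omega) (dR_OnB hx) hdx
      obtain ⟨v, hv, hyv⟩ := hR (a := a + 1) (b := 0) (by omega) (by omega) hy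
        (by rw [dR_zero hy]; exact Submodule.zero_mem _)
      refine ⟨v, hv, ?_⟩
      have h := dL_RelB hA hP hyv
      rw [map_add, dL_dR] at h
      rw [map_add]
      exact add_trans_mem hxy h
    | succ b ih =>
      intro a ha hab x hx hdx
      obtain ⟨x₂, hx₂, hxx⟩ := fillL hA hi hAcy (Nat.succ_pos b) (show a < n by omega)
        (dR_OnB hx) hdx
      have hd : dL (dR x₂) ∈ RelB act N P a b := by
        have := dR_RelB hxx
        rwa [map_add, dR_dR, zero_add, ← dL_dR] at this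
      obtain ⟨v₂, hv₂, hxv⟩ := ih (a + 1) (by omega) (by omega) x₂ hx₂
        (by simpa using hd)
      obtain ⟨v, hv, hvv⟩ := hR (a := a + 1) (b := b + 1) (by omega) (by omega)
        (Submodule.add_mem _ hx₂ (dL_OnB hP hv₂)) (by simpa using hxv)
      refine ⟨v, hv, ?_⟩
      have h := dL_RelB hA hP hvv
      rw [map_add, map_add, dL_dL, add_zero, dL_dR] at h
      rw [map_add]
      exact add_trans_mem hxx h
  obtain ⟨x, hx, hwx⟩ := fillL hA hi hAcy hc (show 0 < n by omega)
    (pl_OnB (show Sz P 0 (∅ : Finset V) from ⟨hPe, rfl⟩) hz) (by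
    have : dL (pl (V := V) ∅ z) ∈ (⊥ : Submodule (ZMod 2) (Bi V G)) :=
      mapC_On (dL.comp (pl ∅)) (fun t _ => by simp [pl, dL, liftC_sg, liftB_bs]) hz
    rw [(Submodule.mem_bot _).mp this]
    exact Submodule.zero_mem _)
  obtain ⟨c', rfl⟩ : ∃ d, c = d + 1 := ⟨c - 1, by omega⟩
  obtain ⟨v, hv, hxv⟩ := claim c' 1 le_rfl (by omega) x hx (by
    have h1 := dR_RelB hwx
    rw [map_add, dR_pl, ← dL_dR] at h1
    refine add_eq_iff (b := pl ∅ (bd z)) (by rwa [add_comm]) ?_
    refine (Submodule.span_le.mpr ?_ : Rel milnorAct (N : Set G) MilnorFace c' ≤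
      (RelB act N P 0 c').comap (pl ∅)) hbz
    rintro y ⟨g, hg, t, ht, rfl⟩
    simp only [SetLike.mem_coe, Submodule.mem_comap, map_add, pl, liftC_sg]
    exact Submodule.subset_span ⟨g, hg, (∅, t), ⟨hPe, rfl⟩, ht, by simp [mv]⟩)
  set x' := x + dL v with hx'
  have hx'On : x' ∈ OnB P 1 (c' + 1) := Submodule.add_mem _ hx (dL_OnB hP hv)
  have hwx' : pl ∅ z + dL x' ∈ RelB act N P 0 (c' + 1) := by
    rw [hx', map_add, dL_dL, add_zero]
    exact hwx
  obtain ⟨rep, gs, hgs, hrep, hrepeq⟩ := exists_reps hA N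
  let sl : Finset V → Bi V G →ₗ[ZMod 2] Ch (G × ℕ) := fun r =>
    liftB fun p => if rep p.1 = r then sg (p.2.image (milnorAct (gs p.1)⁻¹)) else 0
  have hsl : ∀ r y, sl r (dR y) = bd (sl r y) := by
    intro r y
    refine LinearMap.congr_fun
      (ext_bs (A := (sl r).comp dR) (B := bd.comp (sl r)) fun p => ?_) y
    simp only [LinearMap.comp_apply, sl, dR, liftB_bs, map_sum]
    split_ifs with h
    · rw [bd_sg, Finset.sum_image fun x _ y _ h => milnorAct_isAct.inj _ h]
      exact Finset.sum_congr rfl fun x _ => by rw [Finset.image_erase (milnorAct_isAct.inj _)]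
    · simp
  let T : Finset (Finset V) := x'.support.image fun p => rep p.1
  have hT : ∀ r ∈ T, Sz P 1 r := fun r hr => by
    obtain ⟨p, hp, rfl⟩ := Finset.mem_image.mp hr
    have h1 := (OnB_support hx'On hp).1
    have h2 : rep p.1 = p.1.image (act (gs p.1)⁻¹) := by
      conv_rhs => arg 2; rw [← hrep p.1]
      rw [← hA.image_mul, inv_mul_cancel, hA.image_one]
    rw [h2]
    exact ⟨hi _ _ h1.1, (Finset.card_image_of_injective _ (hA.inj _)).trans h1.2⟩
  have hcyc : ∀ r ∈ T, sl r x' ∈ cyc milnorAct (stab act N r) MilnorFace (c' + 1) := by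
    intro r hr
    refine mem_cyc.mpr ⟨mapB _ (fun p _ h2 => by
      simp only [sl, liftB_bs]
      split_ifs
      · exact sg_mem ⟨milnor_invariant _ h2.1,
          (Finset.card_image_of_injective _ (milnorAct_isAct.inj _)).trans h2.2⟩
      · exact Submodule.zero_mem _) hx'On, ?_⟩
    rw [← hsl, Nat.add_sub_cancel]
    refine RelB_le (sl r) (fun g hg p _ h2 => ?_) hxv
    simp only [sl, liftB_bs, mv, hrepeq g hg]
    split_ifs with h
    · refine Submodule.subset_span ⟨(gs (p.1.image (act g)))⁻¹ * g * gs p.1,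
        ⟨N.mul_mem (N.mul_mem (N.inv_mem (hgs _)) hg) (hgs _), ?_⟩,
        p.2.image (milnorAct (gs p.1)⁻¹), ⟨milnor_invariant _ h2.1,
          (Finset.card_image_of_injective _ (milnorAct_isAct.inj _)).trans h2.2⟩, ?_⟩
      · subst h
        have h3 := hrep (p.1.image (act g))
        rw [hrepeq g hg] at h3
        rw [hA.image_mul, hrep, hA.image_mul]
        conv_lhs => arg 2; rw [← h3]
        rw [← hA.image_mul, inv_mul_cancel, hA.image_one]
      · congr 2
        rw [← milnorAct_isAct.image_mul, ← milnorAct_isAct.image_mul, mul_assoc _ (gs p.1),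
          mul_inv_cancel, mul_one]
    · simp
  let π₂ : Bi V G →ₗ[ZMod 2] Ch (G × ℕ) := liftB fun p => sg p.2
  have key : z + ∑ r ∈ T, sl r x' ∈ Rel milnorAct (N : Set G) MilnorFace (c' + 1) := by
    have h1 : x' + (∑ r ∈ T, (pl r).comp (sl r)) x' ∈ RelB act N P 1 (c' + 1) := by
      refine bi_eq_self hx'On _ fun p hp h1 h2 => ?_
      simp only [LinearMap.sum_apply, LinearMap.comp_apply, sl, liftB_bs, apply_ite (pl _),
        map_zero]
      rw [Finset.sum_ite_eq, if_pos (Finset.mem_image_of_mem (fun p => rep p.1) hp), pl, liftC_sg]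
      refine Submodule.subset_span ⟨(gs p.1)⁻¹, N.inv_mem (hgs _), p, h1, h2, ?_⟩
      congr 2
      unfold mv
      congr 1
      conv_rhs => arg 2; rw [← hrep p.1]
      rw [← hA.image_mul, inv_mul_cancel, hA.image_one]
    have h2 := add_trans_mem hwx' (dL_RelB hA hP h1 |> fun h => by rwa [map_add] at h)
    have h3 := RelB_le π₂ (S := Rel milnorAct (N : Set G) MilnorFace (c' + 1))
      (fun g hg p _ h2 => by
        simp only [π₂, liftB_bs, mv]
        exact Submodule.subset_span ⟨g, hg, p.2, h2, rfl⟩) h2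
    have e0 : ∀ y, π₂ (pl ∅ y) = y := fun y => LinearMap.congr_fun
      (Sub.ext_sg (A := π₂.comp (pl ∅)) (B := LinearMap.id) fun s => by
        simp [π₂, pl, liftC_sg, liftB_bs]) y
    have e1 : ∀ r ∈ T, ∀ y, π₂ (dL (pl r y)) = y := fun r hr y => LinearMap.congr_fun
      (Sub.ext_sg (A := π₂.comp (dL.comp (pl r))) (B := LinearMap.id) fun s => by
        obtain ⟨u, rfl⟩ := Finset.card_eq_one.mp (hT r hr).2
        simp [π₂, pl, dL, liftC_sg, liftB_bs]) y
    simp only [LinearMap.sum_apply, LinearMap.comp_apply, map_add, map_sum, e0] at h3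
    rwa [Finset.sum_congr rfl fun r hr => e1 r hr _] at h3
  refine Submodule.mem_sup.mpr ⟨z + ∑ r ∈ T, sl r x', Submodule.mem_sup_left key,
    ∑ r ∈ T, sl r x', Submodule.sum_mem _ fun r hr => ?_, ?_⟩
  · obtain ⟨u, rfl⟩ := Finset.card_eq_one.mp (hT r hr).2
    exact Submodule.mem_iSup_of_mem ⟨u, (hT _ hr).1⟩ (hcyc _ hr)
  · rw [add_assoc, ZModModule.add_self, add_zero]

end Vale.Agent.P067.KO
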