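import Vale.Agent.P067.KO.AcyB

/-!
Acyclicity, with fillings of bounded size, of posets of elements of a finite ranked modular lattice
in general position: in an interval, those meeting a given element only in the bottom (and not
below another), their duals, the open interval, and the union of the two kinds. Every statement
carries a factor `Y` on other vertices, so that no lemma on joins is needed.
-/

namespace Vale.Agent.P067.KO

open Finset Vale.Agent.P067.Sub

variable {α : Type*} [Lattice α] [IsModularLattice α] [DecidableEq α]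

/-- a rank function on a modular lattice with enough elements of rank and corank one -/
structure Ranked (rk : α → ℕ) (N : ℕ) : Prop where
  mono : StrictMono rk
  modular : ∀ a b, rk (a ⊔ b) + rk (a ⊓ b) = rk a + rk b
  le : ∀ a, rk a ≤ N
  atom : ∀ a b Z H, a ≤ Z → Z < b → ¬ b ≤ H →
    ∃ x, a < x ∧ x ≤ b ∧ rk x = rk a + 1 ∧ ¬ x ≤ Z ∧ ¬ x ≤ H
  coatom : ∀ a b Z H, a < Z → Z ≤ b → ¬ H ≤ a →
    ∃ x, a ≤ x ∧ x < b ∧ rk x + 1 = rk b ∧ ¬ Z ≤ x ∧ ¬ H ≤ x

omit [IsModularLattice α] [DecidableEq α] in
theorem Ranked.eq_of_le {rk : α → ℕ} {N : ℕ} (R : Ranked rk N) {a b : α} (h : a ≤ b)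
    (hr : rk b ≤ rk a) : a = b :=
  h.eq_or_lt.resolve_right fun hlt => absurd (R.mono hlt) (Nat.not_lt.2 hr)

open OrderDual in
omit [IsModularLattice α] [DecidableEq α] in
theorem Ranked.dual {rk : α → ℕ} {N : ℕ} (R : Ranked rk N) :
    Ranked (fun a : αᵒᵈ => N - rk (ofDual a)) N where
  mono := fun a b h => by
    have h1 := R.mono (show ofDual b < ofDual a from h)
    have h2 := R.le (ofDual a)
    show N - rk (ofDual a) < N - rk (ofDual b)
    omega
  modular := fun a b => by
    have h1 := R.modular (ofDual a) (ofDual b)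
    have h2 := R.le (ofDual a ⊔ ofDual b)
    have h3 := R.le (ofDual a)
    have h4 := R.le (ofDual b)
    have h5 := R.le (ofDual a ⊓ ofDual b)
    show N - rk (ofDual a ⊓ ofDual b) + (N - rk (ofDual a ⊔ ofDual b)) = _
    omega
  le := fun a => Nat.sub_le _ _
  atom := fun a b Z H haZ hZb hH => by
    obtain ⟨x, h1, h2, h3, h4, h5⟩ := R.coatom (ofDual b) (ofDual a) (ofDual Z) (ofDual H) hZb haZ hH
    have h6 := R.le (ofDual a)
    exact ⟨toDual x, h2, h1, show N - rk x = N - rk (ofDual a) + 1 by omega, h4, h5⟩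
  coatom := fun a b Z H haZ hZb hH => by
    obtain ⟨x, h1, h2, h3, h4, h5⟩ := R.atom (ofDual b) (ofDual a) (ofDual Z) (ofDual H) hZb haZ hH
    have h6 := R.le x
    exact ⟨toDual x, h2, h1, show N - rk x + 1 = N - rk (ofDual b) by omega, h4, h5⟩

/-! ### Chains in a set of vertices, times a factor on the other vertices -/

open Classical in
/-- faces made of a chain in `V` and a face of `Y` on the other vertices -/
def J (V : α → Prop) (Y : Finset α → Prop) (s : Finset α) : Prop :=
  (∀ u ∈ s, ∀ w ∈ s, V u → V w → u ≤ w ∨ w ≤ u) ∧ Y (s.filter fun u => ¬ V u)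

/-- the faces of `Y` have no vertex in `V` -/
def Avoid (V : α → Prop) (Y : Finset α → Prop) : Prop := ∀ s, Y s → ∀ u ∈ s, ¬ V u

omit [IsModularLattice α] [DecidableEq α] in
theorem J.down {V : α → Prop} {Y : Finset α → Prop} (hY : Down Y) : Down (J V Y) := fun s t hs ht => by
  classical
  exact ⟨fun u hu w hw => hs.1 u (ht hu) w (ht hw), hY _ _ hs.2 (Finset.filter_subset_filter _ ht)⟩

omit [IsModularLattice α] [DecidableEq α] in
theorem Avoid.join {lo up : α → Prop} {Y : Finset α → Prop} (h : Avoid lo Y)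
    (hd : ∀ u, lo u → ¬ up u) : Avoid lo (J up Y) := fun s hs u hu hlo => by
  classical
  exact h _ hs.2 u (Finset.mem_filter.2 ⟨hu, hd u hlo⟩) hlo

omit [Lattice α] [IsModularLattice α] [DecidableEq α] in
theorem Avoid.mono {V W : α → Prop} {Y : Finset α → Prop} (h : Avoid V Y)
    (hW : ∀ u, W u → V u) : Avoid W Y := fun s hs u hu hWu => h s hs u hu (hW u hWu)

omit [IsModularLattice α] [DecidableEq α] in
theorem J_none {V : α → Prop} {Y : Finset α → Prop} (hV : ∀ u, ¬ V u) (s : Finset α) :
    J V Y s ↔ Y s := by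
  classical
  have e : s.filter (fun u => ¬ V u) = s := Finset.filter_true_of_mem fun u _ => hV u
  unfold J
  rw [show (s.filter fun u => ¬ V u) = s from e]
  exact ⟨fun h => h.2, fun h => ⟨fun u _ w _ hu => absurd hu (hV u), h⟩⟩

omit [IsModularLattice α] [DecidableEq α] in
theorem J_congr {V W : α → Prop} (Y : Finset α → Prop) (h : ∀ u, V u ↔ W u) (s : Finset α) :
    J V Y s ↔ J W Y s := by
  rw [show V = W from funext fun u => propext (h u)]

omit [IsModularLattice α] [DecidableEq α] in
/-- the faces avoiding `X` -/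
theorem J_old {V V' X : α → Prop} {Y : Finset α → Prop} (hY : Avoid V Y)
    (hXV : ∀ u, X u → V u) (hV' : ∀ u, V' u ↔ V u ∧ ¬ X u) (s : Finset α) :
    (J V Y s ∧ ∀ u ∈ s, ¬ X u) ↔ J V' Y s := by
  classical
  constructor
  · rintro ⟨⟨h1, h2⟩, hX⟩
    refine ⟨fun u hu w hw hu' hw' => h1 u hu w hw ((hV' u).1 hu').1 ((hV' w).1 hw').1, ?_⟩
    have e : s.filter (fun u => ¬ V' u) = s.filter (fun u => ¬ V u) :=
      Finset.filter_congr fun u hu => not_congr ⟨fun h => ((hV' u).1 h).1,
        fun h => (hV' u).2 ⟨h, hX u hu⟩⟩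
    rw [e]; exact h2
  · rintro ⟨h1, h2⟩
    have hin : ∀ u ∈ s, V u → V' u := fun u hu hVu => by
      by_contra hn
      exact hY _ h2 u (Finset.mem_filter.2 ⟨hu, hn⟩) hVu
    refine ⟨⟨fun u hu w hw hu' hw' => h1 u hu w hw (hin u hu hu') (hin w hw hw'), ?_⟩,
      fun u hu hX => ((hV' u).1 (hin u hu (hXV u hX))).2 hX⟩
    have e : s.filter (fun u => ¬ V' u) = s.filter (fun u => ¬ V u) :=
      Finset.filter_congr fun u hu => not_congr ⟨fun h => ((hV' u).1 h).1, hin u hu⟩
    rw [← e]; exact h2

omit [IsModularLattice α] in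
/-- the link of a vertex, split into the part below and the part above -/
theorem J_link {V X lo up : α → Prop} {Y : Finset α → Prop} {key : α → ℕ} {v : α} (hv : V v)
    (hY : Avoid V Y) (hXV : ∀ u, X u → V u)
    (hlo : ∀ u, lo u → u < v) (hup : ∀ u, up u → v < u)
    (hsplit : ∀ u, (V u ∧ (u < v ∨ v < u) ∧ (X u → key u < key v)) ↔ (lo u ∨ up u))
    (t : Finset α) : LowLink (J V Y) X key v t ↔ J lo (J up Y) t := by
  classical
  have hloV : ∀ u, lo u → V u := fun u h => ((hsplit u).2 (Or.inl h)).1
  have hupV : ∀ u, up u → V u := fun u h => ((hsplit u).2 (Or.inr h)).1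
  have hins : (insert v t).filter (fun u => ¬ V u) = t.filter fun u => ¬ V u := by
    rw [Finset.filter_insert, if_neg (not_not.2 hv)]
  constructor
  · rintro ⟨hvt, ⟨h1, h2⟩, h3⟩
    have hin : ∀ u ∈ t, V u → lo u ∨ up u := fun u hu hVu => by
      refine (hsplit u).1 ⟨hVu, ?_, h3 u hu⟩
      have hne : u ≠ v := fun e => hvt (e ▸ hu)
      rcases h1 u (Finset.mem_insert_of_mem hu) v (Finset.mem_insert_self v t) hVu hv with h | h
      · exact Or.inl (lt_of_le_of_ne h hne)
      · exact Or.inr (lt_of_le_of_ne h (Ne.symm hne))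
    have hc : ∀ u ∈ t, ∀ w ∈ t, V u → V w → u ≤ w ∨ w ≤ u := fun u hu w hw =>
      h1 u (Finset.mem_insert_of_mem hu) w (Finset.mem_insert_of_mem hw)
    refine ⟨fun u hu w hw hu' hw' => hc u hu w hw (hloV u hu') (hloV w hw'), ?_, ?_⟩
    · exact fun u hu w hw hu' hw' => hc u (Finset.mem_filter.1 hu).1 w (Finset.mem_filter.1 hw).1
        (hupV u hu') (hupV w hw')
    · rw [hins] at h2
      rw [Finset.filter_filter]
      refine (congrArg Y (Finset.filter_congr fun u hu => ?_)).mp h2
      exact ⟨fun h => ⟨fun h' => h (hloV u h'), fun h' => h (hupV u h')⟩,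
        fun h h' => (hin u hu h').elim h.1 h.2⟩
  · rintro ⟨h1, h2, h3⟩
    rw [Finset.filter_filter] at h3
    have hin : ∀ u ∈ t, V u → lo u ∨ up u := fun u hu hVu => by
      by_contra hn
      push Not at hn
      exact hY _ h3 u (Finset.mem_filter.2 ⟨hu, hn⟩) hVu
    have hvt : v ∉ t := fun hvt =>
      (hin v hvt hv).elim (fun h => (hlo v h).false) fun h => (hup v h).false
    refine ⟨hvt, ⟨?_, ?_⟩, fun u hu hXu => ((hsplit u).2 (hin u hu (hXV u hXu))).2.2 hXu⟩
    · have hcv : ∀ u ∈ t, V u → u ≤ v ∨ v ≤ u := fun u hu hVu => by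
        rcases hin u hu hVu with h | h
        · exact Or.inl (hlo u h).le
        · exact Or.inr (hup u h).le
      intro u hu w hw hu' hw'
      rcases Finset.mem_insert.1 hu with hu₁ | hu₂
      · subst hu₁
        rcases Finset.mem_insert.1 hw with hw₁ | hw₂
        · exact Or.inl hw₁.ge
        · exact (hcv w hw₂ hw').symm
      rcases Finset.mem_insert.1 hw with hw₁ | hw₂
      · subst hw₁
        exact hcv u hu₂ hu'
      clear hu hw
      rename' hu₂ => hu, hw₂ => hw
      rcases hin u hu hu' with a | a <;> rcases hin w hw hw' with b | b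
      · exact h1 u hu w hw a b
      · exact Or.inl ((hlo u a).trans (hup w b)).le
      · exact Or.inr ((hlo w b).trans (hup u a)).le
      · exact h2 u (Finset.mem_filter.2 ⟨hu, fun l => ((hlo u l).trans (hup u a)).false⟩) w
          (Finset.mem_filter.2 ⟨hw, fun l => ((hlo w l).trans (hup w b)).false⟩) a b
    · rw [hins]
      refine (congrArg Y (Finset.filter_congr fun u hu => ?_)).mp h3
      exact ⟨fun h h' => (hin u hu h').elim h.1 h.2,
        fun h => ⟨fun h' => h (hloV u h'), fun h' => h (hupV u h')⟩⟩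

omit [IsModularLattice α] [DecidableEq α] in
theorem keySep_J {V X : α → Prop} {Y : Finset α → Prop} {key : α → ℕ} (hXV : ∀ u, X u → V u)
    (hkey : ∀ u w, X u → X w → u < w → key u ≠ key w) : KeySep (J V Y) X key := by
  intro s hs u hu w hw hXu hXw he
  by_contra hne
  rcases hs.1 u hu w hw (hXV u hXu) (hXV w hXw) with h | h
  · exact hkey u w hXu hXw (lt_of_le_of_ne h hne) he
  · exact hkey w u hXw hXu (lt_of_le_of_ne h (Ne.symm hne)) he.symm

omit [IsModularLattice α] in
/-- a set of vertices with a closure operator and a point under all closed elements -/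
theorem acyB_cone {V : α → Prop} {Y : Finset α → Prop} (hdown : Down Y) (f : α → α) {x : α}
    (hx : V x) (hf : ∀ u, V u → V (f u) ∧ u ≤ f u ∧ x ≤ f u)
    (hmono : ∀ u w, V u → V w → u ≤ w → f u ≤ f w) {M m : ℕ} (hm : m ≤ M + 1) :
    AcyB (coneB M) (J V Y) m := by
  classical
  by_cases h0 : Y ∅
  swap
  · intro c hc z hz hb s hs
    obtain rfl : z = 0 := sg_ne_zero_mem hz fun t ht => h0 (hdown _ _ ht.1.2 (Finset.empty_subset _))
    exact ⟨0, Submodule.zero_mem _, by simp, by simp⟩
  let top : Finset α → α := fun s =>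
    if h : ∃ w ∈ s, V w ∧ ∀ u ∈ s, V u → u ≤ w then f h.choose else x
  let K : Finset α → Finset α := fun s => s ∪ (s.filter V).image f ∪ {x}
  have hK : ∀ s u, u ∈ K s ↔ u ∈ s ∨ (∃ w ∈ s, V w ∧ f w = u) ∨ u = x := fun s u => by
    simp [K, and_assoc]
    constructor <;> rintro (h | h | h) <;>
      first
        | exact Or.inl h
        | exact Or.inr (Or.inl h)
        | exact Or.inr (Or.inr h)
  have htop : ∀ s, J V Y s → V (top s) ∧ top s ∈ K s ∧ ∀ u ∈ K s, V u → u ≤ top s := by
    intro s hs
    by_cases h : ∃ w ∈ s, V w ∧ ∀ u ∈ s, V u → u ≤ w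
    · simp only [top, dif_pos h]
      obtain ⟨hw, hVw, hmax⟩ := h.choose_spec
      refine ⟨(hf _ hVw).1, (hK s _).2 (Or.inr (Or.inl ⟨_, hw, hVw, rfl⟩)), fun u hu hVu => ?_⟩
      rcases (hK s u).1 hu with hu | ⟨w', hw', hVw', rfl⟩ | rfl
      · exact (hmax u hu hVu).trans (hf _ hVw).2.1
      · exact hmono _ _ hVw' hVw (hmax w' hw' hVw')
      · exact (hf _ hVw).2.2
    · have hnone : ∀ u ∈ s, ¬ V u := by
        intro u hu hVu
        obtain ⟨w, hw, hmax⟩ := Finset.exists_maximal (s := s.filter V)
          ⟨u, Finset.mem_filter.2 ⟨hu, hVu⟩⟩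
        obtain ⟨hw, hVw⟩ := Finset.mem_filter.1 hw
        refine h ⟨w, hw, hVw, fun u' hu' hVu' => ?_⟩
        rcases hs.1 u' hu' w hw hVu' hVw with h' | h'
        · exact h'
        · exact hmax (Finset.mem_filter.2 ⟨hu', hVu'⟩) h'
      simp only [top, dif_neg h]
      refine ⟨hx, (hK s x).2 (Or.inr (Or.inr rfl)), fun u hu hVu => ?_⟩
      rcases (hK s u).1 hu with hu | ⟨w', hw', hVw', rfl⟩ | rfl
      · exact absurd hVu (hnone u hu)
      · exact absurd hVw' (hnone w' hw')
      · exact le_rfl
  refine AcyB.carrier (J.down hdown) x ⟨?_, ?_⟩ top K (by simp [K]) (fun s _ u hu => ?_) ?_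
    (fun s hs _ => (htop s hs).2.1) (fun s _ => ?_) ?_ hm
  · intro u hu w hw _ _
    simp only [Finset.mem_singleton] at hu hw
    exact Or.inl (hu.trans hw.symm).le
  · rw [Finset.filter_singleton, if_neg (not_not.2 hx)]
    exact h0
  · exact (hK s u).2 (Or.inl hu)
  · intro s _ y _ u hu
    rcases (hK _ u).1 hu with h | ⟨w, hw, hVw, rfl⟩ | rfl
    · exact (hK s u).2 (Or.inl (Finset.mem_of_mem_erase h))
    · exact (hK s _).2 (Or.inr (Or.inl ⟨w, Finset.mem_of_mem_erase hw, hVw, rfl⟩))
    · exact (hK s _).2 (Or.inr (Or.inr rfl))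
  · simp only [K]
    have e1 := Finset.card_union_le (s ∪ (s.filter V).image f) {x}
    have e2 := Finset.card_union_le s ((s.filter V).image f)
    have e3 := (Finset.card_image_le (s := s.filter V) (f := f)).trans (Finset.card_filter_le s V)
    simp only [Finset.card_singleton] at e1
    omega
  · intro s hs _ u hu huK
    obtain ⟨hV, -, hle⟩ := htop s hs
    refine ⟨fun p hp q hq hp' hq' => ?_, ?_⟩
    · rcases Finset.mem_insert.1 hp with hp₁ | hp
      · rcases Finset.mem_insert.1 hq with hq₁ | hq
        · exact Or.inl (hp₁.trans hq₁.symm).le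
        · exact Or.inr (hp₁ ▸ hle q (huK hq) hq')
      · rcases Finset.mem_insert.1 hq with hq₁ | hq
        · exact Or.inl (hq₁ ▸ hle p (huK hp) hp')
        · exact hu.1 p hp q hq hp' hq'
    · rw [Finset.filter_insert, if_neg (not_not.2 hV)]
      exact hu.2

/-! ### The posets -/

/-- in the interval from `a` to `b`: above `a`, meeting `Z` in `a`, and not below `H` -/
def PV (a b Z H W : α) : Prop := a < W ∧ W ≤ b ∧ W ⊓ Z = a ∧ ¬ W ≤ H

/-- the open interval -/
def OI (a b W : α) : Prop := a < W ∧ W < b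

/-- meeting `A` in the bottom, or joining `B'` to the top and not above `C` -/
def SV (a b A B' C W : α) : Prop :=
  (a < W ∧ W ≤ b ∧ W ⊓ A = a) ∨ (a ≤ W ∧ W < b ∧ W ⊔ B' = b ∧ ¬ C ≤ W)

variable {rk : α → ℕ} {N M : ℕ}

/-- elements in general position with respect to `Z`, and not below `H` -/
theorem acyB_PV (R : Ranked rk N) (hNM : N ≤ M) : ∀ (g i : ℕ) (a Z b H : α)
    (Y : Finset α → Prop) (y : ℕ), a ≤ Z → Z ≤ b → ¬ b ≤ H → rk b ≤ rk a + g →
    Avoid (PV a b Z H) Y → Down Y → AcyB (B M i) Y y → rk b - rk Z + y ≤ M →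
    AcyB (B M (i + 3 ^ g)) (J (PV a b Z H) Y) (rk b - rk Z + y) := by
  intro g
  induction g with
  | zero =>
    intro i a Z b H Y y haZ hZb hH hg hav hdown hY hM
    have hab : a = b := R.eq_of_le (haZ.trans hZb) hg
    have hnone : ∀ u, ¬ PV a b Z H u := fun u hu => (hu.2.1.trans_eq hab.symm).not_gt hu.1
    have h0 : rk b - rk Z = 0 := by
      have := R.mono.monotone haZ
      omega
    rw [h0, Nat.zero_add]
    exact (hY.mono le_rfl fun s => B_le M (by simp) s).congr fun s => (J_none hnone s).symm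
  | succ g ih =>
    intro i a Z b H Y y haZ hZb hH hg hav hdown hY hM
    rcases hZb.eq_or_lt with rfl | hlt
    · have hnone : ∀ u, ¬ PV a Z Z H u := fun u hu => by
        have := hu.2.2.1
        rw [inf_eq_left.2 hu.2.1] at this
        exact hu.1.ne' this
      rw [Nat.sub_self, Nat.zero_add]
      exact (hY.mono le_rfl fun s => B_le M (Nat.le_add_right i _) s).congr fun s =>
        (J_none hnone s).symm
    obtain ⟨x, hax, hxb, hrx, hxZ, hxH⟩ := R.atom a b Z H haZ hlt hH
    have hxa : x ⊓ Z = a := by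
      refine (R.eq_of_le (le_inf hax.le haZ) ?_).symm
      have := R.mono (lt_of_le_of_ne inf_le_left fun e => hxZ (inf_eq_left.1 e) : x ⊓ Z < x)
      omega
    set V := PV a b Z H with hV
    set X : α → Prop := fun u => V u ∧ (u ⊔ x) ⊓ Z ≠ a with hX
    have hpow : 1 ≤ 3 ^ g := Nat.one_le_pow _ _ (by norm_num)
    refine (AcyB.add (L := B M (i + 2 * 3 ^ g)) (key := fun u => N - rk u) (X := X)
      (B_mono M _) (J.down hdown) (keySep_J (fun u h => h.1) fun u w _ _ huw => ?_)
      (fun u _ => (Nat.sub_le _ _).trans hNM) (by omega) ?_ ?_).mono le_rfl ?_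
    · have := R.mono huw
      have := R.le w
      omega
    · rintro U ⟨⟨haU, hUb, hUZ, hUH⟩, hUX⟩ -
      have hxU : ¬ x ≤ U := fun h => hUX (by rw [sup_eq_left.2 h, hUZ])
      have hUb' : U ≠ b := fun h => hUX (by
        rw [h, sup_eq_left.2 hxb, ← h, hUZ])
      set Z' := U ⊓ (Z ⊔ x) with hZ'
      have haZ' : a ≤ Z' := le_inf haU.le (haZ.trans le_sup_left)
      have r1 := R.modular Z x
      rw [inf_comm Z x, hxa] at r1
      have r2 := R.modular U Z
      rw [hUZ] at r2
      have r3 := R.modular U (Z ⊔ x)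
      have r4 := R.mono.monotone (show U ⊔ Z ≤ U ⊔ (Z ⊔ x) from sup_le_sup_left le_sup_left U)
      have r5 := R.mono.monotone haZ'
      have r6 := R.mono haU
      have r7 := R.mono (lt_of_le_of_ne hUb hUb')
      have hZ'r : rk Z' ≤ rk a + 1 := by
        show rk (U ⊓ (Z ⊔ x)) ≤ _
        omega
      have hiff : ∀ u, a ≤ u → u ⊓ Z = a → ¬ x ≤ u →
          ((u ⊔ x) ⊓ Z = a ↔ u ⊓ (Z ⊔ x) = a) := by
        intro u hau huZ hxu
        have hux : u ⊓ x = a := by
          refine (R.eq_of_le (le_inf hau hax.le) ?_).symm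
          have := R.mono (lt_of_le_of_ne inf_le_right fun e => hxu (inf_eq_right.1 e) : u ⊓ x < x)
          omega
        have s1 := R.modular u x
        rw [hux] at s1
        have s2 := R.modular (u ⊔ x) Z
        have s3 := R.modular u (Z ⊔ x)
        rw [show u ⊔ x ⊔ Z = u ⊔ (Z ⊔ x) by rw [sup_assoc, sup_comm x Z]] at s2
        constructor <;> intro he
        · refine (R.eq_of_le (le_inf hau (haZ.trans le_sup_left)) ?_).symm
          rw [he] at s2
          omega
        · refine (R.eq_of_le (le_inf (hau.trans le_sup_left) haZ) ?_).symm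
          rw [he] at s3
          omega
      have hne : ¬ U ⊓ (Z ⊔ x) = a := fun h => hUX ((hiff U haU.le hUZ hxU).2 h)
      set lo := PV a U Z' H with hlo
      set up := PV U b (Z ⊔ U) H with hup
      have hloV : ∀ u, lo u → u < U := fun u hu =>
        lt_of_le_of_ne hu.2.1 fun e => hne (by
          have := hu.2.2.1
          rw [hZ', e, ← inf_assoc, inf_idem] at this
          exact this)
      have hupV : ∀ u, up u → U < u := fun u hu => hu.1
      have hsplit : ∀ u, (V u ∧ (u < U ∨ U < u) ∧ (X u → N - rk u < N - rk U)) ↔ (lo u ∨ up u) := by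
        intro u
        constructor
        · rintro ⟨⟨hau, hub, huZ, huH⟩, hc | hc, hk⟩
          · refine Or.inl ⟨hau, hc.le, ?_, huH⟩
            have hold : (u ⊔ x) ⊓ Z = a := by
              by_contra hn
              have := hk ⟨⟨hau, hub, huZ, huH⟩, hn⟩
              have := R.mono hc
              omega
            rw [hZ', ← inf_assoc, inf_eq_left.2 hc.le]
            exact (hiff u hau.le huZ fun h => hxU (h.trans hc.le)).1 hold
          · refine Or.inr ⟨hc, hub, ?_, huH⟩
            rw [inf_comm, sup_comm Z U, sup_inf_assoc_of_le Z hc.le, inf_comm Z u, huZ,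
              sup_eq_left.2 haU.le]
        · rintro (hu | hu)
          · obtain ⟨hau, huU, huZ', huH⟩ := id hu
            have huZ : u ⊓ Z = a := le_antisymm ((inf_le_inf_right Z huU).trans_eq hUZ)
              (le_inf hau.le haZ)
            refine ⟨⟨hau, huU.trans hUb, huZ, huH⟩, Or.inl (hloV u hu), fun hXu => absurd ?_ hXu.2⟩
            refine (hiff u hau.le huZ fun h => hxU (h.trans huU)).2 ?_
            rwa [hZ', ← inf_assoc, inf_eq_left.2 huU] at huZ'
          · obtain ⟨hUu, hub, huZ', huH⟩ := id hu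
            have h1 : u ⊓ Z ≤ U := huZ' ▸ inf_le_inf_left u le_sup_left
            have huZ : u ⊓ Z = a := le_antisymm
              ((le_inf h1 inf_le_right).trans_eq hUZ) (le_inf (haU.le.trans hUu.le) haZ)
            refine ⟨⟨haU.trans hUu, hub, huZ, huH⟩, Or.inr hUu, fun _ => ?_⟩
            have := R.mono hUu
            have := R.le u
            omega
      have hd : ∀ u, lo u → ¬ up u := fun u h h' => ((hloV u h).trans (hupV u h')).false
      have hav' : ∀ u, lo u ∨ up u → V u := fun u h => ((hsplit u).2 h).1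
      have r8 : rk (Z ⊔ U) + rk a = rk Z + rk U := by
        rw [sup_comm]
        omega
      have r10 := R.mono.monotone (sup_le hZb hUb)
      have r9 : rk Z' = rk (U ⊓ (Z ⊔ x)) := rfl
      have hupper := ih i U (Z ⊔ U) b H Y y le_sup_right (sup_le hZb hUb) hH (by omega)
        (hav.mono fun u h => hav' u (Or.inr h)) hdown hY (by omega)
      have hlower := ih (i + 3 ^ g) a Z' U H (J up Y) (rk b - rk (Z ⊔ U) + y) haZ' inf_le_left hUH
        (by omega) ((hav.mono fun u h => hav' u (Or.inl h)).join hd) (J.down hdown) hupper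
        (by omega)
      have hv : V U := ⟨haU, hUb, hUZ, hUH⟩
      refine (hlower.mono (m' := rk b - rk Z + y - 1) (by omega)
        (fun s => B_le M (by omega) s)).congr fun t => ?_
      exact (J_link (key := fun u => N - rk u) hv hav (fun u h => h.1) hloV hupV hsplit t).symm
    · have hVx : V x := ⟨hax, hxb, hxa, hxH⟩
      refine ((acyB_cone (V := fun u => V u ∧ ¬ X u) hdown (fun u => u ⊔ x) (x := x)
        ⟨hVx, fun h => h.2 (by rw [sup_idem, hxa])⟩ ?_ ?_ (by omega)).mono le_rfl
        fun s => B_le M (Nat.zero_le _) s).congr fun s =>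
          (J_old hav (fun u h => h.1) (fun u => Iff.rfl) s).symm
      · rintro u ⟨⟨hau, hub, huZ, huH⟩, hn⟩
        have hold : (u ⊔ x) ⊓ Z = a := by
          by_contra h
          exact hn ⟨⟨hau, hub, huZ, huH⟩, h⟩
        refine ⟨⟨⟨hau.trans_le le_sup_left, sup_le hub hxb, hold,
          fun h => huH (le_sup_left.trans h)⟩, fun h => h.2 ?_⟩, le_sup_left, le_sup_right⟩
        rw [sup_assoc, sup_idem, hold]
      · exact fun u w _ _ h => sup_le_sup_right h x
    · intro s
      rw [← B_succ]
      exact B_le M (by rw [pow_succ]; omega) s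

omit [IsModularLattice α] in
/-- the open interval -/
theorem acyB_OI (R : Ranked rk N) : ∀ (g i : ℕ) (a b : α) (Y : Finset α → Prop) (y : ℕ),
    a ≤ b → rk b ≤ rk a + g → Avoid (OI a b) Y → Down Y → AcyB (B M i) Y y →
    rk b - rk a + y ≤ M → AcyB (B M (i + 3 ^ g)) (J (OI a b) Y) (rk b - rk a - 1 + y) := by
  intro g
  induction g with
  | zero =>
    intro i a b Y y hab hg hav hdown hY hM
    have hnone : ∀ u, ¬ OI a b u := fun u hu => by
      have := R.mono hu.1
      have := R.mono hu.2
      omega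
    rw [show rk b - rk a - 1 + y = y by omega]
    exact (hY.mono le_rfl fun s => B_le M (by omega) s).congr fun s => (J_none hnone s).symm
  | succ g ih =>
    intro i a b Y y hab hg hav hdown hY hM
    by_cases h2 : rk b ≤ rk a + 1
    · have hnone : ∀ u, ¬ OI a b u := fun u hu => by
        have := R.mono hu.1
        have := R.mono hu.2
        omega
      rw [show rk b - rk a - 1 + y = y by omega]
      exact (hY.mono le_rfl fun s => B_le M (Nat.le_add_right _ _) s).congr fun s =>
        (J_none hnone s).symm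
    have hab' : a < b := lt_of_le_of_ne hab fun h => h2 (by rw [h]; omega)
    obtain ⟨x, hax, hxb, hrx, -, -⟩ := R.atom a b a a le_rfl hab' fun h => hab'.not_ge h
    have hxb' : x < b := lt_of_le_of_ne hxb fun h => h2 (by rw [← h, hrx])
    set V := OI a b with hV
    set X : α → Prop := fun u => V u ∧ u ⊔ x = b with hX
    have hXr : ∀ u, X u → rk u + 1 = rk b := by
      rintro u ⟨⟨hau, hub⟩, hux⟩
      have h1 := R.modular u x
      rw [hux] at h1
      have h3 := R.mono.monotone (le_inf hau.le hax.le)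
      have h4 := R.mono hub
      omega
    have hpow : 1 ≤ 3 ^ g := Nat.one_le_pow _ _ (by norm_num)
    refine (AcyB.add (M := M) (L := B M (i + 3 ^ g)) (m := rk b - rk a - 1 + y) (key := fun _ => 0) (X := X) (B_mono M _) (J.down hdown)
      (keySep_J (fun u h => h.1) fun u w hu hw huw => ?_) (fun u _ => Nat.zero_le _) (by omega)
      ?_ ?_).mono (m' := rk b - rk a - 1 + y) le_rfl ?_
    · exact fun _ => by
        have := R.mono huw
        have := hXr u hu
        have := hXr w hw
        omega
    · intro U hU _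
      have hsplit : ∀ u, (V u ∧ (u < U ∨ U < u) ∧ (X u → 0 < 0)) ↔ (OI a U u ∨ False) := by
        intro u
        constructor
        · rintro ⟨hu, hc | hc, -⟩
          · exact Or.inl ⟨hu.1, hc⟩
          · exfalso
            have := R.mono hc
            have := hXr U hU
            have := R.mono hu.2
            omega
        · rintro (⟨hau, huU⟩ | h)
          · refine ⟨⟨hau, huU.trans hU.1.2⟩, Or.inl huU, fun hXu => ?_⟩
            have := R.mono huU
            have := hXr u hXu
            have := hXr U hU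
            omega
          · exact h.elim
      have hr := hXr U hU
      have h1 := ih i a U Y y hU.1.1.le (by omega)
        (hav.mono fun u (h : OI a U u) => ⟨h.1, h.2.trans hU.1.2⟩) hdown hY (by omega)
      refine (h1.mono (m' := rk b - rk a - 1 + y - 1) (by omega) fun s => le_rfl).congr fun t => ?_
      refine Iff.trans ?_ (J_link (up := fun _ => False) hU.1 hav (fun u h => h.1)
        (fun u (h : OI a U u) => h.2) (fun u h => h.elim) hsplit t).symm
      rw [show J (fun _ => False) Y = Y from funext fun s => propext (J_none (fun _ => not_false) s)]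
    · refine ((acyB_cone (V := fun u => V u ∧ ¬ X u) hdown (fun u => u ⊔ x) (x := x)
        ⟨⟨hax, hxb'⟩, fun h => hxb'.ne (by simpa using h.2)⟩ ?_ ?_ (by omega)).mono le_rfl
        fun s => B_le M (Nat.zero_le _) s).congr fun s =>
          (J_old hav (fun u h => h.1) (fun u => Iff.rfl) s).symm
      · rintro u ⟨⟨hau, hub⟩, hn⟩
        have hlt : u ⊔ x < b := lt_of_le_of_ne (sup_le hub.le hxb) fun h => hn ⟨⟨hau, hub⟩, h⟩
        exact ⟨⟨⟨hau.trans_le le_sup_left, hlt⟩, fun h => hlt.ne (by
          have := h.2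
          rwa [sup_assoc, sup_idem] at this)⟩, le_sup_left, le_sup_right⟩
      · exact fun u w _ _ h => sup_le_sup_right h x
    · intro s
      rw [← B_succ]
      exact B_le M (by rw [pow_succ]; omega) s

omit [IsModularLattice α] [DecidableEq α] in
/-- chains are the same in the dual lattice -/
theorem J_dual {V : α → Prop} {V' : αᵒᵈ → Prop} (Y : Finset α → Prop)
    (h : ∀ u : α, V u ↔ V' (OrderDual.toDual u)) :
    J (α := α) V Y = J (α := αᵒᵈ) V' Y := by
  classical
  obtain rfl : V = fun u : α => V' (OrderDual.toDual u) := funext fun u => propext (h u)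
  funext s
  unfold J
  exact propext ⟨fun hs => ⟨fun u hu w hw hu' hw' => (hs.1 u hu w hw hu' hw').symm, hs.2⟩,
    fun hs => ⟨fun u hu w hw hu' hw' => (hs.1 u hu w hw hu' hw').symm, hs.2⟩⟩

open OrderDual in
/-- the dual kind: joining `B'` to the top and not above `C` -/
theorem acyB_LV (R : Ranked rk N) (hNM : N ≤ M) (g i : ℕ) (a B' b C : α)
    (Y : Finset α → Prop) (y : ℕ) (haB : a ≤ B') (hBb : B' ≤ b) (hC : ¬ C ≤ a)
    (hg : rk b ≤ rk a + g) (hav : Avoid (fun W => a ≤ W ∧ W < b ∧ W ⊔ B' = b ∧ ¬ C ≤ W) Y)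
    (hdown : Down Y) (hY : AcyB (B M i) Y y) (hM : rk B' - rk a + y ≤ M) :
    AcyB (B M (i + 3 ^ g)) (J (fun W => a ≤ W ∧ W < b ∧ W ⊔ B' = b ∧ ¬ C ≤ W) Y)
      (rk B' - rk a + y) := by
  let _ : DecidableEq αᵒᵈ := ‹DecidableEq α›
  have h1 := R.le b
  have h2 := R.mono.monotone haB
  have h3 := R.mono.monotone hBb
  have hV : ∀ u : α, (a ≤ u ∧ u < b ∧ u ⊔ B' = b ∧ ¬ C ≤ u) ↔
      PV (toDual b) (toDual a) (toDual B') (toDual C) (toDual u) := fun u =>
    ⟨fun ⟨p, q, r, w⟩ => ⟨q, p, r, w⟩, fun ⟨q, p, r, w⟩ => ⟨p, q, r, w⟩⟩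
  rw [J_dual Y hV]
  have h := acyB_PV (α := αᵒᵈ) R.dual hNM g i (toDual b) (toDual B') (toDual a) (toDual C) Y y
    hBb haB hC (show N - rk a ≤ N - rk b + g by omega)
    (fun s hs u hu hW => hav s hs u hu ((hV u).2 hW)) hdown hY
    (show N - rk a - (N - rk B') + y ≤ M by omega)
  have e : (fun x : αᵒᵈ => N - rk (ofDual x)) (toDual a) -
      (fun x : αᵒᵈ => N - rk (ofDual x)) (toDual B') = rk B' - rk a := by
    show N - rk a - (N - rk B') = rk B' - rk a
    omega
  rw [e] at h
  exact h

/-- the union of the two kinds, acyclic below a third of the length of the interval -/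
theorem acyB_SV (R : Ranked rk N) (hNM : N ≤ M) (g i : ℕ) (a A B' C b : α)
    (Y : Finset α → Prop) (m : ℕ) (haA : a ≤ A) (hAB : A ≤ B') (hBb : B' ≤ b)
    (hCA : C ≤ A) (hCa : ¬ C ≤ a) (hg : rk b ≤ rk a + g) (hm : 3 * m ≤ rk b - rk a)
    (hav : Avoid (SV a b A B' C) Y) (hdown : Down Y) :
    AcyB (B M (i + 2 * 3 ^ g + 1)) (J (SV a b A B' C) Y) m := by
  set T : α → Prop := fun W => a < W ∧ W ≤ b ∧ W ⊓ A = a with hT
  set Lo : α → Prop := fun W => a ≤ W ∧ W < b ∧ W ⊔ B' = b ∧ ¬ C ≤ W with hLo
  have hpow : 1 ≤ 3 ^ g := Nat.one_le_pow _ _ (by norm_num)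
  have hN := R.le b
  have haB : a ≤ B' := haA.trans hAB
  have hab : a < b := lt_of_le_of_ne (haB.trans hBb) fun h =>
    hCa (hCA.trans ((hAB.trans hBb).trans_eq h.symm))
  by_cases hk : m ≤ rk B' - rk a
  · -- start from the second kind and add the first by increasing rank
    set X : α → Prop := fun W => T W ∧ ¬ Lo W with hX
    refine (AcyB.add (L := B M (i + 2 * 3 ^ g)) (key := rk) (X := X) (B_mono M _) (J.down hdown)
      (keySep_J (fun u h => Or.inl h.1) fun u w _ _ huw => (R.mono huw).ne)
      (fun u _ => (R.le u).trans hNM) (by omega) ?_ ?_).mono le_rfl fun s => ?_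
    · rintro W ⟨⟨haW, hWb, hWA⟩, hWL⟩ -
      have hCW : ¬ C ≤ W := fun h => hCa ((le_inf h hCA).trans_eq hWA)
      set lo := OI a W with hlo
      set up : α → Prop :=
        fun u => W ≤ u ∧ u < b ∧ u ⊔ (B' ⊔ W) = b ∧ ¬ C ⊔ W ≤ u with hup
      have hupV : ∀ u, up u → W < u := fun u hu =>
        lt_of_le_of_ne hu.1 fun e => hWL ⟨haW.le, e ▸ hu.2.1,
          by have := hu.2.2.1; rw [← e, sup_left_comm, sup_idem, sup_comm] at this; exact this, hCW⟩
      have hsplit : ∀ u, (SV a b A B' C u ∧ (u < W ∨ W < u) ∧ (X u → rk u < rk W)) ↔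
          (lo u ∨ up u) := by
        intro u
        constructor
        · rintro ⟨hu, hc | hc, hk'⟩
          · refine Or.inl ⟨?_, hc⟩
            rcases hu with hu | ⟨hau, -, huB, huC⟩
            · exact hu.1
            · exact absurd ⟨haW.le, lt_of_le_of_ne hWb (fun e => hCW (e ▸ hCA.trans (hAB.trans hBb))),
                le_antisymm (sup_le hWb hBb) (huB ▸ sup_le_sup_right hc.le B'), hCW⟩ hWL
          · refine Or.inr ?_
            have hL : Lo u := by
              rcases hu with hu | hu
              · by_contra hn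
                exact absurd (hk' ⟨hu, hn⟩) (Nat.not_lt.2 (R.mono hc).le)
              · exact hu
            exact ⟨hc.le, hL.2.1, by
              rw [sup_left_comm, sup_eq_left.2 hc.le, sup_comm]; exact hL.2.2.1,
              fun h => hL.2.2.2 (le_sup_left.trans h)⟩
        · rintro (⟨hau, huW⟩ | hu)
          · exact ⟨Or.inl ⟨hau, huW.le.trans hWb, le_antisymm
              ((inf_le_inf_right A huW.le).trans_eq hWA) (le_inf hau.le haA)⟩, Or.inl huW,
              fun _ => R.mono huW⟩
          · obtain ⟨h1, h2, h3, h4⟩ := id hu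
            have hWu := hupV u hu
            have hL : Lo u := ⟨haW.le.trans h1, h2,
              by rw [sup_left_comm, sup_eq_left.2 h1, sup_comm] at h3; exact h3,
              fun h => h4 (sup_le h h1)⟩
            exact ⟨Or.inr hL, Or.inr hWu, fun hXu => absurd hL hXu.2⟩
      have hd : ∀ u, lo u → ¬ up u := fun u h h' => (h.2.trans (hupV u h')).false
      have hav' : ∀ u, lo u ∨ up u → SV a b A B' C u := fun u h => ((hsplit u).2 h).1
      have r1 := R.mono haW
      have r2 := R.mono.monotone hWb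
      have r3 := R.mono.monotone (le_sup_right : W ≤ B' ⊔ W)
      have r4 := R.mono.monotone (le_sup_left : B' ≤ B' ⊔ W)
      have r5 := R.mono.monotone (sup_le hBb hWb)
      have r6 := R.mono.monotone hBb
      have hupper := acyB_LV R hNM g i W (B' ⊔ W) b (C ⊔ W) Y 0 le_sup_right (sup_le hBb hWb)
        (fun h => hCW (le_sup_left.trans h)) (by omega) (hav.mono fun u h => hav' u (Or.inr h))
        hdown (acyB_zero _ _) (by omega)
      have hlower := acyB_OI (M := M) R g (i + 3 ^ g) a W (J up Y) _ haW.le (by omega)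
        ((hav.mono fun u h => hav' u (Or.inl h)).join hd) (J.down hdown) hupper (by omega)
      refine (hlower.mono (m' := m - 1) (by omega) fun s => B_le M (by omega) s).congr fun t => ?_
      exact (J_link (V := SV a b A B' C) (Or.inl ⟨haW, hWb, hWA⟩) hav (fun u h => Or.inl h.1) (fun u h => h.2) hupV
        hsplit t).symm
    · have r6 := R.mono.monotone hBb
      have hold := acyB_LV R hNM g i a B' b C Y 0 haB hBb hCa hg (hav.mono fun u h => Or.inr h)
        hdown (acyB_zero _ _) (by omega)
      refine (hold.mono (m' := m) (by omega) fun s => B_le M (by omega) s).congr fun s =>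
        (J_old hav (fun u h => Or.inl h.1) (fun u => ?_) s).symm
      exact ⟨fun h => ⟨Or.inr h, fun hx => hx.2 h⟩,
        fun ⟨h, hn⟩ => h.elim (fun hT' => by_contra fun hn' => hn ⟨hT', hn'⟩) id⟩
    · rw [← B_succ]
  · -- start from the first kind and add the second by decreasing rank
    set X : α → Prop := fun W => Lo W ∧ ¬ T W with hX
    have r0 := R.mono.monotone haA
    have r1 := R.mono.monotone hAB
    have r2 := R.mono.monotone hBb
    refine (AcyB.add (L := B M (i + 2 * 3 ^ g)) (key := fun u => N - rk u) (X := X) (B_mono M _)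
      (J.down hdown) (keySep_J (fun u h => Or.inr h.1) fun u w _ _ huw => ?_)
      (fun u _ => (Nat.sub_le _ _).trans hNM) (by omega) ?_ ?_).mono le_rfl fun s => ?_
    · have := R.mono huw
      have := R.le w
      omega
    · rintro W ⟨⟨haW, hWb, hWB, hWC⟩, hWT⟩ -
      have s1 := R.modular W B'
      rw [hWB] at s1
      have s2 := R.mono.monotone (le_inf haW haB)
      have haW' : a < W := lt_of_le_of_ne haW fun e => by rw [← e, inf_eq_left.2 haB] at s1; omega
      have hWA : W ⊓ A ≠ a := fun h => hWT ⟨haW', hWb.le, h⟩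
      set lo := PV a W (A ⊓ W) a with hlo
      set up : α → Prop := fun u => W < u ∧ Lo u with hup
      have hloV : ∀ u, lo u → u < W := fun u hu => lt_of_le_of_ne hu.2.1 fun e => hWA (by
        have := hu.2.2.1
        rw [e, inf_left_comm, inf_idem, inf_comm] at this
        exact this)
      have hsplit : ∀ u, (SV a b A B' C u ∧ (u < W ∨ W < u) ∧ (X u → N - rk u < N - rk W)) ↔
          (lo u ∨ up u) := by
        intro u
        constructor
        · rintro ⟨hu, hc | hc, hk'⟩
          · have hT' : T u := by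
              rcases hu with hu | hu
              · exact hu
              · by_contra hn
                have := hk' ⟨hu, hn⟩
                have := R.mono hc
                omega
            exact Or.inl ⟨hT'.1, hc.le, by
              rw [inf_left_comm, inf_eq_left.2 hc.le, inf_comm]; exact hT'.2.2,
              hT'.1.not_ge⟩
          · refine Or.inr ⟨hc, ?_⟩
            rcases hu with hu | hu
            · exact absurd (le_antisymm ((inf_le_inf_right A hc.le).trans_eq hu.2.2)
                (le_inf haW haA)) hWA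
            · exact hu
        · rintro (hu | ⟨hc, hL⟩)
          · obtain ⟨h1, h2, h3, -⟩ := id hu
            refine ⟨Or.inl ⟨h1, h2.trans hWb.le, ?_⟩, Or.inl (hloV u hu), fun hXu => ?_⟩
            · rw [inf_left_comm, inf_eq_left.2 h2, inf_comm] at h3; exact h3
            · exact absurd ⟨h1, h2.trans hWb.le, by
                rw [inf_left_comm, inf_eq_left.2 h2, inf_comm] at h3; exact h3⟩ hXu.2
          · refine ⟨Or.inr hL, Or.inr hc, fun _ => ?_⟩
            have := R.mono hc
            have := R.le u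
            omega
      have hd : ∀ u, lo u → ¬ up u := fun u h h' => ((hloV u h).trans h'.1).false
      have hav' : ∀ u, lo u ∨ up u → SV a b A B' C u := fun u h => ((hsplit u).2 h).1
      have s3 := R.mono.monotone (inf_le_left : A ⊓ W ≤ A)
      have s4 := R.mono.monotone hWb.le
      have hlower := acyB_PV R hNM g i a (A ⊓ W) W a (J up Y) 0 (le_inf haA haW) inf_le_right
        haW'.not_ge (by omega) ((hav.mono fun u h => hav' u (Or.inl h)).join hd) (J.down hdown)
        (acyB_zero _ _) (by omega)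
      refine (hlower.mono (m' := m - 1) (by omega) fun s => B_le M (by omega) s).congr fun t => ?_
      exact (J_link (V := SV a b A B' C) (key := fun u => N - rk u) (Or.inr ⟨haW, hWb, hWB, hWC⟩) hav
        (fun u h => Or.inr h.1) hloV (fun u h => h.1) hsplit t).symm
    · have hT' : ∀ u, T u ↔ PV a b A a u := fun u =>
        ⟨fun h => ⟨h.1, h.2.1, h.2.2, h.1.not_ge⟩, fun h => ⟨h.1, h.2.1, h.2.2.1⟩⟩
      have hold := acyB_PV R hNM g i a A b a Y 0 haA (hAB.trans hBb) hab.not_ge hg
        (hav.mono fun u h => Or.inl ((hT' u).2 h)) hdown (acyB_zero _ _) (by omega)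
      refine (hold.mono (m' := m) (by omega) fun s => B_le M (by omega) s).congr fun s =>
        (J_old hav (fun u h => Or.inr h.1) (fun u => ?_) s).symm
      rw [← hT']
      exact ⟨fun h => ⟨Or.inl h, fun hx => hx.2 h⟩,
        fun ⟨h, hn⟩ => h.elim id fun hL => by_contra fun hn' => hn ⟨hL, hn'⟩⟩
    · rw [← B_succ]

end Vale.Agent.P067.KO
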