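import Vale.Agent.P067.KO.VanishSemi
import Vale.Agent.P067.KO.StairMain
import Vale.Agent.P067.KO.PartialBasisAux

/-!
The parabolic subgroups of the special linear group fixing some of the standard basis vectors, in
block form, and the stabilisers of partial bases.
-/

namespace Vale.Agent.P067.KO

open Finset Polynomial Matrix

variable {k : Type} [Field k] {n m a b : ℕ}

theorem mem_cong_iff {g : Gam n k} :
    g ∈ cong k n m ↔ ∀ i j, red k m ((g : Matrix (Fin n) (Fin n) (Polynomial k)) i j) =
      (1 : Matrix (Fin n) (Fin n) (Trunc k m)) i j := by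
  rw [cong, MonoidHom.mem_ker, Matrix.SpecialLinearGroup.ext_iff]
  simp only [Matrix.SpecialLinearGroup.coe_one]
  exact Iff.rfl

/-- the matrix in block form -/
noncomputable def toB (g : Gam (a + b) k) : Matrix (Fin a ⊕ Fin b) (Fin a ⊕ Fin b) (Polynomial k) :=
  (g : Matrix (Fin (a + b)) (Fin (a + b)) (Polynomial k)).submatrix finSumFinEquiv finSumFinEquiv

theorem toB_mul (g h : Gam (a + b) k) : toB (g * h) = toB g * toB h := by
  rw [toB, toB, toB, Matrix.SpecialLinearGroup.coe_mul, Matrix.submatrix_mul_equiv]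

theorem toB_one : toB (1 : Gam (a + b) k) = 1 := by
  rw [toB, Matrix.SpecialLinearGroup.coe_one, Matrix.submatrix_one_equiv]

theorem det_toB (g : Gam (a + b) k) : (toB g).det = 1 := by
  rw [toB, Matrix.det_submatrix_equiv_self]
  exact g.2

theorem toB_injective : Function.Injective (toB (k := k) (a := a) (b := b)) := fun g h e =>
  Subtype.ext (Matrix.ext fun i j => by
    have := congrFun (congrFun e (finSumFinEquiv.symm i)) (finSumFinEquiv.symm j)
    simpa [toB] using this)

theorem toB_cong_iff {g : Gam (a + b) k} :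
    g ∈ cong k (a + b) m ↔ ∀ i j, red k m (toB g i j) =
      (1 : Matrix (Fin a ⊕ Fin b) (Fin a ⊕ Fin b) (Trunc k m)) i j := by
  rw [mem_cong_iff]
  constructor
  · intro h i j
    rw [toB, Matrix.submatrix_apply, h, Matrix.one_apply, Matrix.one_apply]
    simp [EmbeddingLike.apply_eq_iff_eq]
  · intro h i j
    have := h (finSumFinEquiv.symm i) (finSumFinEquiv.symm j)
    rw [toB, Matrix.submatrix_apply, Equiv.apply_symm_apply, Equiv.apply_symm_apply] at this
    rw [this, Matrix.one_apply, Matrix.one_apply]
    simp [EmbeddingLike.apply_eq_iff_eq]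

/-- the embedding of the smaller group as the last block -/
noncomputable def emb (a : ℕ) : Gam b k →* Gam (a + b) k where
  toFun D := ⟨(fromBlocks 1 0 0 (D : Matrix (Fin b) (Fin b) (Polynomial k))).submatrix
      finSumFinEquiv.symm finSumFinEquiv.symm, by
    rw [Matrix.det_submatrix_equiv_self, Matrix.det_fromBlocks_zero₂₁, Matrix.det_one, one_mul]
    exact D.2⟩
  map_one' := toB_injective (by simp [toB, Matrix.fromBlocks_one])
  map_mul' D D' := Subtype.ext (by
    show (fromBlocks 1 0 0 ((D : Matrix (Fin b) (Fin b) (Polynomial k)) * (D' : Matrix (Fin b) (Fin b) (Polynomial k)))).submatrix _ _ =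
      (fromBlocks 1 0 0 (D : Matrix (Fin b) (Fin b) (Polynomial k))).submatrix
          finSumFinEquiv.symm finSumFinEquiv.symm *
        (fromBlocks 1 0 0 (D' : Matrix (Fin b) (Fin b) (Polynomial k))).submatrix
          finSumFinEquiv.symm finSumFinEquiv.symm
    rw [Matrix.submatrix_mul_equiv, Matrix.fromBlocks_multiply]
    simp)

theorem toB_emb (D : Gam b k) :
    toB (emb a D) = fromBlocks 1 0 0 (D : Matrix (Fin b) (Fin b) (Polynomial k)) := by
  show ((fromBlocks 1 0 0 (D : Matrix (Fin b) (Fin b) (Polynomial k))).submatrix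
    finSumFinEquiv.symm finSumFinEquiv.symm).submatrix finSumFinEquiv finSumFinEquiv = _
  rw [Matrix.submatrix_submatrix, Equiv.symm_comp_self, Matrix.submatrix_id_id]

theorem emb_mem_cong {D : Gam b k} (hD : D ∈ cong k b m) : emb a D ∈ cong k (a + b) m := by
  rw [toB_cong_iff]
  rw [mem_cong_iff] at hD
  intro i j
  rw [toB_emb]
  rcases i with i | i <;> rcases j with j | j
  · rw [fromBlocks_apply₁₁, Matrix.one_apply, Matrix.one_apply]
    by_cases h : i = j <;> simp [h]
  · simp
  · simp
  · rw [fromBlocks_apply₂₂, hD, Matrix.one_apply, Matrix.one_apply]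
    simp

/-- the two parabolics: the first vectors fixed, or their coordinates fixed -/
noncomputable def par (up : Bool) (a b : ℕ) : Subgroup (Gam (a + b) k) where
  carrier := {g | (toB g).toBlocks₁₁ = 1 ∧
    if up then (toB g).toBlocks₂₁ = 0 else (toB g).toBlocks₁₂ = 0}
  one_mem' := by
    cases up <;> simp [toB_one, ← Matrix.fromBlocks_one]
  mul_mem' := by
    intro g h hg hh
    simp only [Set.mem_ofPred_eq] at hg hh ⊢
    rw [toB_mul, ← fromBlocks_toBlocks (toB g), ← fromBlocks_toBlocks (toB h),
      fromBlocks_multiply]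
    cases up <;> simp_all
  inv_mem' := by
    intro g hg
    simp only [Set.mem_ofPred_eq] at hg ⊢
    have e1 : toB g⁻¹ * toB g = 1 := by rw [← toB_mul, inv_mul_cancel, toB_one]
    have e2 : toB g * toB g⁻¹ = 1 := by rw [← toB_mul, mul_inv_cancel, toB_one]
    rw [← fromBlocks_toBlocks (toB g), ← fromBlocks_toBlocks (toB g⁻¹), fromBlocks_multiply,
      ← fromBlocks_one, fromBlocks_inj] at e1 e2
    cases up
    · simp only [Bool.false_eq_true, if_false] at hg ⊢
      simp only [hg.1, hg.2, Matrix.one_mul, Matrix.zero_mul, add_zero] at e2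
      exact ⟨e2.1, e2.2.1⟩
    · simp only [if_true] at hg ⊢
      simp only [hg.1, hg.2, Matrix.mul_one, Matrix.mul_zero, add_zero] at e1
      exact ⟨e1.1, e1.2.2.1⟩

theorem mem_par {up : Bool} {g : Gam (a + b) k} : g ∈ par up a b ↔
    (toB g).toBlocks₁₁ = 1 ∧ if up then (toB g).toBlocks₂₁ = 0 else (toB g).toBlocks₁₂ = 0 :=
  Iff.rfl

/-- the projection to the last block -/
noncomputable def parProj (up : Bool) (a b : ℕ) : par (k := k) up a b →* Gam b k where
  toFun g := ⟨(toB g.1).toBlocks₂₂, by
    have h := det_toB g.1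
    rw [← fromBlocks_toBlocks (toB g.1)] at h
    have hg := mem_par.mp g.2
    cases up
    · simp only [Bool.false_eq_true, if_false] at hg
      rwa [hg.1, hg.2, det_fromBlocks_zero₁₂, det_one, one_mul] at h
    · simp only [if_true] at hg
      rwa [hg.1, hg.2, det_fromBlocks_zero₂₁, det_one, one_mul] at h⟩
  map_one' := Subtype.ext (by simp [toB_one, ← Matrix.fromBlocks_one])
  map_mul' g h := by
    refine Subtype.ext ?_
    show (toB (g.1 * h.1)).toBlocks₂₂ = (toB g.1).toBlocks₂₂ * (toB h.1).toBlocks₂₂
    rw [toB_mul, ← fromBlocks_toBlocks (toB g.1), ← fromBlocks_toBlocks (toB h.1),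
      fromBlocks_multiply]
    have hg := mem_par.mp g.2
    have hh := mem_par.mp h.2
    cases up <;> simp_all

theorem emb_mem_par (up : Bool) (D : Gam b k) : emb a D ∈ par up a b := by
  rw [mem_par, toB_emb]
  cases up <;> simp

theorem parProj_emb (up : Bool) (D : Gam b k) :
    parProj up a b ⟨emb a D, emb_mem_par up D⟩ = D :=
  Subtype.ext (by
    show (toB (emb a D)).toBlocks₂₂ = _
    rw [toB_emb]
    simp)

theorem parProj_cong (up : Bool) {g : par (k := k) up a b} (hg : g.1 ∈ cong k (a + b) m) :
    parProj up a b g ∈ cong k b m := by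
  rw [mem_cong_iff]
  intro i j
  show red k m ((toB g.1).toBlocks₂₂ i j) = _
  rw [toBlocks₂₂, Matrix.of_apply, toB_cong_iff.mp hg, Matrix.one_apply, Matrix.one_apply]
  simp

theorem toB_of_proj_one {up : Bool} {g : par (k := k) up a b} (hg : parProj up a b g = 1) :
    ∃ (B : Matrix (Fin a) (Fin b) (Polynomial k)) (C : Matrix (Fin b) (Fin a) (Polynomial k)),
      toB g.1 = fromBlocks 1 B C 1 ∧ if up then C = 0 else B = 0 := by
  have h2 : (toB g.1).toBlocks₂₂ = 1 := congrArg Subtype.val hg
  have h1 := mem_par.mp g.2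
  refine ⟨(toB g.1).toBlocks₁₂, (toB g.1).toBlocks₂₁, ?_, h1.2⟩
  conv_lhs => rw [← fromBlocks_toBlocks (toB g.1), h1.1, h2]

/-- the split extension of a congruence subgroup -/
noncomputable def parSplit (up : Bool) (a b m : ℕ) (q : ℕ) (hq : Odd q) (hqk : (q : k) = 0) :
    Split (cong k (a + b) m) (par (k := k) up a b) (cong k b m) where
  proj := parProj up a b
  sec := emb a
  sec_mem := emb_mem_par up
  proj_sec := parProj_emb up
  proj_N _ hg := parProj_cong up hg
  sec_N _ hx := emb_mem_cong hx
  q := q
  odd := hq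
  comm g h hg hh _ _ := by
    obtain ⟨B, C, e1, h1⟩ := toB_of_proj_one hg
    obtain ⟨B', C', e2, h2⟩ := toB_of_proj_one hh
    refine Subtype.ext (toB_injective ?_)
    show toB (g.1 * h.1) = toB (h.1 * g.1)
    rw [toB_mul, toB_mul, e1, e2, fromBlocks_multiply, fromBlocks_multiply]
    cases up <;> simp_all [add_comm]
  exp g hg _ := by
    obtain ⟨B, C, e1, h1⟩ := toB_of_proj_one hg
    have hpow : ∀ r : ℕ, toB (g.1 ^ r) = fromBlocks 1 (r • B) (r • C) 1 := by
      intro r
      induction r with
      | zero => simp [toB_one, fromBlocks_one]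
      | succ r ih =>
        rw [pow_succ, toB_mul, ih, e1, fromBlocks_multiply]
        cases up <;> simp_all [succ_nsmul, add_comm]
    refine Subtype.ext (toB_injective ?_)
    show toB ((g ^ q : par up a b) : Gam (a + b) k) = toB 1
    rw [SubmonoidClass.coe_pow, hpow, toB_one]
    have h0 : (q : Polynomial k) = 0 := by rw [← map_natCast (Polynomial.C), hqk, map_zero]
    have hB : q • B = 0 := by ext i j; simp [h0]
    have hC : q • C = 0 := by ext i j; simp [h0]
    rw [hB, hC, fromBlocks_one]

/-- the first standard basis vectors -/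
noncomputable def stdSet (k : Type) [Field k] [DecidableEq k] (a b : ℕ) :
    Finset (Fin (a + b) → Polynomial k) :=
  Finset.univ.image fun i : Fin a => Pi.single (Fin.castAdd b i) 1

theorem colAct_single (g : Gam n k) (i : Fin n) :
    colAct g (Pi.single i 1) = fun r => (g : Matrix (Fin n) (Fin n) (Polynomial k)) r i := by
  rw [colAct, Matrix.mulVec_single_one]
  rfl

theorem colAct_isAct : IsAct (colAct : Gam n k → (Fin n → Polynomial k) → Fin n → Polynomial k) :=
  ⟨fun v => by simp [colAct], fun g h v => by simp [colAct, Matrix.mulVec_mulVec]⟩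

theorem par_iff_fix (g : Gam (a + b) k) : g ∈ par true a b ↔
    ∀ i : Fin a, colAct g (Pi.single (Fin.castAdd b i) 1) = Pi.single (Fin.castAdd b i) 1 := by
  rw [mem_par, if_pos rfl]
  constructor
  · intro h i
    rw [colAct_single]
    funext r
    obtain ⟨r, rfl⟩ := finSumFinEquiv.surjective r
    rcases r with r | r
    · have := congrFun (congrFun h.1 r) i
      simpa [toB, toBlocks₁₁, Matrix.one_apply, Pi.single_apply] using this
    · have := congrFun (congrFun h.2 r) i
      simp [toB, toBlocks₂₁] at this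
      have hne : Fin.natAdd a r ≠ Fin.castAdd b i := fun e => by
        simp [Fin.ext_iff] at e
        omega
      simp [this, hne]
  · intro h
    constructor
    · refine Matrix.ext fun r i => ?_
      have := congrFun (h i) (Fin.castAdd b r)
      rw [colAct_single] at this
      simpa [toB, toBlocks₁₁, Matrix.one_apply, Pi.single_apply] using this
    · refine Matrix.ext fun r i => ?_
      have := congrFun (h i) (Fin.natAdd a r)
      rw [colAct_single] at this
      have hne : Fin.natAdd a r ≠ Fin.castAdd b i := fun e => by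
        simp [Fin.ext_iff] at e
        omega
      simp [hne] at this
      simp [toB, toBlocks₂₁, this]

theorem stab_stdSet [DecidableEq k] (hm : 1 ≤ m) :
    stab colAct (cong k (a + b) m) (stdSet k a b) =
      ((cong k (a + b) m ⊓ par true a b : Subgroup (Gam (a + b) k)) : Set (Gam (a + b) k)) := by
  ext g
  constructor
  · rintro ⟨hg, hgs⟩
    refine ⟨hg, (par_iff_fix g).mpr fun i => ?_⟩
    have h1 : colAct g (Pi.single (Fin.castAdd b i) 1) ∈ stdSet k a b :=
      hgs ▸ Finset.mem_image_of_mem _ (Finset.mem_image_of_mem _ (Finset.mem_univ i))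
    obtain ⟨j, -, hj⟩ := Finset.mem_image.mp h1
    rw [← hj]
    have h2 := congrFun hj (Fin.castAdd b j)
    rw [colAct_single, Pi.single_eq_same] at h2
    simp only at h2
    have h3 := (mem_cong_iff.mp hg) (Fin.castAdd b j) (Fin.castAdd b i)
    rw [← h2, map_one] at h3
    by_cases hij : j = i
    · rw [hij]
    · rw [Matrix.one_apply_ne (fun e => hij (Fin.castAdd_injective _ _ e))] at h3
      have := nontrivial_trunc (k := k) hm
      exact absurd h3 one_ne_zero
  · rintro ⟨hg, hgp⟩
    refine ⟨hg, ?_⟩
    rw [stdSet, Finset.image_image]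
    exact Finset.image_congr fun i _ => (par_iff_fix g).mp hgp i

/-- a partial basis is a translate of the first standard vectors -/
theorem exists_std [DecidableEq k] {r : Finset (Fin (a + b) → Polynomial k)}
    (hr : PB (Polynomial k) (a + b) r) (ha : r.card = a) (hb : 1 ≤ b) :
    ∃ h : Gam (a + b) k, r = (stdSet k a b).image (colAct h) := by
  obtain ⟨g, hg, hgs⟩ := hr
  obtain ⟨I, hI, hIc⟩ := exists_index hg hgs
  have h1 : Fintype.card {x // x ∈ I} = a := by simp [hIc, ha]
  have h2 : Fintype.card {x // ¬ x ∈ I} = b := by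
    rw [Fintype.card_subtype_compl, h1, Fintype.card_fin]
    omega
  let e : Fin (a + b) ≃ Fin (a + b) := finSumFinEquiv.symm.trans
    ((Equiv.sumCongr (Fintype.equivFinOfCardEq h1).symm (Fintype.equivFinOfCardEq h2).symm).trans
      (Equiv.sumCompl fun x => x ∈ I))
  let M := g.submatrix id e
  obtain ⟨u, hu⟩ : IsUnit M.det := by
    have : M = g * (1 : Matrix (Fin (a + b)) (Fin (a + b)) (Polynomial k)).submatrix id e := by
      ext i j
      simp [M, Matrix.mul_apply, Matrix.one_apply]
    rw [this, Matrix.det_mul]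
    refine hg.mul ?_
    rw [Matrix.det_permute', Matrix.det_one, mul_one]
    exact (Equiv.Perm.sign e).isUnit.map (Int.castRingHom (Polynomial k))
  let j₀ : Fin (a + b) := Fin.natAdd a ⟨0, hb⟩
  refine ⟨⟨Matrix.updateCol M j₀ fun r => M r j₀ * ↑u⁻¹, by
    rw [det_scale, ← hu, Units.mul_inv]⟩, ?_⟩
  have hcol : ∀ i : Fin a, (fun r => Matrix.updateCol M j₀ (fun r => M r j₀ * ↑u⁻¹) r
      (Fin.castAdd b i)) = fun r => g r (e (Fin.castAdd b i)) := by
    intro i
    funext r
    rw [mul_eq_updateCol M j₀ (Fin.castAdd b i) r (fun h => by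
      simp [j₀, Fin.ext_iff] at h; omega)]
    rfl
  have he : ∀ i : Fin a, e (Fin.castAdd b i) = ((Fintype.equivFinOfCardEq h1).symm i).1 := by
    intro i
    simp [e]
  rw [hI, stdSet, Finset.image_image]
  ext v
  simp only [Finset.mem_image, Finset.mem_univ, true_and, Function.comp_apply]
  constructor
  · rintro ⟨i, hi, rfl⟩
    refine ⟨Fintype.equivFinOfCardEq h1 ⟨i, hi⟩, ?_⟩
    refine (colAct_single _ _).trans ((hcol _).trans ?_)
    rw [he, Equiv.symm_apply_apply]
  · rintro ⟨i, rfl⟩
    refine ⟨_, ((Fintype.equivFinOfCardEq h1).symm i).2, ?_⟩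
    refine ((colAct_single _ _).trans ((hcol i).trans ?_)).symm
    rw [he]

end Vale.Agent.P067.KO
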