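import Vale.Agent.P067.KO.VanishBlocks

/-!
Congruence subgroups: every class comes from the last block and is fixed by the whole group.
-/

namespace Vale.Agent.P067.KO

open Finset Polynomial Vale.Agent.P067.Sub

variable {k : Type} [Field k] {n m a b : ℕ}

theorem normal_cong : (cong k n m).Normal := MonoidHom.normal_ker _

section Translate

variable {G α : Type*} [Group G] [DecidableEq α] {act : G → α → α}

theorem tr_mem_Rel (hA : IsAct act) {P : Finset α → Prop}
    (hi : ∀ g s, P s → P (s.image (act g))) {S S' : Set G} {h : G}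
    (hS : ∀ g ∈ S, h * g * h⁻¹ ∈ S') {c : ℕ} {z : Ch α} (hz : z ∈ Rel act S P c) :
    tr act h z ∈ Rel act S' P c := by
  refine (Submodule.span_le.mpr ?_ : Rel act S P c ≤ (Rel act S' P c).comap (tr act h)) hz
  rintro x ⟨g, hg, s, hs, rfl⟩
  rw [SetLike.mem_coe, Submodule.mem_comap, map_add, tr_sg, tr_sg]
  refine Submodule.subset_span ⟨_, hS g hg, s.image (act h),
    ⟨hi _ _ hs.1, (Finset.card_image_of_injective _ (hA.inj _)).trans hs.2⟩, ?_⟩
  rw [← hA.image_mul, ← hA.image_mul, inv_mul_cancel_right]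

theorem tr_mem_cyc (hA : IsAct act) {P : Finset α → Prop}
    (hi : ∀ g s, P s → P (s.image (act g))) {S S' : Set G} {h : G}
    (hS : ∀ g ∈ S, h * g * h⁻¹ ∈ S') {c : ℕ} {z : Ch α} (hz : z ∈ cyc act S P c) :
    tr act h z ∈ cyc act S' P c := by
  obtain ⟨h1, h2⟩ := mem_cyc.mp hz
  refine mem_cyc.mpr ⟨tr_Sz hA (hi h) h1, ?_⟩
  rw [hA.bd_tr']
  exact tr_mem_Rel hA hi hS h2

theorem tr_mem_bnd (hA : IsAct act) {P : Finset α → Prop}
    (hi : ∀ g s, P s → P (s.image (act g))) {S S' : Set G} {h : G}
    (hS : ∀ g ∈ S, h * g * h⁻¹ ∈ S') {c : ℕ} {z : Ch α} (hz : z ∈ bnd act S P c) :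
    tr act h z ∈ bnd act S' P c := by
  obtain ⟨w, hw, h2⟩ := mem_bnd.mp hz
  refine mem_bnd.mpr ⟨tr act h w, tr_Sz hA (hi h) hw, ?_⟩
  rw [hA.bd_tr', ← map_add]
  exact tr_mem_Rel hA hi hS h2

theorem cyc_le_bnd_translate (hA : IsAct act) {P : Finset α → Prop}
    (hi : ∀ g s, P s → P (s.image (act g))) {S S' : Set G} (h : G)
    (hS : ∀ g, g ∈ S' ↔ h⁻¹ * g * h ∈ S) {c : ℕ} (hle : cyc act S P c ≤ bnd act S P c) :
    cyc act S' P c ≤ bnd act S' P c := by
  intro z hz
  have h1 := tr_mem_cyc hA hi (h := h⁻¹) (S' := S)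
    (fun g hg => by rw [inv_inv]; exact (hS g).mp hg) hz
  have h2 := tr_mem_bnd hA hi (h := h) (S' := S')
    (fun g hg => (hS _).mpr (by
      rwa [show h⁻¹ * (h * g * h⁻¹) * h = g by group])) (hle h1)
  rwa [hA.tr_mul, mul_inv_cancel, hA.tr_one] at h2

end Translate

variable [DecidableEq k]

theorem pb_invariant (g : Gam n k) {s : Finset (Fin n → Polynomial k)}
    (hs : PB (Polynomial k) n s) : PB (Polynomial k) n (s.image (colAct g)) := by
  obtain ⟨M, hM, hs⟩ := hs
  refine ⟨(g : Matrix (Fin n) (Fin n) (Polynomial k)) * M, ?_, fun v hv => ?_⟩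
  · rw [Matrix.det_mul, g.2, one_mul]
    exact hM
  · obtain ⟨w, hw, rfl⟩ := Finset.mem_image.mp hv
    obtain ⟨i, rfl⟩ := hs w hw
    refine ⟨i, ?_⟩
    funext r
    simp [colAct, Matrix.mulVec, dotProduct, Matrix.mul_apply]

theorem stab_translate {N : Subgroup (Gam n k)} [hN : N.Normal]
    (r : Finset (Fin n → Polynomial k)) (h g : Gam n k) :
    g ∈ stab colAct N (r.image (colAct h)) ↔ h⁻¹ * g * h ∈ stab colAct N r := by
  have hA := colAct_isAct (k := k) (n := n)
  constructor
  · rintro ⟨hg, hgr⟩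
    refine ⟨by simpa using hN.conj_mem g hg h⁻¹, ?_⟩
    rw [hA.image_mul, hA.image_mul, hgr, ← hA.image_mul, inv_mul_cancel, hA.image_one]
  · rintro ⟨hg, hgr⟩
    refine ⟨?_, ?_⟩
    · have := hN.conj_mem _ hg h
      rwa [show h * (h⁻¹ * g * h) * h⁻¹ = g by group] at this
    · rw [hA.image_mul, hA.image_mul] at hgr
      calc (r.image (colAct h)).image (colAct g)
          = (((r.image (colAct h)).image (colAct g)).image (colAct h⁻¹)).image (colAct h) := by
            rw [← hA.image_mul h h⁻¹, mul_inv_cancel, hA.image_one]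
        _ = r.image (colAct h) := by rw [hgr]

variable [DecidableEq (Gam (a + b) k)] [DecidableEq (Gam b k)] {q : ℕ}

/-- the stabiliser of a partial basis has no homology where the smaller group has none -/
theorem cyc_stab_le (hm : 1 ≤ m) (hq : Odd q) (hqk : (q : k) = 0) (hb : 1 ≤ b) {c : ℕ}
    (hc : 1 ≤ c) {r : Finset (Fin (a + b) → Polynomial k)}
    (hr : PB (Polynomial k) (a + b) r) (hra : r.card = a)
    (hQ : cyc milnorAct (cong k b m : Set (Gam b k)) MilnorFace c ≤
      bnd milnorAct (cong k b m : Set (Gam b k)) MilnorFace c) :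
    cyc milnorAct (stab colAct (cong k (a + b) m) r) MilnorFace c ≤
      bnd milnorAct (stab colAct (cong k (a + b) m) r) MilnorFace c := by
  have := normal_cong (k := k) (n := a + b) (m := m)
  obtain ⟨h, rfl⟩ := exists_std hr hra hb
  refine cyc_le_bnd_translate milnorAct_isAct (fun g s hs => milnor_invariant g hs) h
    (fun g => stab_translate _ h g) ?_
  rw [stab_stdSet hm]
  intro z hz
  obtain ⟨y, -, -, hy⟩ := (parSplit true a b m q hq hqk).reduce hc hz
  exact hy hQ

/-- transvections in the first row and the first column -/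
theorem transv_mem_par (i : Fin b) (x : Polynomial k) (up : Bool) (g : Gam (1 + b) k)
    (hg : (g : Matrix (Fin (1 + b)) (Fin (1 + b)) (Polynomial k)) =
      if up then Matrix.transvection (Fin.castAdd b 0) (Fin.natAdd 1 i) x
      else Matrix.transvection (Fin.natAdd 1 i) (Fin.castAdd b 0) x) :
    ∃ h : g ∈ par up 1 b, parProj up 1 b ⟨g, h⟩ = 1 := by
  have hne : ∀ r : Fin b, Fin.natAdd 1 r ≠ Fin.castAdd b (0 : Fin 1) := fun r e => by
    simp [Fin.ext_iff] at e
  have hne' : ∀ r : Fin b, Fin.castAdd b (0 : Fin 1) ≠ Fin.natAdd 1 r := fun r e => hne r e.symm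
  refine ⟨?_, ?_⟩
  · rw [mem_par]
    cases up
    · simp only [Bool.false_eq_true, if_false] at hg ⊢
      refine ⟨Matrix.ext fun r s => ?_, Matrix.ext fun r s => ?_⟩
      · obtain rfl : r = s := Subsingleton.elim _ _
        simp [toB, Matrix.toBlocks₁₁, hg, Matrix.transvection, Matrix.one_apply,
          Subsingleton.elim r 0, hne i]
      · simp [toB, Matrix.toBlocks₁₂, hg, Matrix.transvection, Subsingleton.elim r 0, hne i,
          hne' s]
    · simp only [if_true] at hg ⊢
      refine ⟨Matrix.ext fun r s => ?_, Matrix.ext fun r s => ?_⟩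
      · obtain rfl : r = s := Subsingleton.elim _ _
        simp [toB, Matrix.toBlocks₁₁, hg, Matrix.transvection, Matrix.one_apply,
          Subsingleton.elim r 0, hne i]
      · simp [toB, Matrix.toBlocks₂₁, hg, Matrix.transvection, Subsingleton.elim s 0, hne i,
          hne' r, hne r]
  · refine Subtype.ext (Matrix.ext fun r s => ?_)
    show (toB g).toBlocks₂₂ r s = (1 : Matrix (Fin b) (Fin b) (Polynomial k)) r s
    cases up
    · simp only [Bool.false_eq_true, if_false] at hg
      simp [toB, Matrix.toBlocks₂₂, hg, Matrix.transvection, Matrix.one_apply, hne' s]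
    · simp only [if_true] at hg
      simp [toB, Matrix.toBlocks₂₂, hg, Matrix.transvection, Matrix.one_apply, hne' r]

omit [DecidableEq k] [DecidableEq (Gam (a + b) k)] [DecidableEq (Gam b k)] in
theorem transvection_commutator {i j l : Fin n} (hij : i ≠ j) (hil : i ≠ l) (hlj : l ≠ j)
    (x : Polynomial k) :
    Matrix.transvection i l x * Matrix.transvection l j (1 : Polynomial k) *
      (Matrix.transvection i l (-x) * Matrix.transvection l j (-1)) =
      Matrix.transvection i j x := by
  have hneg : ∀ (a b : Fin n) (y : Polynomial k),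
      Matrix.single a b (-y) = -Matrix.single a b y := fun a b y => Matrix.ext fun r s => by
    by_cases h : a = r ∧ b = s <;> simp [h]
  simp only [hneg, Matrix.transvection, Matrix.mul_add, Matrix.add_mul, Matrix.mul_one,
    Matrix.single_mul_single_of_ne _ _ _ _ hil.symm, Matrix.single_mul_single_same,
    Matrix.single_mul_single_of_ne _ _ _ _ hij.symm, Matrix.single_mul_single_of_ne _ _ _ _ hlj.symm,
    add_zero, zero_add, mul_neg, neg_mul, mul_one, one_mul,
    Matrix.neg_mul, Matrix.mul_neg, Matrix.zero_mul, Matrix.mul_zero]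
  abel

variable [DecidableEq (Gam (1 + b) k)]

omit [DecidableEq (Gam (a + b) k)] in
/-- every class comes from the last block, and the whole group fixes every class -/
theorem tr_fixes (hEl : ElementaryStmt) (hm : 1 ≤ m) (hq : Odd q) (hqk : (q : k) = 0)
    (hb : 1 ≤ b) {c : ℕ} (hc : 1 ≤ c) (hcn : c < 1 + b)
    (hAcy : Acy (PB (Polynomial k) (1 + b)) (1 + b))
    (hCo : CoAcy colAct (cong k (1 + b) m : Set (Gam (1 + b) k)) (PB (Polynomial k) (1 + b))
      (1 + b))
    (hSt : ∀ r c', 1 ≤ c' → 2 ≤ r.card → r.card + c' = c + 1 → PB (Polynomial k) (1 + b) r →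
      cyc milnorAct (stab colAct (cong k (1 + b) m) r) MilnorFace c' ≤
        bnd milnorAct (stab colAct (cong k (1 + b) m) r) MilnorFace c')
    (g : Gam (1 + b) k) {z : Ch (Gam (1 + b) k × ℕ)}
    (hz : z ∈ cyc milnorAct (cong k (1 + b) m : Set (Gam (1 + b) k)) MilnorFace c) :
    tr milnorAct g z + z ∈
      bnd milnorAct (cong k (1 + b) m : Set (Gam (1 + b) k)) MilnorFace c := by
  set N := cong k (1 + b) m with hN
  have hNn : N.Normal := normal_cong
  have hA := milnorAct_isAct (G := Gam (1 + b) k)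
  have hinv := fun (g : Gam (1 + b) k) s (hs : MilnorFace s) => milnor_invariant g hs
  have hbndg : ∀ g : Gam (1 + b) k, ∀ {x : Ch (Gam (1 + b) k × ℕ)},
      x ∈ bnd milnorAct (N : Set (Gam (1 + b) k)) MilnorFace c →
      tr milnorAct g x ∈ bnd milnorAct (N : Set (Gam (1 + b) k)) MilnorFace c :=
    fun g x hx => tr_mem_bnd hA hinv (fun h hh => hNn.conj_mem h hh g) hx
  let L : Set (Gam (1 + b) k) := emb 1 '' (cong k b m : Set (Gam b k))
  have hLN : L ⊆ (N : Set (Gam (1 + b) k)) := by
    rintro _ ⟨x, hx, rfl⟩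
    exact emb_mem_cong hx
  let W := cyc milnorAct L MilnorFace c
  let Fix : Subgroup (Gam (1 + b) k) :=
    { carrier := {g | ∀ y ∈ W, tr milnorAct g y + y ∈
        bnd milnorAct (N : Set (Gam (1 + b) k)) MilnorFace c}
      one_mem' := fun y _ => by rw [hA.tr_one, ZModModule.add_self]; exact Submodule.zero_mem _
      mul_mem' := fun {g h} hg hh y hy => by
        have h1 := hbndg g (hh y hy)
        rw [map_add, hA.tr_mul] at h1
        exact add_trans_mem h1 (hg y hy)
      inv_mem' := fun {g} hg y hy => by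
        have h1 := hbndg g⁻¹ (hg y hy)
        rw [map_add, hA.tr_mul, inv_mul_cancel, hA.tr_one] at h1
        rwa [add_comm (tr milnorAct g⁻¹ y) y] }
  have hpar : ∀ (up : Bool) (g : Gam (1 + b) k) (h : g ∈ par up 1 b),
      parProj up 1 b ⟨g, h⟩ = 1 → g ∈ Fix := by
    intro up g h h1 y hy
    have hy' : y ∈ cyc milnorAct ((N ⊓ par up 1 b : Subgroup (Gam (1 + b) k)) :
        Set (Gam (1 + b) k)) MilnorFace c := by
      refine cyc_mono ?_ c hy
      rintro _ ⟨x, hx, rfl⟩
      exact ⟨emb_mem_cong hx, emb_mem_par up x⟩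
    exact bnd_mono (fun x hx => hx.1) c ((parSplit up 1 b m q hq hqk).tr_add_mem h h1 hc hy')
  have htop : Fix = ⊤ := by
    refine hEl k (1 + b) m Fix hm (fun g hg y hy => ?_) ?_
    · rw [add_comm (tr milnorAct g y) y]
      exact Submodule.mem_sup_left (mem_rel_add hg (mem_cyc.mp hy).1)
    · rintro g ⟨i, j, x, hij, hg⟩
      let T : ∀ i j : Fin (1 + b), i ≠ j → Polynomial k → Gam (1 + b) k := fun i j h x =>
        ⟨Matrix.transvection i j x, Matrix.det_transvection_of_ne i j h x⟩
      let o : Fin (1 + b) := Fin.castAdd b 0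
      have hnat : ∀ i : Fin (1 + b), i ≠ o → ∃ i' : Fin b, i = Fin.natAdd 1 i' := by
        intro i hi
        refine ⟨⟨i.1 - 1, ?_⟩, ?_⟩
        · have : i.1 ≠ 0 := fun e => hi (Fin.ext (by simp [o, e]))
          omega
        · have : i.1 ≠ 0 := fun e => hi (Fin.ext (by simp [o, e]))
          refine Fin.ext ?_
          simp
          omega
      have hrow : ∀ j (h : o ≠ j) x, T o j h x ∈ Fix := by
        intro j h x
        obtain ⟨j', rfl⟩ := hnat j h.symm
        obtain ⟨h', h1⟩ := transv_mem_par (b := b) j' x true (T o _ h x) (by simp [T, o])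
        exact hpar true _ h' h1
      have hcol : ∀ i (h : i ≠ o) x, T i o h x ∈ Fix := by
        intro i h x
        obtain ⟨i', rfl⟩ := hnat i h
        obtain ⟨h', h1⟩ := transv_mem_par (b := b) i' x false (T _ o h x) (by simp [T, o])
        exact hpar false _ h' h1
      by_cases hio : i = o
      · subst hio
        rw [show g = T o j hij x from Subtype.ext hg]
        exact hrow j hij x
      by_cases hjo : j = o
      · subst hjo
        rw [show g = T i o hij x from Subtype.ext hg]
        exact hcol i hij x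
      have hjo' : o ≠ j := fun e => hjo e.symm
      have e : g = T i o hio x * T o j hjo' 1 * (T i o hio (-x) * T o j hjo' (-1)) :=
        Subtype.ext (by
          rw [hg]
          exact (transvection_commutator hij hio hjo' x).symm)
      rw [e]
      exact Fix.mul_mem (Fix.mul_mem (hcol i hio x) (hrow j hjo' 1))
        (Fix.mul_mem (hcol i hio (-x)) (hrow j hjo' (-1)))
  have hfix : ∀ g, ∀ y ∈ W, tr milnorAct g y + y ∈
      bnd milnorAct (N : Set (Gam (1 + b) k)) MilnorFace c :=
    fun g => (htop ▸ Subgroup.mem_top g : g ∈ Fix)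
  suffices hW : cyc milnorAct (N : Set (Gam (1 + b) k)) MilnorFace c ≤
      bnd milnorAct (N : Set (Gam (1 + b) k)) MilnorFace c ⊔ W by
    obtain ⟨x, hx, y, hy, rfl⟩ := Submodule.mem_sup.mp (hW hz)
    rw [map_add, add_add_add_comm]
    exact Submodule.add_mem _ (Submodule.add_mem _ (hbndg g hx) hx) (hfix g y hy)
  intro z hz
  refine (sup_le le_sup_left (iSup_le fun v => ?_) :
    bnd milnorAct (N : Set (Gam (1 + b) k)) MilnorFace c ⊔
      ⨆ v : {v // PB (Polynomial k) (1 + b) {v}},
        cyc milnorAct (stab colAct N {v.1}) MilnorFace c ≤ _)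
    (staircase colAct_isAct (fun s t hs hts => pb_mono hs hts) (fun g s hs => pb_invariant g hs)
      hc hcn hAcy ⟨1, by simp, by simp⟩ hCo hSt hz)
  obtain ⟨h, hh⟩ := exists_std v.2 (Finset.card_singleton _) hb
  intro y hy
  have hy' := tr_mem_cyc hA hinv (h := h⁻¹) (S' := stab colAct N (stdSet k 1 b))
    (fun g hg => by rw [inv_inv]; exact (stab_translate _ h g).mp (hh ▸ hg)) hy
  rw [stab_stdSet hm] at hy'
  obtain ⟨w, hw, hyw, -⟩ := (parSplit true 1 b m q hq hqk).reduce hc hy'
  have h1 := hbndg h (bnd_mono (fun x hx => hx.1) c hyw)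
  rw [map_add, hA.tr_mul, mul_inv_cancel, hA.tr_one] at h1
  refine Submodule.mem_sup.mpr ⟨y + w, add_trans_mem h1 (hfix h w hw), w, hw, ?_⟩
  rw [add_assoc, ZModModule.add_self, add_zero]

end Vale.Agent.P067.KO
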