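import Vale.Agent.P067.KO.Milnor

/-!
Split extensions by abelian groups of odd exponent: the homology of a congruence subgroup of a
parabolic subgroup comes from its Levi part, and the unipotent part acts trivially on it.
-/

namespace Vale.Agent.P067.KO

open Finset Vale.Agent.P067.Sub

variable {G G' α : Type*} [Group G] [Group G'] [DecidableEq α]

omit [Group G] in
theorem Rel_comp {G₀ : Type*} (f : G₀ → G) (act : G → α → α) (S : Set G₀)
    (P : Finset α → Prop) (c : ℕ) :
    Rel (fun g a => act (f g) a) S P c = Rel act (f '' S) P c := by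
  refine le_antisymm (Submodule.span_mono ?_) (Submodule.span_mono ?_)
  · rintro x ⟨g, hg, s, hs, rfl⟩
    exact ⟨f g, ⟨g, hg, rfl⟩, s, hs, rfl⟩
  · rintro x ⟨g, ⟨g₀, hg, rfl⟩, s, hs, rfl⟩
    exact ⟨g₀, hg, s, hs, rfl⟩

omit [Group G] in
theorem cyc_comp {G₀ : Type*} (f : G₀ → G) (act : G → α → α) (S : Set G₀)
    (P : Finset α → Prop) (c : ℕ) :
    cyc (fun g a => act (f g) a) S P c = cyc act (f '' S) P c := by
  rw [cyc, cyc, Rel_comp]

/-- a parabolic subgroup with its split projection to the Levi part -/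
structure Split (N : Subgroup G) (P₀ : Subgroup G) (N' : Subgroup G') where
  proj : P₀ →* G'
  sec : G' →* G
  sec_mem : ∀ x, sec x ∈ P₀
  proj_sec : ∀ x, proj ⟨sec x, sec_mem x⟩ = x
  proj_N : ∀ g : P₀, (g : G) ∈ N → proj g ∈ N'
  sec_N : ∀ x ∈ N', sec x ∈ N
  q : ℕ
  odd : Odd q
  comm : ∀ a b : P₀, proj a = 1 → proj b = 1 → (a : G) ∈ N → (b : G) ∈ N → a * b = b * a
  exp : ∀ a : P₀, proj a = 1 → (a : G) ∈ N → a ^ q = 1

namespace Split

variable [DecidableEq G] [DecidableEq G'] {N P₀ : Subgroup G} {N' : Subgroup G'}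
  (S : Split N P₀ N')

/-- the congruence part of the unipotent radical -/
def kern : Subgroup G := (S.proj.ker ⊓ N.subgroupOf P₀).map P₀.subtype

omit [DecidableEq G] [DecidableEq G'] in
theorem mem_kern {g : G} : g ∈ S.kern ↔ ∃ h : g ∈ P₀, S.proj ⟨g, h⟩ = 1 ∧ g ∈ N := by
  constructor
  · rintro ⟨a, ⟨ha, ha'⟩, rfl⟩
    exact ⟨a.2, ha, ha'⟩
  · rintro ⟨h, h1, h2⟩
    exact ⟨⟨g, h⟩, ⟨h1, h2⟩, rfl⟩

omit [DecidableEq G'] in
theorem coAcy_kern (m : ℕ) : CoAcy milnorAct (S.kern : Set G) MilnorFace m := by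
  refine coAcy_of_locallyOdd milnorAct_isAct (fun g s hs => milnor_invariant g hs)
    (fun T hT => locallyOdd_of_exponent S.odd ?_ ?_ T hT) (milnor_acy m)
  · rintro _ ⟨a, ⟨ha, ha'⟩, rfl⟩ _ ⟨b, ⟨hb, hb'⟩, rfl⟩
    exact congrArg Subtype.val (S.comm a b ha hb ha' hb')
  · rintro _ ⟨a, ⟨ha, ha'⟩, rfl⟩
    exact (map_pow P₀.subtype a S.q).symm.trans
      ((congrArg P₀.subtype (S.exp a ha ha')).trans (map_one _))

omit [DecidableEq G'] in
theorem target_kern [hN : N.Normal] (m : ℕ) :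
    Target (N.subgroupOf P₀) (fun (g : P₀) x => milnorAct (g : G) x) MilnorFace
      (Rel milnorAct (S.kern : Set G) MilnorFace) m := by
  refine Target.coinv (σ := P₀.subtype) milnorAct_isAct milnor_down
    (fun g s hs => milnor_invariant g hs) ?_ (milnor_acy 1) (S.coAcy_kern m)
  intro g _ k hk
  obtain ⟨hk1, hk2, hk3⟩ := S.mem_kern.mp hk
  refine S.mem_kern.mpr ⟨P₀.mul_mem (P₀.mul_mem g.2 hk1) (P₀.inv_mem g.2), ?_,
    hN.conj_mem k hk3 _⟩
  show S.proj (g * ⟨k, hk1⟩ * g⁻¹) = 1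
  rw [map_mul, map_mul, hk2, mul_one, map_inv, mul_inv_cancel]

omit [DecidableEq G] [DecidableEq G'] in
theorem kern_le : (S.kern : Set G) ⊆ ((N ⊓ P₀ : Subgroup G) : Set G) := fun g hg => by
  obtain ⟨h1, -, h3⟩ := S.mem_kern.mp hg
  exact ⟨h3, h1⟩

omit [DecidableEq G] [Group G'] [DecidableEq G'] in
theorem image_subgroupOf :
    P₀.subtype '' (N.subgroupOf P₀ : Set P₀) = ((N ⊓ P₀ : Subgroup G) : Set G) := by
  ext g
  exact ⟨fun ⟨a, ha, h⟩ => h ▸ ⟨ha, a.2⟩, fun ⟨h1, h2⟩ => ⟨⟨g, h2⟩, h1, rfl⟩⟩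

theorem free_sub :
    FreeOn (fun (g : P₀) x => milnorAct (g : G) x) (N.subgroupOf P₀) (MilnorFace (G := G)) where
  down := milnor_down
  one := (milnorAct_isAct.comp P₀.subtype).one
  mul := (milnorAct_isAct.comp P₀.subtype).mul
  invariant g _ _ hs := milnor_invariant _ hs
  free g _ s hs hne he := by
    classical
    exact Subtype.ext ((milnor_freeOn (⊤ : Subgroup G)).free g trivial s hs hne he)

omit [DecidableEq G'] in
theorem tr_coe (g : P₀) :
    tr (fun (g : P₀) x => milnorAct (g : G) x) g = tr milnorAct (g : G) := rfl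

omit [DecidableEq G'] in
/-- an element of the parabolic fixed by the projection moves no class -/
theorem tr_add_mem [hN : N.Normal] {m : G} (hm : m ∈ P₀) (hm' : S.proj ⟨m, hm⟩ = 1) {c : ℕ}
    (hc : 1 ≤ c) {z : Ch (G × ℕ)}
    (hz : z ∈ cyc milnorAct ((N ⊓ P₀ : Subgroup G) : Set G) MilnorFace c) :
    tr milnorAct m z + z ∈ bnd milnorAct ((N ⊓ P₀ : Subgroup G) : Set G) MilnorFace c := by
  have hz' : z ∈ cyc (fun (g : P₀) x => milnorAct (g : G) x) (N.subgroupOf P₀ : Set P₀)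
      MilnorFace c := by
    rw [cyc_comp, show ((↑) : P₀ → G) = P₀.subtype from rfl, image_subgroupOf]
    exact hz
  refine ChMap.homotopic (actB := milnorAct) (σ := fun g : P₀ => (g : G))
      (H' := ((N ⊓ P₀ : Subgroup G) : Set G)) (K := c)
    (T := tr milnorAct m) (T' := LinearMap.id) free_sub (S.target_kern (c + 1)) ?_ ?_
    (fun g hg => ⟨hg, g.2⟩) (fun c => Rel_mono S.kern_le c) hc le_rfl hz'
  · refine ⟨by simp [tr_sg], ⟨fun d _ s hs => tr_Sz milnorAct_isAct
      (fun s hs => milnor_invariant m hs) (sg_mem hs), fun d _ s hs g hg => ?_⟩,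
      fun d _ s _ => by simp [milnorAct_isAct.bd_tr', add_self']⟩
    have hk : m * g * m⁻¹ * (g : G)⁻¹ ∈ S.kern := by
      refine S.mem_kern.mpr ⟨P₀.mul_mem (P₀.mul_mem (P₀.mul_mem hm g.2) (P₀.inv_mem hm))
        (P₀.inv_mem g.2), ?_, N.mul_mem (hN.conj_mem _ hg m) (N.inv_mem hg)⟩
      show S.proj (⟨m, hm⟩ * g * ⟨m, hm⟩⁻¹ * g⁻¹) = 1
      simp [hm']
    have e : tr milnorAct m (sg (s.image (milnorAct (g : G)))) =
        tr milnorAct (m * g * m⁻¹ * (g : G)⁻¹)
          (tr milnorAct (g : G) (tr milnorAct m (sg s))) := by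
      rw [← tr_sg, milnorAct_isAct.tr_mul, milnorAct_isAct.tr_mul, milnorAct_isAct.tr_mul]
      congr 2
      group
    rw [tr_coe, e]
    have h := mem_rel_add (act := milnorAct) (H := (S.kern : Set G)) (P := MilnorFace) (c := d + 0)
      (g := m * (g : G) * m⁻¹ * (g : G)⁻¹) hk
      (z := tr milnorAct (g : G) (tr milnorAct m (sg s)))
      (tr_Sz (act := milnorAct) milnorAct_isAct (P := MilnorFace) (g := (g : G))
        (fun s hs => milnor_invariant _ hs)
        (tr_Sz (act := milnorAct) milnorAct_isAct (P := MilnorFace) (g := m)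
          (fun s hs => milnor_invariant m hs) (sg_mem hs)))
    rw [add_comm (tr milnorAct (g : G) _)] at h
    exact h
  · exact ⟨rfl, ⟨fun d _ s hs => sg_mem hs, fun d _ s _ g _ => by simp [tr_sg, add_self']⟩,
      fun d _ s _ => by simp [add_self']⟩

/-- every class comes from the Levi part, and vanishes with it -/
theorem reduce [hN : N.Normal] {c : ℕ} (hc : 1 ≤ c) {z : Ch (G × ℕ)}
    (hz : z ∈ cyc milnorAct ((N ⊓ P₀ : Subgroup G) : Set G) MilnorFace c) :
    ∃ y, y ∈ cyc milnorAct (S.sec '' (N' : Set G')) MilnorFace c ∧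
      z + y ∈ bnd milnorAct ((N ⊓ P₀ : Subgroup G) : Set G) MilnorFace c ∧
      (cyc milnorAct (N' : Set G') MilnorFace c ≤ bnd milnorAct (N' : Set G') MilnorFace c →
        z ∈ bnd milnorAct ((N ⊓ P₀ : Subgroup G) : Set G) MilnorFace c) := by
  have hz' : z ∈ cyc (fun (g : P₀) x => milnorAct (g : G) x) (N.subgroupOf P₀ : Set P₀)
      MilnorFace c := by
    rw [cyc_comp, show ((↑) : P₀ → G) = P₀.subtype from rfl, image_subgroupOf]
    exact hz
  obtain ⟨φ, hφ⟩ := exists_chMap (K := c + 1) (free_sub (N := N) (P₀ := P₀))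
    (act' := fun (g : P₀) x => milnorAct (S.proj g) x)
    (Target.exact (milnorAct_isAct.comp S.proj) (fun g _ s hs => milnor_invariant _ hs)
      (milnor_acy (G := G') (c + 1))) (by intro x hx; simp at hx)
  obtain ⟨ψ, hψ⟩ := exists_chMap (K := c + 1) (milnor_freeOn N')
    (act' := fun (x : G') y => milnorAct (S.sec x) y)
    (Target.exact (milnorAct_isAct.comp S.sec) (fun g _ s hs => milnor_invariant _ hs)
      (milnor_acy (G := G) (c + 1))) (by intro x hx; simp at hx)
  have hψH : ∀ x ∈ N', S.sec x ∈ ((N ⊓ P₀ : Subgroup G) : Set G) := fun x hx =>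
    ⟨S.sec_N x hx, S.sec_mem x⟩
  have hφz : φ z ∈ cyc milnorAct (N' : Set G') MilnorFace c :=
    hφ.map_cyc (σ := fun g : P₀ => S.proj g) (H' := (N' : Set G')) (fun g hg => S.proj_N g hg) (fun _ => bot_le) hc
      (by omega) hz'
  have hψeq : ∀ d ≤ c + 1, ∀ y ∈ On (Sz MilnorFace d), ∀ x ∈ N',
      ψ (tr milnorAct x y) = tr milnorAct (S.sec x) (ψ y) := by
    intro d hd y hy x hx
    have := mapC_On (ψ.comp (tr milnorAct x) + (tr milnorAct (S.sec x)).comp ψ) (S := ⊥)
      (fun s hs => by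
        have := hψ.eqv.eqv d (by omega) s hs x hx
        simpa [tr_sg, tr, LinearMap.add_apply] using this) hy
    rw [Submodule.mem_bot, LinearMap.add_apply] at this
    exact (add_eq_zero_iff_eq_neg.mp this).trans (ZModModule.neg_eq_self _)
  have hT : ChMap (fun (g : P₀) x => milnorAct (g : G) x) (N.subgroupOf P₀) MilnorFace
      (fun (g : P₀) x => milnorAct (g : G) x) MilnorFace
      (Rel milnorAct (S.kern : Set G) MilnorFace) c (ψ.comp φ) := by
    refine ⟨by rw [LinearMap.comp_apply, hφ.empty, hψ.empty],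
      ⟨fun d hd s hs => hψ.eqv.map_Sz (a := 0) (b := 0) (by omega)
        (hφ.eqv.mem d (by omega) s hs), fun d hd s hs g hg => ?_⟩, fun d hd s hs => ?_⟩
    · have h1 : φ (sg (s.image fun x => milnorAct (g : G) x)) =
          tr milnorAct (S.proj g) (φ (sg s)) :=
        (add_eq_zero_iff_eq_neg.mp ((Submodule.mem_bot _).mp
          (hφ.eqv.eqv d (by omega) s hs g hg))).trans (ZModModule.neg_eq_self _)
      rw [LinearMap.comp_apply, LinearMap.comp_apply, h1, hψeq d (by omega) _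
        (hφ.eqv.mem d (by omega) s hs) _ (S.proj_N g hg)]
      have hk : (g : G) * (S.sec (S.proj g))⁻¹ ∈ S.kern := by
        refine S.mem_kern.mpr ⟨P₀.mul_mem g.2 (P₀.inv_mem (S.sec_mem _)), ?_,
          N.mul_mem hg (N.inv_mem (S.sec_N _ (S.proj_N g hg)))⟩
        show S.proj (g * ⟨_, S.sec_mem (S.proj g)⟩⁻¹) = 1
        rw [map_mul, map_inv, S.proj_sec, mul_inv_cancel]
      have hy := tr_Sz milnorAct_isAct (g := S.sec (S.proj g))
        (fun s hs => milnor_invariant _ hs)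
        (hψ.eqv.map_Sz (a := 0) (b := 0) (c := d) (by omega) (hφ.eqv.mem d (by omega) s hs))
      have := mem_rel_add (act := milnorAct) hk hy
      rwa [milnorAct_isAct.tr_mul, inv_mul_cancel_right] at this
    · have h1 : bd (φ (sg s)) = φ (bd (sg s)) :=
        (add_eq_zero_iff_eq_neg.mp ((Submodule.mem_bot _).mp
          (hφ.comm d (by omega) s hs))).trans (ZModModule.neg_eq_self _)
      have h2 := mapC_On (bd.comp ψ + ψ.comp bd) (S := ⊥)
        (fun t ht => by simpa using hψ.comm d (by omega) t ht) (hφ.eqv.mem (d + 1) (by omega) s hs)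
      rw [Submodule.mem_bot, LinearMap.add_apply, LinearMap.comp_apply, LinearMap.comp_apply,
        h1] at h2
      rw [LinearMap.comp_apply, LinearMap.comp_apply, h2]
      exact Submodule.zero_mem _
  have hI : ChMap (fun (g : P₀) x => milnorAct (g : G) x) (N.subgroupOf P₀) MilnorFace
      (fun (g : P₀) x => milnorAct (g : G) x) MilnorFace
      (Rel milnorAct (S.kern : Set G) MilnorFace) c (LinearMap.id) :=
    ⟨rfl, ⟨fun d _ s hs => sg_mem hs, fun d _ s _ g _ => by simp [tr_sg, add_self']⟩,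
      fun d _ s _ => by simp [add_self']⟩
  have h : z + ψ (φ z) ∈ bnd milnorAct ((N ⊓ P₀ : Subgroup G) : Set G) MilnorFace c :=
    ChMap.homotopic (actB := milnorAct) (σ := fun g : P₀ => (g : G))
      (H' := ((N ⊓ P₀ : Subgroup G) : Set G)) free_sub
      (S.target_kern (c + 1)) hI hT (fun g hg => ⟨hg, g.2⟩) (fun c => Rel_mono S.kern_le c)
      hc le_rfl hz'
  refine ⟨ψ (φ z), hψ.map_cyc (σ := fun x : G' => S.sec x)
    (H' := S.sec '' (N' : Set G')) (fun x hx => ⟨x, hx, rfl⟩)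
    (fun _ => bot_le) hc (by omega) hφz, h, fun hN' => ?_⟩
  exact add_eq_iff h (hψ.map_bnd (σ := fun x : G' => S.sec x)
    (H' := ((N ⊓ P₀ : Subgroup G) : Set G)) hψH (fun _ => bot_le) (by omega)
    (hN' hφz))

end Split

end Vale.Agent.P067.KO
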